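import Vale.Agent.P011.Hey.Sys
import Vale.Agent.P011.H167.AbBasic

/-!
# ABHN over global function fields: a good family (helper308)

The standard family, multiplied at one place by a large negative power of the uniformiser, is good:
strong approximation in coordinates.
-/

namespace Vale.Agent.P011.H308

open Module Vale.Agent.P011.H738 Vale.Agent.P011.H271 Vale.Agent.P011.Hey

set_option linter.unusedSectionVars false

noncomputable section

variable {k : Type} [Field k] [GFF k] {n : ℕ}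

section Coord

variable {D : Type} [Ring D] [Algebra k D]

/-- the splitting in coordinates -/
theorem spl_sum (s : Spl k D n) (v : Place k) (x : D) :
    s.g v x = ∑ j, algebraMap k v.comp (s.e.repr x j) • s.g v (s.e j) := by
  conv_lhs => rw [← s.e.sum_repr x]
  rw [map_sum]
  refine Finset.sum_congr rfl fun j _ => ?_
  rw [Algebra.smul_def, map_mul, s.g_alg]
  ext a b
  rw [Matrix.scalar_apply, Matrix.diagonal_mul]
  rfl

theorem spl_linInd (s : Spl k D n) (v : Place k) :
    LinearIndependent v.comp (fun i => s.g v (s.e i)) := by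
  refine linearIndependent_of_top_le_span_of_card_eq_finrank (s.span_top v).ge ?_
  rw [Module.finrank_matrix]
  simp

/-- coordinates of an element in the standard lattice, at a good place -/
theorem coord_le (s : Spl k D n) {v : Place k} (hv : v ∉ s.fin.toFinset) (x : D) :
    x ∈ s.M v (std (cO v) v.comp n) ↔ ∀ j, v.abv (s.e.repr x j) ≤ 1 := by
  have h0 : ∀ X : Matrix (Fin n) (Fin n) v.comp,
      (∀ i j, X i j ∈ cO v) ↔ X ∈ Submodule.span (cO v) (Set.range fun i => s.g v (s.e i)) := by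
    by_contra h
    exact hv (s.fin.mem_toFinset.2 h)
  have h1 : x ∈ s.M v (std (cO v) v.comp n) ↔ ∀ i j, s.g v x i j ∈ cO v := by
    rw [Spl.mem_M]
    refine forall_congr' fun i => ?_
    rw [mem_stdv]
    rfl
  rw [h1, h0, Submodule.mem_span_range_iff_exists_fun]
  constructor
  · rintro ⟨c, hc⟩ j
    have h2 : ∑ j, (c j : v.comp) • s.g v (s.e j) =
        ∑ j, algebraMap k v.comp (s.e.repr x j) • s.g v (s.e j) := by
      rw [← spl_sum, ← hc]
      rfl
    have h3 := (Fintype.linearIndependent_iffₛ.1 (spl_linInd s v)) _ _ h2 j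
    rw [← norm_alg, ← h3]
    exact (c j).2
  · intro h
    refine ⟨fun j => ⟨algebraMap k v.comp (s.e.repr x j), alg_mem_cO.2 (h j)⟩, ?_⟩
    rw [spl_sum]
    rfl

/-- at any place, small coordinates give small entries -/
theorem exists_coord (s : Spl k D n) (v : Place k) :
    ∃ B : ℝ, 0 < B ∧ ∀ (c : k) (x : D), (∀ j, v.abv (c * s.e.repr x j) ≤ B⁻¹) →
      ∀ i, (algebraMap k v.comp c • s.g v x) i ∈ std (cO v) v.comp n := by
  classical
  let B : ℝ := 1 + ∑ j : Fin n × Fin n, ∑ a, ∑ b, ‖s.g v (s.e j) a b‖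
  have hB : ∀ j a b, ‖s.g v (s.e j) a b‖ ≤ B := by
    intro j a b
    have h1 : ‖s.g v (s.e j) a b‖ ≤ ∑ b, ‖s.g v (s.e j) a b‖ :=
      Finset.single_le_sum (f := fun b => ‖s.g v (s.e j) a b‖) (fun _ _ => norm_nonneg _)
        (Finset.mem_univ b)
    have h2 : ∑ b, ‖s.g v (s.e j) a b‖ ≤ ∑ a, ∑ b, ‖s.g v (s.e j) a b‖ :=
      Finset.single_le_sum (f := fun a => ∑ b, ‖s.g v (s.e j) a b‖)
        (fun _ _ => Finset.sum_nonneg fun _ _ => norm_nonneg _) (Finset.mem_univ a)
    have h3 : ∑ a, ∑ b, ‖s.g v (s.e j) a b‖ ≤ ∑ j : Fin n × Fin n, ∑ a, ∑ b, ‖s.g v (s.e j) a b‖ :=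
      Finset.single_le_sum (f := fun j : Fin n × Fin n => ∑ a, ∑ b, ‖s.g v (s.e j) a b‖)
        (fun _ _ => Finset.sum_nonneg fun _ _ => Finset.sum_nonneg fun _ _ => norm_nonneg _)
        (Finset.mem_univ j)
    have h4 : (∑ j : Fin n × Fin n, ∑ a, ∑ b, ‖s.g v (s.e j) a b‖) ≤ B := by
      simp only [B]; linarith
    linarith
  have hpos : 0 < B := by
    have : 0 ≤ ∑ j : Fin n × Fin n, ∑ a, ∑ b, ‖s.g v (s.e j) a b‖ :=
      Finset.sum_nonneg fun _ _ => Finset.sum_nonneg fun _ _ => Finset.sum_nonneg fun _ _ =>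
        norm_nonneg _
    simp only [B]; linarith
  refine ⟨B, hpos, fun c x hx i => ?_⟩
  rw [mem_stdv]
  intro b
  rw [spl_sum]
  rw [Finset.smul_sum, Matrix.sum_apply]
  refine IsUltrametricDist.norm_sum_le_of_forall_le_of_nonneg zero_le_one fun j _ => ?_
  rw [smul_smul, Matrix.smul_apply, smul_eq_mul, norm_mul, ← map_mul, norm_alg]
  calc _ ≤ B⁻¹ * B := by
        refine mul_le_mul (hx j) (hB j i b) (norm_nonneg _) (inv_nonneg.2 hpos.le)
    _ = 1 := inv_mul_cancel₀ hpos.ne'

end Coord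

variable {D : Type} [DivisionRing D] [Algebra k D]

open H167.Ab H167.Ab.LSys in
theorem sys_hgood (s : Spl k D n) (hn : 0 < n) (h : LocFacts k n) (v0 : Place k) :
    ∃ m, ((fstd (s.sys hn h)).tw v0 (((s.sys hn h).pi v0)⁻¹ ^ m)).Good := by
  classical
  let T : Finset (Place k) := s.fin.toFinset.erase v0
  have hT : v0 ∉ T := Finset.notMem_erase _ _
  choose B hB0 hB using exists_coord s
  obtain ⟨ε, hε, hεB⟩ : ∃ ε : ℝ, 0 < ε ∧ ∀ v ∈ T, ε ≤ (B v)⁻¹ := by
    rcases T.eq_empty_or_nonempty with h | h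
    · exact ⟨1, one_pos, fun v hv => by rw [h] at hv; exact absurd hv (Finset.notMem_empty _)⟩
    · exact ⟨T.inf' h fun v => (B v)⁻¹, (Finset.lt_inf'_iff _).2 fun v _ => inv_pos.2 (hB0 v),
        fun v hv => Finset.inf'_le _ hv⟩
  obtain ⟨C, hC⟩ := place_strong v0 T hT hε
  obtain ⟨m, hm⟩ : ∃ m : ℕ, (v0.abv (unif v0)) ^ m * |C| ≤ (B v0)⁻¹ := by
    have h1 : v0.abv (unif v0) < 1 := by
      rw [abv_unif]; exact inv_lt_one_of_one_lt₀ (one_lt_qq' v0)
    obtain ⟨m, hm⟩ := exists_pow_lt_of_lt_one (x := (B v0)⁻¹ / (|C| + 1))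
      (by have := inv_pos.2 (hB0 v0); positivity) h1
    refine ⟨m, ?_⟩
    calc _ ≤ (B v0)⁻¹ / (|C| + 1) * |C| := by gcongr
      _ ≤ (B v0)⁻¹ / (|C| + 1) * (|C| + 1) := by
          have := inv_pos.2 (hB0 v0)
          gcongr; linarith
      _ = _ := by field_simp
  refine ⟨m, fun x hx => ?_⟩
  have hfin : ∀ j, {v : Place k | 1 < v.abv (s.e.repr (x v) j)}.Finite := by
    intro j
    refine (hx.union s.fin.toFinset.finite_toSet).subset fun v hv => ?_
    by_contra hcon
    rw [Set.mem_union, not_or] at hcon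
    have h1 : x v ∈ s.M v (std (cO v) v.comp n) := by
      by_contra h2
      exact hcon.1 h2
    exact absurd ((coord_le s hcon.2 (x v)).1 h1 j) (not_le.2 hv)
  choose y hy1 hy2 hy3 using fun j => hC (fun v => s.e.repr (x v) j) (hfin j)
  refine ⟨∑ j, y j • s.e j, fun v => ?_⟩
  have hco : ∀ (v : Place k) j, s.e.repr (x v - ∑ j, y j • s.e j) j = s.e.repr (x v) j - y j := by
    intro v j
    rw [map_sub, Finsupp.sub_apply, s.e.repr_sum_self]
  by_cases hv0 : v = v0
  · subst hv0
    have e1 : ((fstd (s.sys hn h)).tw v (((s.sys hn h).pi v)⁻¹ ^ m)) v =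
        (s.sys hn h).act v (stdL n v) (((s.sys hn h).pi v)⁻¹ ^ m) := by
      change (if v = v then _ else _) = _
      rw [if_pos rfl]
      rfl
    rw [e1, mem_M_act]
    change _ ∈ s.M v (std (cO v) v.comp n)
    rw [Spl.mem_M]
    have e2 : (((((s.sys hn h).pi v)⁻¹ ^ m)⁻¹ : Dˣ) : D) = algebraMap k D (unif v ^ m) := by
      rw [inv_pow, inv_inv, Units.val_pow_eq_pow_val, map_pow]
      rfl
    have e3 : s.g v ((x v - ∑ j, y j • s.e j) * (((((s.sys hn h).pi v)⁻¹ ^ m)⁻¹ : Dˣ) : D)) =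
        algebraMap k v.comp (unif v ^ m) • s.g v (x v - ∑ j, y j • s.e j) := by
      rw [e2, ← Algebra.commutes, map_mul, s.g_alg]
      ext a b
      rw [Matrix.scalar_apply, Matrix.diagonal_mul]
      rfl
    intro i
    rw [e3]
    refine hB v _ _ (fun j => ?_) i
    rw [hco, map_mul, map_pow]
    refine le_trans ?_ hm
    gcongr
    exact (hy3 j).trans (le_abs_self C)
  · have e1 : ((fstd (s.sys hn h)).tw v0 (((s.sys hn h).pi v0)⁻¹ ^ m)) v = stdL n v := by
      change (if v = v0 then _ else _) = _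
      rw [if_neg hv0]
      rfl
    rw [e1]
    change _ ∈ s.M v (std (cO v) v.comp n)
    by_cases hvT : v ∈ T
    · have h1 := hB v 1 (x v - ∑ j, y j • s.e j) (fun j => by
        rw [one_mul, hco]
        exact (hy1 j v hvT).trans (hεB v hvT))
      rw [Spl.mem_M]
      intro i
      have h2 := h1 i
      rw [map_one, one_smul] at h2
      exact h2
    · have hvs : v ∉ s.fin.toFinset := fun hc => hvT (Finset.mem_erase.2 ⟨hv0, hc⟩)
      rw [coord_le s hvs]
      intro j
      rw [hco]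
      exact hy2 j v hv0

end

end Vale.Agent.P011.H308
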