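import Vale.Agent.P011.H308.PlHos

/-!
# The place of an extension defined by an embedding in the completion

`w` a place of `K₀`, `k` a field containing `K₀`, `s : k →ₐ[K₀] w.comp`. The absolute value
`x ↦ ‖s x‖` is a place of `k` with the same residue field and the same completion.
-/

open Vale.Agent.P011.H738

namespace Vale.Agent.P011.H308

noncomputable section

section base

variable {K₀ : Type} [Field K₀] (w : Place K₀)

theorem norm_add_le_max (x y : w.comp) : ‖x + y‖ ≤ max ‖x‖ ‖y‖ := by
  induction x, y using UniformSpace.Completion.induction_on₂ with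
  | hp => exact isClosed_le (by fun_prop) (by fun_prop)
  | ih a b =>
    rw [← UniformSpace.Completion.coe_add, UniformSpace.Completion.norm_coe,
      UniformSpace.Completion.norm_coe, UniformSpace.Completion.norm_coe]
    exact w.nonarch a.ofAbs b.ofAbs

theorem exists_near (x : w.comp) {ε : ℝ} (hε : 0 < ε) :
    ∃ y : K₀, ‖x - algebraMap K₀ w.comp y‖ < ε := by
  obtain ⟨y, hy⟩ := (UniformSpace.Completion.denseRange_coe (α := WithAbs w.abv)).exists_dist_lt
    x hε
  refine ⟨y.ofAbs, ?_⟩
  rwa [dist_eq_norm] at hy

/-- A nonzero element has the absolute value of a close element of `K₀`. -/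
theorem exists_norm_eq {x : w.comp} (hx : x ≠ 0) {ε : ℝ} (hε : 0 < ε) :
    ∃ y : K₀, ‖x - algebraMap K₀ w.comp y‖ < ε ∧ w.abv y = ‖x‖ := by
  obtain ⟨y, hy⟩ := exists_near w x (lt_min hε (norm_pos_iff.mpr hx))
  have h1 := hy.trans_le (min_le_left _ _)
  have h2 := hy.trans_le (min_le_right _ _)
  refine ⟨y, h1, ?_⟩
  rw [← norm_algebraMap w y]
  apply le_antisymm
  · have h3 := norm_add_le_max w (-(x - algebraMap K₀ w.comp y)) x
    rw [neg_sub, sub_add_cancel, norm_sub_rev, max_eq_right h2.le] at h3
    exact h3
  · by_contra hcon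
    rw [not_le] at hcon
    have h3 := norm_add_le_max w (x - algebraMap K₀ w.comp y) (algebraMap K₀ w.comp y)
    rw [sub_add_cancel] at h3
    exact absurd h3 (not_le.mpr (max_lt h2 hcon))

end base

variable {K₀ k : Type} [Field K₀] [Field k] [Algebra K₀ k] (w : Place K₀)
  (s : k →ₐ[K₀] w.comp)

/-- The absolute value. -/
def extAbv : AbsoluteValue k ℝ where
  toFun x := ‖s x‖
  map_mul' x y := by rw [map_mul, norm_mul]
  nonneg' x := norm_nonneg _
  eq_zero' x := by rw [norm_eq_zero, map_eq_zero]
  add_le' x y := by rw [map_add]; exact norm_add_le _ _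

theorem extAbv_apply (x : k) : extAbv w s x = ‖s x‖ := rfl

theorem extAbv_algebraMap (x : K₀) : extAbv w s (algebraMap K₀ k x) = w.abv x := by
  rw [extAbv_apply, s.commutes, norm_algebraMap]

theorem extAbv_nonarch (x y : k) : extAbv w s (x + y) ≤ max (extAbv w s x) (extAbv w s y) := by
  rw [extAbv_apply, map_add]
  exact norm_add_le_max w _ _

theorem ext_residue :
    Finite (integers (extAbv w s) (extAbv_nonarch w s) ⧸
      maxIdeal (extAbv w s) (extAbv_nonarch w s)) ∧
    Nat.card (integers (extAbv w s) (extAbv_nonarch w s) ⧸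
      maxIdeal (extAbv w s) (extAbv_nonarch w s)) =
      Nat.card (integers w.abv w.nonarch ⧸ maxIdeal w.abv w.nonarch) := by
  let I := integers (extAbv w s) (extAbv_nonarch w s)
  let M : Ideal I := maxIdeal (extAbv w s) (extAbv_nonarch w s)
  let I₀ := integers w.abv w.nonarch
  let M₀ : Ideal I₀ := maxIdeal w.abv w.nonarch
  let g : I₀ →+* I := ((algebraMap K₀ k).comp I₀.subtype).codRestrict I (fun a => by
    change extAbv w s (algebraMap K₀ k a) ≤ 1
    rw [extAbv_algebraMap]
    exact a.2)
  have hg : ∀ a, ((g a : I) : k) = algebraMap K₀ k a := fun a => rfl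
  let f : I₀ →+* I ⧸ M := (Ideal.Quotient.mk M).comp g
  have hker : RingHom.ker f = M₀ := by
    ext a
    rw [RingHom.mem_ker]
    change Ideal.Quotient.mk M (g a) = 0 ↔ _
    rw [Ideal.Quotient.eq_zero_iff_mem]
    change extAbv w s (algebraMap K₀ k a) < 1 ↔ _
    rw [extAbv_algebraMap]
    rfl
  have hsurj : Function.Surjective f := by
    intro y
    obtain ⟨⟨x, hx⟩, rfl⟩ := Ideal.Quotient.mk_surjective y
    obtain ⟨a, ha⟩ := exists_near w (s x) one_pos
    have ha1 : w.abv a ≤ 1 := by
      rw [← norm_algebraMap w a]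
      have h3 := norm_add_le_max w (-(s x - algebraMap K₀ w.comp a)) (s x)
      rw [neg_sub, sub_add_cancel, norm_sub_rev] at h3
      exact h3.trans (max_le ha.le hx)
    refine ⟨⟨a, ha1⟩, ?_⟩
    change Ideal.Quotient.mk M (g _) = Ideal.Quotient.mk M _
    rw [Ideal.Quotient.eq]
    change extAbv w s (algebraMap K₀ k a - x) < 1
    rw [extAbv_apply, map_sub, s.commutes, norm_sub_rev]
    exact ha
  have e : (I₀ ⧸ M₀) ≃+* (I ⧸ M) :=
    (Ideal.quotEquivOfEq hker.symm).trans (RingHom.quotientKerEquivOfSurjective hsurj)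
  have hfin : Finite (I₀ ⧸ M₀) := w.normalized.1
  exact ⟨Finite.of_equiv _ e.toEquiv, (Nat.card_congr e.toEquiv).symm⟩

/-- **The place of `k` defined by the embedding `s`.** -/
def plExt : Place k where
  abv := extAbv w s
  nonarch := extAbv_nonarch w s
  normalized := by
    rw [(ext_residue w s).2]
    refine ⟨(ext_residue w s).1, ?_, ?_⟩
    · obtain ⟨z, hz⟩ := w.normalized.2.1
      exact ⟨algebraMap K₀ k z, by rw [extAbv_algebraMap, hz]⟩
    · intro x hx
      have h0 : s x ≠ 0 := (map_ne_zero s).mpr hx
      obtain ⟨y, -, hy⟩ := exists_norm_eq w h0 one_pos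
      have hy0 : y ≠ 0 := by
        rintro rfl
        rw [map_zero] at hy
        exact h0 (norm_eq_zero.mp hy.symm)
      obtain ⟨m, hm⟩ := w.normalized.2.2 y hy0
      exact ⟨m, by rw [extAbv_apply, ← hy, hm]⟩

theorem plExt_abv (x : k) : (plExt w s).abv x = ‖s x‖ := rfl

/-- The embedding as a map on the normed field. -/
def extS : WithAbs (plExt w s).abv →+* w.comp :=
  s.toRingHom.comp (WithAbs.equiv (plExt w s).abv).toRingHom

theorem isometry_extS : Isometry (extS w s) :=
  AddMonoidHomClass.isometry_of_norm (extS w s) fun _ => rfl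

/-- The map from the completion of `k` at the place of `s`. -/
def extC : (plExt w s).comp →+* w.comp :=
  UniformSpace.Completion.extensionHom (extS w s) (isometry_extS w s).continuous

theorem extC_algebraMap (x : k) : extC w s (algebraMap k (plExt w s).comp x) = s x :=
  UniformSpace.Completion.extensionHom_coe (extS w s) (isometry_extS w s).continuous
    (WithAbs.toAbs (plExt w s).abv x)

theorem isometry_extC : Isometry (extC w s) := (isometry_extS w s).completion_extension

theorem extC_surjective : Function.Surjective (extC w s) := by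
  have h1 : IsClosed (Set.range (extC w s)) := (isometry_extC w s).isClosedEmbedding.isClosed_range
  have h2 : Dense (Set.range (extC w s)) := by
    refine Dense.mono ?_ (UniformSpace.Completion.denseRange_coe (α := WithAbs w.abv))
    rintro _ ⟨y, rfl⟩
    refine ⟨algebraMap k (plExt w s).comp (algebraMap K₀ k y.ofAbs), ?_⟩
    rw [extC_algebraMap, s.commutes]
    rfl
  intro x
  have h3 : x ∈ closure (Set.range (extC w s)) := h2 x
  rwa [h1.closure_eq] at h3

/-- **The completion of `k` at the place of `s` is the completion of `K₀`.** -/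
def extE : (plExt w s).comp ≃+* w.comp :=
  RingEquiv.ofBijective (extC w s) ⟨(isometry_extC w s).injective, extC_surjective w s⟩

theorem extE_algebraMap (x : k) : extE w s (algebraMap k (plExt w s).comp x) = s x :=
  extC_algebraMap w s x

theorem norm_extE (x : (plExt w s).comp) : ‖extE w s x‖ = ‖x‖ :=
  (isometry_extC w s).norm_map_of_map_zero (map_zero _) x

theorem extE_symm_apply (x : k) : (extE w s).symm (s x) = algebraMap k (plExt w s).comp x := by
  rw [RingEquiv.symm_apply_eq, extE_algebraMap]

end

end Vale.Agent.P011.H308
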