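import Vale.Agent.P011.H308.RedFF
import Vale.Agent.P011.H268.LangC2Cor

/-!
# Hermitian forms in three variables over a local field of positive characteristic are isotropic

The local field is the completion of a quadratic extension `K / k` of global function fields, with
the involution extended by continuity. The form is a limit of hermitian forms over `K`, which are
isotropic by the theorem of Lang (function fields are `C₂`), and a limit of normalised isotropic
vectors is isotropic.
-/

open Module Matrix Vale.Agent.P011.H738 Vale.Agent.P011.H268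

namespace Vale.Agent.P011.H308

section global

variable {k K : Type} [Field k] [Field K] [StarRing K] [Algebra k K]

/-- The degree of the quadratic extension is at least two. -/
theorem two_le_finrank (hfix : ∀ x : K, star x = x ↔ x ∈ Set.range (algebraMap k K))
    (hne : ∃ x : K, star x ≠ x) : 2 ≤ finrank k K := by
  have hfd := finite_of_star hfix hne
  have h0 : 0 < finrank k K := finrank_pos
  by_contra hcon
  have h1 : finrank k K = 1 := by omega
  obtain ⟨x, hx⟩ := hne
  apply hx
  rw [hfix]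
  exact (Algebra.finrank_eq_one_iff_bijective_algebraMap.mp h1).2 x

/-- An element of trace one. -/
theorem exists_trace_one (hne : ∃ x : K, star x ≠ x) : ∃ e : K, e + star e = 1 := by
  by_cases h2 : (2 : K) = 0
  · obtain ⟨x, hx⟩ := hne
    have h1 : x + star x ≠ 0 := by
      intro h
      apply hx
      have : star x = -x := by linear_combination h
      rw [this]
      linear_combination (-x) * h2
    refine ⟨x / (x + star x), ?_⟩
    rw [star_div₀, star_add, star_star, add_comm (star x) x, ← add_div, div_self h1]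
  · refine ⟨2⁻¹, ?_⟩
    rw [star_inv₀]
    have h3 : star (2 : K) = 2 := by
      rw [← one_add_one_eq_two, star_add, star_one]
    rw [h3, ← two_mul, mul_inv_cancel₀ h2]

/-- The value of a hermitian form. -/
theorem star_form {L : Type*} [Field L] [StarRing L] {n : ℕ} {H : Matrix (Fin n) (Fin n) L}
    (hH : Hᴴ = H) (x : Fin n → L) : star (x ⬝ᵥ (H *ᵥ star x)) = x ⬝ᵥ (H *ᵥ star x) := by
  rw [← star_dotProduct_star, star_mulVec, star_star, hH, ← dotProduct_mulVec]

/-- Isotropy over a global function field. -/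
theorem isotropic_global (hk : IsGlobalFunctionField k)
    (hfix : ∀ x : K, star x = x ↔ x ∈ Set.range (algebraMap k K))
    (hne : ∃ x : K, star x ≠ x) {n : ℕ} (hn : 3 ≤ n) {H : Matrix (Fin n) (Fin n) K}
    (hH : Hᴴ = H) : ∃ x : Fin n → K, x ≠ 0 ∧ x ⬝ᵥ (H *ᵥ star x) = 0 := by
  have hfd := finite_of_star hfix hne
  have h2 := two_le_finrank hfix hne
  obtain ⟨F, _, _, _, hF⟩ := hk
  obtain ⟨ψ, hψ⟩ := exists_section k K
  have hstk : ∀ a : k, star (algebraMap k K a) = algebraMap k K a := fun a => (hfix _).2 ⟨a, rfl⟩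
  have hsm : ∀ (a : k) (y : Fin n → K), star (a • y) = a • star y := by
    intro a y
    ext i
    rw [Pi.star_apply, Pi.smul_apply, Algebra.smul_def, star_mul', hstk, Pi.smul_apply,
      Algebra.smul_def]
    rfl
  let B : (Fin n → K) →ₗ[k] (Fin n → K) →ₗ[k] k :=
    LinearMap.mk₂ k (fun x y => ψ (x ⬝ᵥ (H *ᵥ star y)))
      (fun x x' y => by rw [add_dotProduct, map_add])
      (fun a x y => by rw [smul_dotProduct, map_smul])
      (fun x y y' => by rw [star_add, mulVec_add, dotProduct_add, map_add])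
      (fun a x y => by rw [hsm, mulVec_smul, dotProduct_smul, map_smul])
  obtain ⟨x, hx, hQ⟩ := exists_isotropic_quadraticMap F (RatFunc F)
    (LinearMap.BilinMap.toQuadraticMap B) (by
      rw [finrank_self, finrank_pi_fintype]
      simp only [Finset.sum_const, Finset.card_univ, Fintype.card_fin, smul_eq_mul]
      nlinarith)
  refine ⟨x, hx, ?_⟩
  have h3 : ψ (x ⬝ᵥ (H *ᵥ star x)) = 0 := hQ
  obtain ⟨a, ha⟩ := (hfix _).1 (star_form hH x)
  rw [← ha, hψ] at h3
  rw [← ha, h3, map_zero]

end global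

section loc

/-- **Isotropy over the completion.** -/
theorem isotropic {k K : Type} [Field k] (hk : IsGlobalFunctionField k) [Field K] [StarRing K]
    [Algebra k K] (hfix : ∀ x : K, star x = x ↔ x ∈ Set.range (algebraMap k K))
    (hne : ∃ x : K, star x ≠ x) {L : Type*} [NontriviallyNormedField L] [ProperSpace L]
    [StarRing L] (hst : ∀ x : L, ‖star x‖ = ‖x‖) (φ : K →+* L)
    (hφ : ∀ x, φ (star x) = star (φ x)) (hd : DenseRange φ) {n : ℕ} (hn : 3 ≤ n)
    {H : Matrix (Fin n) (Fin n) L} (hH : Hᴴ = H) :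
    ∃ x : Fin n → L, x ≠ 0 ∧ x ⬝ᵥ (H *ᵥ star x) = 0 := by
  by_contra hcon
  push Not at hcon
  have hn0 : NeZero n := ⟨by omega⟩
  have hcs : Continuous (star : L → L) :=
    (AddMonoidHomClass.isometry_of_norm (starAddEquiv : L ≃+ L) hst).continuous
  -- the shell
  obtain ⟨c, hc⟩ := NormedField.exists_one_lt_norm L
  let S : Set (Fin n → L) := {y | ‖y‖ ≤ 1 ∧ 1 / ‖c‖ ≤ ‖y‖}
  have hScomp : IsCompact S := by
    have h1 : S = Metric.closedBall 0 1 ∩ {y | 1 / ‖c‖ ≤ ‖y‖} := by
      ext y
      simp [S]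
    rw [h1]
    exact (isCompact_closedBall _ _).inter_right (isClosed_le continuous_const continuous_norm)
  have hshell : ∀ x : Fin n → L, x ≠ 0 → ∃ d : L, d ≠ 0 ∧ d • x ∈ S := by
    intro x hx
    obtain ⟨d, hd0, h1, h2, -⟩ := rescale_to_shell hc one_pos hx
    exact ⟨d, hd0, h1.le, h2⟩
  have hSne : S.Nonempty := by
    obtain ⟨d, -, hd⟩ := hshell (fun _ => 1) (fun h => one_ne_zero (congrFun h (0 : Fin n)))
    exact ⟨_, hd⟩
  have hcont : Continuous fun y : Fin n → L => ‖y ⬝ᵥ (H *ᵥ star y)‖ := by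
    have h1 : Continuous fun y : Fin n → L => star y :=
      continuous_pi fun i => hcs.comp (continuous_apply i)
    refine continuous_norm.comp ?_
    exact Continuous.dotProduct continuous_id (Continuous.matrix_mulVec continuous_const h1)
  obtain ⟨y₀, hy₀, hmin⟩ := hScomp.exists_isMinOn hSne hcont.continuousOn
  have hcpos : 0 < 1 / ‖c‖ := by positivity
  have hS0 : ∀ y ∈ S, y ≠ 0 := by
    rintro y hy rfl
    have := hy.2
    rw [norm_zero] at this
    linarith
  set m := ‖y₀ ⬝ᵥ (H *ᵥ star y₀)‖ with hm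
  have hmpos : 0 < m := norm_pos_iff.mpr (hcon y₀ (hS0 y₀ hy₀))
  -- the approximation
  obtain ⟨e, he⟩ := exists_trace_one hne
  have hδ : 0 < m / (2 * (n * n + 1 : ℝ)) := by positivity
  set δ := m / (2 * (n * n + 1 : ℝ)) with hδdef
  have happ : ∀ a b, ∃ z : K, ‖φ z - φ e * H a b‖ < δ := by
    intro a b
    obtain ⟨z, hz⟩ := hd.exists_dist_lt (φ e * H a b) hδ
    exact ⟨z, by rwa [dist_comm, dist_eq_norm] at hz⟩
  choose M hM using happ
  let H' : Matrix (Fin n) (Fin n) K := Matrix.of M + (Matrix.of M)ᴴ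
  have hH' : H'ᴴ = H' := by
    rw [conjTranspose_add, conjTranspose_conjTranspose, add_comm]
  have hclose : ∀ a b, ‖φ (H' a b) - H a b‖ ≤ 2 * δ := by
    intro a b
    have h1 : φ (H' a b) = φ (M a b) + star (φ (M b a)) := by
      change φ (M a b + star (M b a)) = _
      rw [map_add, hφ]
    have h2 : star (H b a) = H a b := congrFun (congrFun hH a) b
    have h3 : φ (H' a b) - H a b =
        (φ (M a b) - φ e * H a b) + star (φ (M b a) - φ e * H b a) := by
      rw [h1, star_sub, star_mul', h2, ← hφ]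
      have h4 : φ e + φ (star e) = 1 := by rw [← map_add, he, map_one]
      have h5 := hφ e
      linear_combination (H a b) * h4 - (H a b) * h5
    rw [h3]
    refine (norm_add_le _ _).trans ?_
    rw [hst]
    linarith [hM a b, hM b a]
  obtain ⟨x, hx, hx0⟩ := isotropic_global hk hfix hne hn hH'
  -- the normalised vector
  have hφx : (fun i => φ (x i)) ≠ 0 := by
    intro h
    apply hx
    ext i
    exact (map_eq_zero φ).mp (congrFun h i)
  obtain ⟨d, hd0, hdS⟩ := hshell _ hφx
  set y : Fin n → L := d • fun i => φ (x i) with hy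
  have hzero : y ⬝ᵥ (H'.map φ *ᵥ star y) = 0 := by
    have h1 : (fun i => φ (x i)) ⬝ᵥ (H'.map φ *ᵥ star fun i => φ (x i)) = 0 := by
      have h2 : φ (x ⬝ᵥ (H' *ᵥ star x)) = 0 := by rw [hx0, map_zero]
      rw [← h2]
      simp only [dotProduct, mulVec, map_sum, map_mul, Matrix.map_apply, Pi.star_apply, hφ]
    rw [hy, star_smul, mulVec_smul, smul_dotProduct, dotProduct_smul, h1, smul_zero, smul_zero]
  have hdiff : ‖y ⬝ᵥ (H *ᵥ star y)‖ ≤ (n * n) * (2 * δ) := by
    have h1 : y ⬝ᵥ (H *ᵥ star y) = -(y ⬝ᵥ ((H'.map φ - H) *ᵥ star y)) := by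
      rw [sub_mulVec, dotProduct_sub, hzero, zero_sub, neg_neg]
    rw [h1, norm_neg]
    have hy1 : ∀ i, ‖y i‖ ≤ 1 := fun i => (norm_le_pi_norm y i).trans hdS.1
    calc ‖y ⬝ᵥ ((H'.map φ - H) *ᵥ star y)‖
        ≤ ∑ a, ‖y a * ∑ b, (H'.map φ - H) a b * star (y b)‖ := norm_sum_le _ _
      _ ≤ ∑ _a : Fin n, ∑ _b : Fin n, (2 * δ) := by
          refine Finset.sum_le_sum fun a _ => ?_
          rw [norm_mul]
          have h2 : ‖∑ b, (H'.map φ - H) a b * star (y b)‖ ≤ ∑ _b : Fin n, (2 * δ) := by
            refine (norm_sum_le _ _).trans (Finset.sum_le_sum fun b _ => ?_)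
            rw [norm_mul, hst]
            have h3 := hclose a b
            have h4 := hy1 b
            calc ‖(H'.map φ - H) a b‖ * ‖y b‖ ≤ (2 * δ) * 1 :=
                  mul_le_mul h3 h4 (norm_nonneg _) (by positivity)
              _ = 2 * δ := mul_one _
          calc ‖y a‖ * ‖∑ b, (H'.map φ - H) a b * star (y b)‖
              ≤ 1 * ∑ _b : Fin n, (2 * δ) :=
                mul_le_mul (hy1 a) h2 (norm_nonneg _) zero_le_one
            _ = _ := one_mul _
      _ = (n * n) * (2 * δ) := by
          simp only [Finset.sum_const, Finset.card_univ, Fintype.card_fin, nsmul_eq_mul]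
          ring
  have h5 : m ≤ ‖y ⬝ᵥ (H *ᵥ star y)‖ := hmin hdS
  have h6 : (n * n : ℝ) * (2 * δ) < m := by
    rw [hδdef]
    have h7 : (0 : ℝ) < n * n + 1 := by positivity
    have h8 : (n * n : ℝ) * (2 * (m / (2 * (n * n + 1)))) = m * (n * n / (n * n + 1)) := by
      field_simp
    rw [h8]
    have h9 : (n * n / (n * n + 1) : ℝ) < 1 := by
      rw [div_lt_one h7]
      linarith
    nlinarith
  linarith

end loc

end Vale.Agent.P011.H308
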