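import Vale.Agent.P011.H308.Count

/-!
# Colour sets

`f : P → R` a colouring of the rational points; for a box `B` and a coset `y` of the lattice the
colour set `colSet ε y B` is the set of the colours of density at least `ε` in `y ∩ B`.
Equivariance, monotonicity, measurability.
-/

open MeasureTheory Set
open scoped Pointwise ENNReal

namespace Vale.Agent.P011.H308

section defs

variable {P V R : Type*} [AddCommGroup P] (Lam : AddSubgroup P) (i : P → V) (f : P → R)

/-- The number of points of colour `a` of the coset `y` in the box `B`. -/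
noncomputable def cntCol (a : R) (y : P ⧸ Lam) (B : Set V) : ℕ :=
  {ξ ∈ pts Lam i y B | f ξ = a}.ncard

variable [Fintype R]

open Classical in
/-- The colours of density at least `ε` in `y ∩ B`. -/
noncomputable def colSet (ε : ℝ) (y : P ⧸ Lam) (B : Set V) : Finset R :=
  Finset.univ.filter fun a => ε * cnt Lam i y B ≤ cntCol Lam i f a y B

end defs

section basic

variable {P V R : Type*} [AddCommGroup P] {Lam : AddSubgroup P} {i : P → V} {f : P → R}

theorem cntCol_le (a : R) {y : P ⧸ Lam} {B : Set V} (hf : (pts Lam i y B).Finite) :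
    cntCol Lam i f a y B ≤ cnt Lam i y B :=
  ncard_le_ncard (fun _ h => h.1) hf

theorem cntCol_mono (a : R) {y : P ⧸ Lam} {B B' : Set V} (h : B ⊆ B')
    (hf : (pts Lam i y B').Finite) : cntCol Lam i f a y B ≤ cntCol Lam i f a y B' :=
  ncard_le_ncard (fun _ hξ => ⟨pts_mono h hξ.1, hξ.2⟩) (hf.subset fun _ h => h.1)

theorem sum_cntCol [Fintype R] {y : P ⧸ Lam} {B : Set V} (hf : (pts Lam i y B).Finite) :
    ∑ a, cntCol Lam i f a y B = cnt Lam i y B := by
  classical
  have h1 : ∀ a, cntCol Lam i f a y B = (hf.toFinset.filter (fun ξ => f ξ = a)).card := by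
    intro a
    rw [cntCol, ← Set.ncard_coe_finset]
    congr 1
    ext ξ
    simp
  rw [Finset.sum_congr rfl (fun a _ => h1 a), cnt, Set.ncard_eq_toFinset_card _ hf]
  exact (Finset.card_eq_sum_card_fiberwise (fun _ _ => Finset.mem_coe.mpr (Finset.mem_univ _))).symm

variable [Fintype R]

theorem mem_colSet {ε : ℝ} {y : P ⧸ Lam} {B : Set V} {a : R} :
    a ∈ colSet Lam i f ε y B ↔ ε * cnt Lam i y B ≤ cntCol Lam i f a y B := by
  simp [colSet]

/-- The proportion of the points whose colour is not in the colour set is at most `|R| ε`. -/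
theorem sum_compl_colSet_le [DecidableEq R] {ε : ℝ} (hε : 0 ≤ ε) (y : P ⧸ Lam) (B : Set V) :
    ∑ a ∈ (colSet Lam i f ε y B)ᶜ, (cntCol Lam i f a y B : ℝ) ≤
      Fintype.card R * ε * cnt Lam i y B := by
  have h1 : ∀ a ∈ (colSet Lam i f ε y B)ᶜ, (cntCol Lam i f a y B : ℝ) ≤ ε * cnt Lam i y B := by
    intro a ha
    rw [Finset.mem_compl, mem_colSet, not_le] at ha
    exact ha.le
  refine (Finset.sum_le_card_nsmul _ _ _ h1).trans ?_
  rw [nsmul_eq_mul, mul_assoc]
  have h2 : (((colSet Lam i f ε y B)ᶜ.card : ℕ) : ℝ) ≤ Fintype.card R := by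
    exact_mod_cast Finset.card_le_univ _
  have h3 : 0 ≤ ε * (cnt Lam i y B : ℝ) := by positivity
  gcongr

/-- If the colour set is contained in `T`, the colours outside `T` have small density. -/
theorem sum_compl_le_of_colSet_subset [DecidableEq R] {ε : ℝ} (hε : 0 ≤ ε) {y : P ⧸ Lam}
    {B : Set V} {T : Finset R} (hT : colSet Lam i f ε y B ⊆ T) :
    ∑ a ∈ Tᶜ, (cntCol Lam i f a y B : ℝ) ≤ Fintype.card R * ε * cnt Lam i y B := by
  refine le_trans (Finset.sum_le_sum_of_subset_of_nonneg (Finset.compl_subset_compl.mpr hT)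
    (fun _ _ _ => Nat.cast_nonneg _)) (sum_compl_colSet_le hε y B)

/-- If only one colour occurs with positive density, it has density close to one. -/
theorem le_cntCol_of_colSet_subset_singleton {ε : ℝ} (hε : 0 ≤ ε) {y : P ⧸ Lam} {B : Set V}
    (hf : (pts Lam i y B).Finite) {a : R} (hT : colSet Lam i f ε y B ⊆ {a}) :
    (1 - Fintype.card R * ε) * cnt Lam i y B ≤ cntCol Lam i f a y B := by
  classical
  have h1 := sum_compl_le_of_colSet_subset hε hT
  have h2 : (∑ b, (cntCol Lam i f b y B : ℝ)) = cnt Lam i y B := by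
    exact_mod_cast sum_cntCol hf
  rw [← Finset.sum_add_sum_compl {a}, Finset.sum_singleton] at h2
  linarith

theorem colSet_nonempty {ε : ℝ} (hε : ε * Fintype.card R ≤ 1) [Nonempty R] {y : P ⧸ Lam}
    {B : Set V} (hf : (pts Lam i y B).Finite) : (colSet Lam i f ε y B).Nonempty := by
  classical
  by_contra h
  rw [Finset.not_nonempty_iff_eq_empty] at h
  have h1 : ∀ a : R, (cntCol Lam i f a y B : ℝ) < ε * cnt Lam i y B := by
    intro a
    by_contra h2
    rw [not_lt, ← mem_colSet, h] at h2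
    simp at h2
  have h2 : (∑ b, (cntCol Lam i f b y B : ℝ)) = cnt Lam i y B := by
    exact_mod_cast sum_cntCol hf
  have h3 : (∑ b, (cntCol Lam i f b y B : ℝ)) < ∑ _b : R, ε * cnt Lam i y B :=
    Finset.sum_lt_sum_of_nonempty Finset.univ_nonempty (fun a _ => h1 a)
  rw [Finset.sum_const, h2, nsmul_eq_mul, Finset.card_univ] at h3
  have h4 : (0 : ℝ) ≤ cnt Lam i y B := Nat.cast_nonneg _
  nlinarith

/-- **Monotonicity.** -/
theorem colSet_subset {ε ε' C : ℝ} (hε : 0 ≤ ε') (hεC : ε' * C ≤ ε) {y : P ⧸ Lam}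
    {B B' : Set V} (h : B ⊆ B') (hf : (pts Lam i y B').Finite)
    (hc : (cnt Lam i y B' : ℝ) ≤ C * cnt Lam i y B) :
    colSet Lam i f ε y B ⊆ colSet Lam i f ε' y B' := by
  intro a ha
  rw [mem_colSet] at ha ⊢
  have h1 : (cntCol Lam i f a y B : ℝ) ≤ cntCol Lam i f a y B' := by
    exact_mod_cast cntCol_mono a h hf
  have h2 : (0 : ℝ) ≤ cnt Lam i y B := Nat.cast_nonneg _
  calc ε' * (cnt Lam i y B' : ℝ) ≤ ε' * (C * cnt Lam i y B) := by gcongr
    _ = ε' * C * cnt Lam i y B := by ring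
    _ ≤ ε * cnt Lam i y B := by gcongr
    _ ≤ _ := ha.trans h1

end basic

section equivariance

variable {P V R Γ : Type*} [AddCommGroup P] {Lam : AddSubgroup P} [Group Γ]
  [DistribMulAction Γ P]

/-- The action of `Γ` on the cosets of an invariant lattice. -/
def cosetAct (hL : ∀ (γ : Γ), ∀ ξ ∈ Lam, γ • ξ ∈ Lam) (γ : Γ) : P ⧸ Lam → P ⧸ Lam :=
  QuotientAddGroup.map Lam Lam (DistribSMul.toAddMonoidHom P γ) (fun ξ hξ => hL γ ξ hξ)

@[simp] theorem cosetAct_mk (hL : ∀ (γ : Γ), ∀ ξ ∈ Lam, γ • ξ ∈ Lam) (γ : Γ) (ξ : P) :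
    cosetAct hL γ (ξ : P ⧸ Lam) = ((γ • ξ : P) : P ⧸ Lam) := rfl

/-- The action as a `MulAction`. -/
@[reducible] def cosetMulAction (hL : ∀ (γ : Γ), ∀ ξ ∈ Lam, γ • ξ ∈ Lam) :
    MulAction Γ (P ⧸ Lam) where
  smul := cosetAct hL
  one_smul y := by
    induction y using QuotientAddGroup.induction_on with
    | H ξ =>
      change cosetAct hL 1 (ξ : P ⧸ Lam) = _
      rw [cosetAct_mk, one_smul]
  mul_smul γ γ' y := by
    induction y using QuotientAddGroup.induction_on with
    | H ξ =>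
      change cosetAct hL (γ * γ') (ξ : P ⧸ Lam) = cosetAct hL γ (cosetAct hL γ' (ξ : P ⧸ Lam))
      rw [cosetAct_mk, cosetAct_mk, cosetAct_mk, mul_smul]

variable [MulAction Γ V] {i : P → V} {f : P → R}

theorem pts_smul (hL : ∀ (γ : Γ), ∀ ξ ∈ Lam, γ • ξ ∈ Lam) (hi : ∀ (γ : Γ) ξ, i (γ • ξ) = γ • i ξ)
    (γ : Γ) (y : P ⧸ Lam) (B : Set V) :
    pts Lam i (cosetAct hL γ y) (γ • B) = (fun ξ => γ • ξ) '' pts Lam i y B := by
  induction y using QuotientAddGroup.induction_on with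
  | H ξ₀ =>
    ext ξ
    constructor
    · rintro ⟨h1, h2⟩
      refine ⟨γ⁻¹ • ξ, ⟨?_, ?_⟩, by simp⟩
      · rw [cosetAct_mk, QuotientAddGroup.eq_iff_sub_mem] at h1
        rw [QuotientAddGroup.eq_iff_sub_mem]
        have := hL γ⁻¹ _ h1
        rwa [smul_sub, inv_smul_smul] at this
      · rw [hi]
        exact Set.mem_smul_set_iff_inv_smul_mem.mp h2
    · rintro ⟨ξ', ⟨h1, h2⟩, rfl⟩
      refine ⟨?_, ?_⟩
      · rw [cosetAct_mk, QuotientAddGroup.eq_iff_sub_mem]
        rw [QuotientAddGroup.eq_iff_sub_mem] at h1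
        have := hL γ _ h1
        rwa [smul_sub] at this
      · simp only [hi]
        exact Set.smul_mem_smul_set h2

theorem cnt_smul (hL : ∀ (γ : Γ), ∀ ξ ∈ Lam, γ • ξ ∈ Lam) (hi : ∀ (γ : Γ) ξ, i (γ • ξ) = γ • i ξ)
    (γ : Γ) (y : P ⧸ Lam) (B : Set V) :
    cnt Lam i (cosetAct hL γ y) (γ • B) = cnt Lam i y B := by
  rw [cnt, pts_smul hL hi, Set.ncard_image_of_injective _ (MulAction.injective γ), cnt]

theorem cntCol_smul (hL : ∀ (γ : Γ), ∀ ξ ∈ Lam, γ • ξ ∈ Lam)
    (hi : ∀ (γ : Γ) ξ, i (γ • ξ) = γ • i ξ) {e : R → R} {γ : Γ} (he : Function.Injective e)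
    (hf : ∀ ξ, f (γ • ξ) = e (f ξ)) (a : R) (y : P ⧸ Lam) (B : Set V) :
    cntCol Lam i f (e a) (cosetAct hL γ y) (γ • B) = cntCol Lam i f a y B := by
  have h1 : {ξ ∈ pts Lam i (cosetAct hL γ y) (γ • B) | f ξ = e a} =
      (fun ξ => γ • ξ) '' {ξ ∈ pts Lam i y B | f ξ = a} := by
    rw [pts_smul hL hi]
    ext ξ
    constructor
    · rintro ⟨⟨ξ', h2, rfl⟩, h3⟩
      simp only [hf] at h3
      exact ⟨ξ', ⟨h2, he h3⟩, rfl⟩
    · rintro ⟨ξ', ⟨h2, h3⟩, rfl⟩
      exact ⟨⟨ξ', h2, rfl⟩, by simp only [hf]; rw [h3]⟩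
  rw [cntCol, h1, Set.ncard_image_of_injective _ (MulAction.injective γ), cntCol]

/-- **Equivariance.** -/
theorem colSet_smul [Fintype R] [Group R] (hL : ∀ (γ : Γ), ∀ ξ ∈ Lam, γ • ξ ∈ Lam)
    (hi : ∀ (γ : Γ) ξ, i (γ • ξ) = γ • i ξ) {γ : Γ} {r : R}
    (hf : ∀ ξ, f (γ • ξ) = r * f ξ * r⁻¹) (ε : ℝ) (y : P ⧸ Lam) (B : Set V) (a : R) :
    r * a * r⁻¹ ∈ colSet Lam i f ε (cosetAct hL γ y) (γ • B) ↔ a ∈ colSet Lam i f ε y B := by
  have he : Function.Injective (fun a : R => r * a * r⁻¹) := fun a b h => by simpa using h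
  rw [mem_colSet, mem_colSet, cnt_smul hL hi]
  rw [cntCol_smul hL hi (e := fun a : R => r * a * r⁻¹) he hf a y B]

open Classical in
/-- **Equivariance**, as an equality of finite sets. -/
theorem colSet_smul_eq [Fintype R] [Group R] (hL : ∀ (γ : Γ), ∀ ξ ∈ Lam, γ • ξ ∈ Lam)
    (hi : ∀ (γ : Γ) ξ, i (γ • ξ) = γ • i ξ) {γ : Γ} {r : R}
    (hf : ∀ ξ, f (γ • ξ) = r * f ξ * r⁻¹) (ε : ℝ) (y : P ⧸ Lam) (B : Set V) :
    colSet Lam i f ε (cosetAct hL γ y) (γ • B) =
      (colSet Lam i f ε y B).image (fun a => r * a * r⁻¹) := by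
  ext a
  rw [Finset.mem_image]
  constructor
  · intro h
    refine ⟨r⁻¹ * a * r, ?_, by group⟩
    rw [← colSet_smul hL hi hf]
    convert h using 1
    group
  · rintro ⟨b, h, rfl⟩
    rwa [colSet_smul hL hi hf]

end equivariance

section measurable

variable {P V R X : Type*} [AddCommGroup P] {Lam : AddSubgroup P} [Countable P]
  {i : P → V} {f : P → R} [MeasurableSpace X]

theorem measurable_cnt (y : P ⧸ Lam) {B : X → Set V} (hB : ∀ ξ, MeasurableSet {x | i ξ ∈ B x})
    (hf : ∀ x, (pts Lam i y (B x)).Finite) : Measurable (fun x => cnt Lam i y (B x)) := by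
  classical
  have h1 : ∀ x, ((cnt Lam i y (B x) : ℕ) : ℝ≥0∞) =
      ∑' ξ : P, if (ξ : P ⧸ Lam) = y ∧ i ξ ∈ B x then 1 else 0 := by
    intro x
    rw [tsum_eq_sum (s := (hf x).toFinset)]
    · rw [Finset.sum_ite, Finset.sum_const_zero, add_zero, Finset.sum_const, nsmul_eq_mul, mul_one,
        cnt, Set.ncard_eq_toFinset_card _ (hf x)]
      congr 2
      ext ξ
      simp [pts]
    · intro ξ hξ
      rw [if_neg]
      intro h2
      exact hξ (by simpa [pts] using h2)
  have h2 : Measurable (fun x => ((cnt Lam i y (B x) : ℕ) : ℝ≥0∞)) := by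
    simp_rw [h1]
    refine Measurable.tsum fun ξ => ?_
    refine Measurable.ite ?_ measurable_const measurable_const
    by_cases h3 : (ξ : P ⧸ Lam) = y
    · simpa [h3] using hB ξ
    · simp [h3]
  have h3 : (fun x => cnt Lam i y (B x)) =
      fun x => ⌊((cnt Lam i y (B x) : ℕ) : ℝ≥0∞).toReal⌋₊ := by
    funext x
    simp
  rw [h3]
  exact Nat.measurable_floor.comp (ENNReal.measurable_toReal.comp h2)

theorem measurable_cntCol (a : R) (y : P ⧸ Lam) {B : X → Set V}
    (hB : ∀ ξ, MeasurableSet {x | i ξ ∈ B x})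
    (hf : ∀ x, (pts Lam i y (B x)).Finite) : Measurable (fun x => cntCol Lam i f a y (B x)) := by
  classical
  have h1 : ∀ x, ((cntCol Lam i f a y (B x) : ℕ) : ℝ≥0∞) =
      ∑' ξ : P, if ((ξ : P ⧸ Lam) = y ∧ f ξ = a) ∧ i ξ ∈ B x then 1 else 0 := by
    intro x
    have hf' : {ξ ∈ pts Lam i y (B x) | f ξ = a}.Finite := (hf x).subset fun _ h => h.1
    rw [tsum_eq_sum (s := hf'.toFinset)]
    · rw [Finset.sum_ite, Finset.sum_const_zero, add_zero, Finset.sum_const, nsmul_eq_mul, mul_one,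
        cntCol, Set.ncard_eq_toFinset_card _ hf']
      congr 2
      ext ξ
      simp only [Finite.mem_toFinset, Finset.mem_filter]
      exact ⟨fun h => ⟨h, ⟨h.1.1, h.2⟩, h.1.2⟩, fun h => h.1⟩
    · intro ξ hξ
      rw [if_neg]
      intro h2
      refine hξ ?_
      rw [Finite.mem_toFinset]
      exact ⟨⟨h2.1.1, h2.2⟩, h2.1.2⟩
  have h2 : Measurable (fun x => ((cntCol Lam i f a y (B x) : ℕ) : ℝ≥0∞)) := by
    simp_rw [h1]
    refine Measurable.tsum fun ξ => ?_
    refine Measurable.ite ?_ measurable_const measurable_const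
    by_cases h3 : (ξ : P ⧸ Lam) = y ∧ f ξ = a
    · simpa [h3] using hB ξ
    · simp [h3]
  have h3 : (fun x => cntCol Lam i f a y (B x)) =
      fun x => ⌊((cntCol Lam i f a y (B x) : ℕ) : ℝ≥0∞).toReal⌋₊ := by
    funext x
    simp
  rw [h3]
  exact Nat.measurable_floor.comp (ENNReal.measurable_toReal.comp h2)

variable [Fintype R]

theorem measurableSet_mem_colSet (ε : ℝ) (a : R) (y : P ⧸ Lam) {B : X → Set V}
    (hB : ∀ ξ, MeasurableSet {x | i ξ ∈ B x}) (hf : ∀ x, (pts Lam i y (B x)).Finite) :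
    MeasurableSet {x | a ∈ colSet Lam i f ε y (B x)} := by
  simp only [mem_colSet]
  refine measurableSet_le ?_ ?_
  · exact measurable_const.mul (measurable_from_top.comp (measurable_cnt y hB hf))
  · exact measurable_from_top.comp (measurable_cntCol a y hB hf)

/-- The colour set is a measurable function (finite sets of colours with the discrete
structure): every preimage is measurable. -/
theorem measurableSet_colSet_preimage (ε : ℝ) (y : P ⧸ Lam) {B : X → Set V}
    (hB : ∀ ξ, MeasurableSet {x | i ξ ∈ B x}) (hf : ∀ x, (pts Lam i y (B x)).Finite)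
    (A : Set (Finset R)) : MeasurableSet {x | colSet Lam i f ε y (B x) ∈ A} := by
  classical
  have h1 : {x | colSet Lam i f ε y (B x) ∈ A} =
      ⋃ T ∈ A, ⋂ a : R, {x | a ∈ colSet Lam i f ε y (B x) ↔ a ∈ T} := by
    ext x
    simp only [mem_iUnion, mem_iInter, exists_prop]
    constructor
    · intro h
      exact ⟨_, h, fun a => Iff.rfl⟩
    · rintro ⟨T, hT, h⟩
      have h2 : colSet Lam i f ε y (B x) = T := Finset.ext h
      change colSet Lam i f ε y (B x) ∈ A
      rwa [h2]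
  rw [h1]
  refine MeasurableSet.biUnion (Set.to_countable A) fun T _ => MeasurableSet.iInter fun a => ?_
  by_cases ha : a ∈ T
  · simpa [ha] using measurableSet_mem_colSet ε a y hB hf
  · have h2 := (measurableSet_mem_colSet (f := f) ε a y hB hf).compl
    convert h2 using 1
    ext x
    simp only [ha, iff_false]
    rfl

/-- Joint form: `x` and the coset `y` vary. -/
theorem measurableSet_colSet_prod (ε : ℝ) {B : X → Set V} [MeasurableSpace (P ⧸ Lam)]
    [MeasurableSingletonClass (P ⧸ Lam)]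
    (hB : ∀ ξ, MeasurableSet {x | i ξ ∈ B x}) (hf : ∀ y x, (pts Lam i y (B x)).Finite)
    (A : Set (Finset R)) :
    MeasurableSet {p : X × (P ⧸ Lam) | colSet Lam i f ε p.2 (B p.1) ∈ A} := by
  have : Countable (P ⧸ Lam) := QuotientAddGroup.mk_surjective.countable
  have h1 : {p : X × (P ⧸ Lam) | colSet Lam i f ε p.2 (B p.1) ∈ A} =
      ⋃ y : P ⧸ Lam, {x | colSet Lam i f ε y (B x) ∈ A} ×ˢ {y} := by
    ext ⟨x, y⟩
    simp
  rw [h1]
  exact MeasurableSet.iUnion fun y =>
    (measurableSet_colSet_preimage ε y hB (hf y) A).prod (measurableSet_singleton y)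

end measurable

end Vale.Agent.P011.H308
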