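import Mathlib

/-!
# Points of a coset of a lattice in a box

`P` an additive group (rational points), `Lam` a subgroup, `i : P →+ V` a homomorphism to a
locally compact group such that `Lam` is discrete and cocompact in `V`.  Two-sided bounds for the
number of points of a coset of `Lam` in a box, uniform in the coset.
-/

open MeasureTheory Set
open scoped Pointwise ENNReal

namespace Vale.Agent.P011.H308

section basic

variable {P V : Type*} [AddCommGroup P] (Lam : AddSubgroup P)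

/-- The points of the coset `y` whose image lies in the box `B`. -/
def pts (i : P → V) (y : P ⧸ Lam) (B : Set V) : Set P :=
  {ξ | (ξ : P ⧸ Lam) = y ∧ i ξ ∈ B}

/-- The number of points of the coset `y` whose image lies in the box `B`. -/
noncomputable def cnt (i : P → V) (y : P ⧸ Lam) (B : Set V) : ℕ := (pts Lam i y B).ncard

variable {Lam}

theorem pts_mono {i : P → V} {y : P ⧸ Lam} {B B' : Set V} (h : B ⊆ B') :
    pts Lam i y B ⊆ pts Lam i y B' := fun _ hξ => ⟨hξ.1, h hξ.2⟩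

theorem cnt_mono {i : P → V} {y : P ⧸ Lam} {B B' : Set V} (h : B ⊆ B')
    (hf : (pts Lam i y B').Finite) : cnt Lam i y B ≤ cnt Lam i y B' :=
  ncard_le_ncard (pts_mono h) hf

end basic

variable {P V : Type*} [AddCommGroup P] {Lam : AddSubgroup P} [AddCommGroup V]
  [TopologicalSpace V] {i : P →+ V}

/-- `Lam` is discrete and cocompact in `V`. -/
structure IsLat (i : P →+ V) (Lam : AddSubgroup P) : Prop where
  disc : ∀ K : Set V, IsCompact K → {l : P | l ∈ Lam ∧ i l ∈ K}.Finite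
  coc : ∃ K : Set V, IsCompact K ∧ ∀ v, ∃ l ∈ Lam, v - i l ∈ K

section finite

variable [IsTopologicalAddGroup V]

theorem IsLat.pts_finite (h : IsLat i Lam) {K B : Set V} (hK : IsCompact K) (hB : B ⊆ K)
    (y : P ⧸ Lam) : (pts Lam i y B).Finite := by
  induction y using QuotientAddGroup.induction_on with
  | H ξ₀ =>
    have h1 : IsCompact ((fun v => v - i ξ₀) '' K) := hK.image (continuous_sub_right _)
    refine ((h.disc _ h1).image (fun l => ξ₀ + l)).subset ?_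
    rintro ξ ⟨h2, h3⟩
    have h4 : ξ - ξ₀ ∈ Lam := by
      rw [← QuotientAddGroup.eq_iff_sub_mem]
      exact h2
    exact ⟨ξ - ξ₀, ⟨h4, ⟨i ξ, hB h3, by simp only [map_sub]⟩⟩, by simp only; abel⟩

end finite

section measure

variable [IsTopologicalAddGroup V] [MeasurableSpace V] [BorelSpace V] (μ : Measure V)
  [μ.IsAddLeftInvariant]

theorem cnt_mul_le {U B B'' : Set V} {y : P ⧸ Lam} (hU : MeasurableSet U)
    (hsep : ∀ l ∈ Lam, ∀ u ∈ U, ∀ u' ∈ U, i l = u - u' → l = 0)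
    (hfin : (pts Lam i y B).Finite) (hB : ∀ v ∈ B, ∀ u ∈ U, v + u ∈ B'') :
    (cnt Lam i y B : ℝ≥0∞) * μ U ≤ μ B'' := by
  classical
  have h1 : ∀ ξ : P, μ ((fun v => -i ξ + v) ⁻¹' U) = μ U := fun ξ => measure_preimage_add μ _ _
  have h2 : (hfin.toFinset : Set P).PairwiseDisjoint (fun ξ => (fun v => -i ξ + v) ⁻¹' U) := by
    intro ξ hξ ξ' hξ' hne
    rw [Function.onFun, Set.disjoint_left]
    intro v hv hv'
    apply hne
    have hξ1 : ξ ∈ pts Lam i y B := by simpa using hξ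
    have hξ2 : ξ' ∈ pts Lam i y B := by simpa using hξ'
    have h3 : ξ' - ξ ∈ Lam := by
      rw [← QuotientAddGroup.eq_iff_sub_mem]
      exact hξ2.1.trans hξ1.1.symm
    have h4 := hsep _ h3 _ hv _ hv' (by simp only [map_sub]; abel)
    exact (sub_eq_zero.mp h4).symm
  have h3 : μ (⋃ ξ ∈ hfin.toFinset, (fun v => -i ξ + v) ⁻¹' U) =
      ∑ ξ ∈ hfin.toFinset, μ ((fun v => -i ξ + v) ⁻¹' U) :=
    measure_biUnion_finset h2 (fun ξ _ => (continuous_const_add _).measurable hU)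
  have h4 : ∑ ξ ∈ hfin.toFinset, μ ((fun v => -i ξ + v) ⁻¹' U) = (cnt Lam i y B : ℝ≥0∞) * μ U := by
    rw [Finset.sum_congr rfl (fun ξ _ => h1 ξ), Finset.sum_const, nsmul_eq_mul, cnt,
      Set.ncard_eq_toFinset_card _ hfin]
  rw [← h4, ← h3]
  refine measure_mono ?_
  intro v hv
  simp only [mem_iUnion, mem_preimage, Finite.mem_toFinset] at hv
  obtain ⟨ξ, hξ, hv⟩ := hv
  have := hB _ hξ.2 _ hv
  rwa [add_neg_cancel_left] at this

theorem le_cnt_mul {K₀ B B' : Set V} {y : P ⧸ Lam} (hK : ∀ v, ∃ l ∈ Lam, v - i l ∈ K₀)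
    (hfin : (pts Lam i y B).Finite) (hB : ∀ v ∈ B', ∀ κ ∈ K₀, v - κ ∈ B) :
    μ B' ≤ (cnt Lam i y B : ℝ≥0∞) * μ K₀ := by
  classical
  have h1 : ∀ ξ : P, μ ((fun v => -i ξ + v) ⁻¹' K₀) = μ K₀ := fun ξ => measure_preimage_add μ _ _
  have h2 : B' ⊆ ⋃ ξ ∈ hfin.toFinset, (fun v => -i ξ + v) ⁻¹' K₀ := by
    intro v hv
    induction y using QuotientAddGroup.induction_on with
    | H ξ₀ =>
      obtain ⟨l, hl, h3⟩ := hK (v - i ξ₀)
      simp only [mem_iUnion, mem_preimage, Finite.mem_toFinset]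
      refine ⟨ξ₀ + l, ⟨?_, ?_⟩, ?_⟩
      · rw [QuotientAddGroup.eq_iff_sub_mem]
        simpa using hl
      · have h4 := hB v hv _ h3
        rw [map_add]
        convert h4 using 1
        abel
      · rw [map_add]
        convert h3 using 1
        abel
  calc μ B' ≤ μ (⋃ ξ ∈ hfin.toFinset, (fun v => -i ξ + v) ⁻¹' K₀) := measure_mono h2
    _ ≤ ∑ ξ ∈ hfin.toFinset, μ ((fun v => -i ξ + v) ⁻¹' K₀) := measure_biUnion_finset_le _ _
    _ = (cnt Lam i y B : ℝ≥0∞) * μ K₀ := by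
      rw [Finset.sum_congr rfl (fun ξ _ => h1 ξ), Finset.sum_const, nsmul_eq_mul, cnt,
        Set.ncard_eq_toFinset_card _ hfin]

end measure

/-- A discrete subgroup has a small separating neighbourhood. -/
theorem IsLat.exists_sep [IsTopologicalAddGroup V] [LocallyCompactSpace V] [T2Space V]
    (h : IsLat i Lam) (hi : ∀ l ∈ Lam, i l = 0 → l = 0) {W : Set V} (hW : W ∈ nhds (0 : V)) :
    ∃ U : Set V, IsOpen U ∧ (0 : V) ∈ U ∧ U ⊆ W ∧
      ∀ l ∈ Lam, ∀ u ∈ U, ∀ u' ∈ U, i l = u - u' → l = 0 := by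
  obtain ⟨K, hK, hK0⟩ := exists_compact_mem_nhds (0 : V)
  have h1 := h.disc K hK
  have h2 : (i '' ({l : P | l ∈ Lam ∧ i l ∈ K} \ {0})).Finite := (h1.subset Set.sdiff_subset).image _
  have h3 : K ∩ (i '' ({l : P | l ∈ Lam ∧ i l ∈ K} \ {0}))ᶜ ∈ nhds (0 : V) := by
    refine Filter.inter_mem hK0 (h2.isClosed.isOpen_compl.mem_nhds ?_)
    rintro ⟨l, ⟨⟨hl, -⟩, h0⟩, hl0⟩
    exact h0 (hi l hl hl0)
  have hcont : Continuous (fun p : V × V => p.1 - p.2) := continuous_sub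
  have h4 : (fun p : V × V => p.1 - p.2) ⁻¹'
      (K ∩ (i '' ({l : P | l ∈ Lam ∧ i l ∈ K} \ {0}))ᶜ) ∈ nhds ((0, 0) : V × V) :=
    hcont.continuousAt (by simpa using h3)
  rw [nhds_prod_eq, Filter.mem_prod_iff] at h4
  obtain ⟨A, hA, A', hA', h5⟩ := h4
  obtain ⟨U, hU, hUo, hU0⟩ := mem_nhds_iff.mp (Filter.inter_mem (Filter.inter_mem hA hA') hW)
  refine ⟨U, hUo, hU0, fun u hu => (hU hu).2, ?_⟩
  intro l hl u hu u' hu' he
  have h6 : (u, u') ∈ A ×ˢ A' := ⟨(hU hu).1.1, (hU hu').1.2⟩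
  have h7 := h5 h6
  simp only [mem_preimage, mem_inter_iff, mem_compl_iff, ← he] at h7
  by_contra h8
  exact h7.2 ⟨l, ⟨⟨hl, h7.1⟩, h8⟩, rfl⟩

/-- **Uniform comparison of counts.**  For every coset, the number of points in `B₂` is at most a
constant (depending only on the lattice) times `D` times the number of points in `B₁`, if the
thickened box `B₂''` has measure at most `D` times the thinned box `B₁'`. -/
theorem IsLat.exists_ratio [IsTopologicalAddGroup V] [LocallyCompactSpace V] [T2Space V]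
    [MeasurableSpace V] [BorelSpace V] (μ : Measure V) [μ.IsAddHaarMeasure]
    (h : IsLat i Lam) (hi : ∀ l ∈ Lam, i l = 0 → l = 0) {W : Set V} (hW : W ∈ nhds (0 : V))
    {K₀ : Set V} (hK₀ : IsCompact K₀) (hcov : ∀ v, ∃ l ∈ Lam, v - i l ∈ K₀) :
    ∃ C : ℝ, 0 < C ∧ ∀ (B₁ B₁' B₂ B₂'' K : Set V) (D : ℝ), 0 ≤ D → IsCompact K →
      B₁ ⊆ K → B₂ ⊆ K → (∀ v ∈ B₁', ∀ κ ∈ K₀, v - κ ∈ B₁) → (∀ v ∈ B₂, ∀ u ∈ W, v + u ∈ B₂'') →
      μ B₂'' ≤ ENNReal.ofReal D * μ B₁' →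
      ∀ y : P ⧸ Lam, (cnt Lam i y B₂ : ℝ) ≤ C * D * cnt Lam i y B₁ := by
  obtain ⟨U, hUo, hU0, hUW, hsep⟩ := h.exists_sep hi hW
  obtain ⟨K₁, hK₁, hK₁n⟩ := exists_compact_mem_nhds (0 : V)
  set U' := U ∩ interior K₁ with hU'
  have hU'o : IsOpen U' := hUo.inter isOpen_interior
  have hU'0 : (0 : V) ∈ U' := ⟨hU0, mem_interior_iff_mem_nhds.mpr hK₁n⟩
  have hpos : 0 < μ U' := hU'o.measure_pos μ ⟨0, hU'0⟩
  have hfinU : μ U' ≠ ∞ :=
    ((measure_mono (inter_subset_right.trans interior_subset)).trans_lt hK₁.measure_lt_top).ne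
  have hfinK : μ K₀ ≠ ∞ := hK₀.measure_lt_top.ne
  have hUr : 0 < (μ U').toReal := ENNReal.toReal_pos hpos.ne' hfinU
  refine ⟨((μ K₀).toReal + 1) / (μ U').toReal, by positivity, ?_⟩
  intro B₁ B₁' B₂ B₂'' K D hD hK hB₁ hB₂ h₁ h₂ hμ y
  have hf₁ := h.pts_finite hK hB₁ y
  have hf₂ := h.pts_finite hK hB₂ y
  have e1 : (cnt Lam i y B₂ : ℝ≥0∞) * μ U' ≤ μ B₂'' :=
    cnt_mul_le μ hU'o.measurableSet (fun l hl u hu u' hu' => hsep l hl u hu.1 u' hu'.1) hf₂
      (fun v hv u hu => h₂ v hv u (hUW hu.1))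
  have e2 : μ B₁' ≤ (cnt Lam i y B₁ : ℝ≥0∞) * μ K₀ := le_cnt_mul μ hcov hf₁ h₁
  have e3 : (cnt Lam i y B₂ : ℝ≥0∞) * μ U' ≤
      ENNReal.ofReal D * ((cnt Lam i y B₁ : ℝ≥0∞) * μ K₀) :=
    e1.trans (hμ.trans (by gcongr))
  have e4 := ENNReal.toReal_mono (by finiteness) e3
  rw [ENNReal.toReal_mul, ENNReal.toReal_mul, ENNReal.toReal_mul, ENNReal.toReal_natCast,
    ENNReal.toReal_natCast, ENNReal.toReal_ofReal hD] at e4
  rw [div_mul_eq_mul_div, div_mul_eq_mul_div, le_div_iff₀ hUr]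
  refine e4.trans ?_
  have h5 : (0 : ℝ) ≤ cnt Lam i y B₁ := Nat.cast_nonneg _
  have h6 : 0 ≤ D * (cnt Lam i y B₁ : ℝ) := mul_nonneg hD h5
  nlinarith

omit [TopologicalSpace V] in
/-- **Exact counts in compact open subgroups.** -/
theorem cnt_addSubgroup (L : AddSubgroup V) (hL : ∀ v : V, ∃ l ∈ Lam, v - i l ∈ L) (v₀ : V)
    (y : P ⧸ Lam) :
    cnt Lam i y {v | v - v₀ ∈ L} = {l : P | l ∈ Lam ∧ i l ∈ L}.ncard := by
  induction y using QuotientAddGroup.induction_on with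
  | H ξ₀ =>
    obtain ⟨l₀, hl₀, h0⟩ := hL (v₀ - i ξ₀)
    have h1 : pts Lam i (ξ₀ : P ⧸ Lam) {v | v - v₀ ∈ L} =
        (fun l => ξ₀ + l₀ + l) '' {l : P | l ∈ Lam ∧ i l ∈ L} := by
      ext ξ
      constructor
      · rintro ⟨h2, h3⟩
        have h4 : ξ - ξ₀ ∈ Lam := by
          rw [← QuotientAddGroup.eq_iff_sub_mem]
          exact h2
        refine ⟨ξ - ξ₀ - l₀, ⟨sub_mem h4 hl₀, ?_⟩, by simp only; abel⟩
        have h5 := L.add_mem h3 h0
        simp only [map_sub]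
        convert h5 using 1
        abel
      · rintro ⟨l, ⟨hl, h2⟩, rfl⟩
        refine ⟨?_, ?_⟩
        · rw [QuotientAddGroup.eq_iff_sub_mem]
          have h3 : ξ₀ + l₀ + l - ξ₀ = l₀ + l := by abel
          rw [h3]
          exact add_mem hl₀ hl
        · have h3 := L.sub_mem h2 h0
          simp only [mem_ofPred_eq, map_add]
          convert h3 using 1
          abel
    rw [cnt, h1, Set.ncard_image_of_injective _ (add_right_injective _)]

end Vale.Agent.P011.H308
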