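import Vale.Agent.P011.H308.M8a

/-!
# An explicit zero of the parameter quadric
-/

set_option linter.unusedSectionVars false

open Module Polynomial Matrix

namespace Vale.Agent.P011.H308

open Vale.Agent.P011.H775

section quad

variable {k V : Type} [Field k] [AddCommGroup V] [Module k V] (Q : QuadraticForm k V)
  (z0 zb za : V)

/-- The denominator. -/
noncomputable def den (κ : k) : k :=
  QuadraticMap.polar Q z0 za + κ * QuadraticMap.polar Q zb za

/-- The parameter of the line. -/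
noncomputable def ss (κ : k) : k :=
  -(Q z0 + κ * QuadraticMap.polar Q z0 zb) / den Q z0 zb za κ

/-- The explicit zero. -/
noncomputable def rho (κ : k) : V := z0 + κ • zb + ss Q z0 zb za κ • za

variable {Q z0 zb za}

theorem Q_rho (hb : Q zb = 0) (ha : Q za = 0) {κ : k} (h : den Q z0 zb za κ ≠ 0) :
    Q (rho Q z0 zb za κ) = 0 := by
  rw [rho, QuadraticMap.map_add Q, QuadraticMap.map_add Q, QuadraticMap.map_smul,
    QuadraticMap.map_smul, hb, ha, QuadraticMap.polar_add_left, QuadraticMap.polar_smul_right,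
    QuadraticMap.polar_smul_right, QuadraticMap.polar_smul_right, QuadraticMap.polar_smul_left]
  simp only [smul_eq_mul, mul_zero, add_zero]
  have h1 : ss Q z0 zb za κ * den Q z0 zb za κ = -(Q z0 + κ * QuadraticMap.polar Q z0 zb) := by
    rw [ss, div_mul_cancel₀ _ h]
  rw [den] at h1
  linear_combination h1

theorem polar_rho (ha : Q za = 0) (κ : k) :
    QuadraticMap.polar Q (rho Q z0 zb za κ) za = den Q z0 zb za κ := by
  have h0 : QuadraticMap.polar Q za za = 0 := by
    rw [QuadraticMap.polar, ← two_smul k, QuadraticMap.map_smul, ha]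
    simp
  rw [rho, QuadraticMap.polar_add_left, QuadraticMap.polar_add_left,
    QuadraticMap.polar_smul_left, QuadraticMap.polar_smul_left, h0, den]
  simp only [smul_eq_mul, mul_zero, add_zero]

end quad

variable {k K F D : Type} [Field k] [Field K] [Field F] [Algebra k K] [Algebra k F]

variable [StarRing K] [DivisionRing D] [StarRing D] [Algebra k D] [Algebra K D]
  [FiniteDimensional K D] [Algebra.IsCentral K D] [IsScalarTower k K D]
  [FiniteDimensional k F] [Algebra.IsSeparable k F]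

theorem e2p_sh {C : Cub K D} {φ : F →ₐ[k] D} {p : D} (H : Cfd C φ p) (h3 : (3 : k) ≠ 0) {a b : F}
    (ha : Algebra.trace k F a = 0) (hb : Algebra.trace k F b = 0) :
    e2p k (sh k a) (sh k b) = D0 k a b := by
  obtain ⟨Ω, _, _, ⟨S⟩⟩ := H.exists_dspl
  apply (algebraMap k K).injective
  apply (algebraMap K Ω).injective
  have ha' := S.trace_eq a
  have hb' := S.trace_eq b
  rw [ha, map_zero, map_zero] at ha'
  rw [hb, map_zero, map_zero] at hb'
  have ha2 : S.σ 2 a = -(S.σ 0 a + S.σ 1 a) := by linear_combination -ha'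
  have hb2 : S.σ 2 b = -(S.σ 0 b + S.σ 1 b) := by linear_combination -hb'
  rw [← S.tc_sq h3 ha hb, S.e2p_eq, DSpl.tc]
  simp only [H.σ_sh S, ha2, hb2]
  ring

theorem e2_zero_of {C : Cub K D} {φ : F →ₐ[k] D} {p : D} (H : Cfd C φ p) {a : F}
    (ha : Algebra.trace k F a = 0) : e2 k (sh k a) = 0 := by
  rw [H.e2_sh, ha, mul_zero]

theorem e2_add {C : Cub K D} {φ : F →ₐ[k] D} {p : D} (H : Cfd C φ p) (u v : F) :
    e2 k (u + v) = e2 k u + e2 k v + e2p k u v := by
  have h2 := H.h2
  have e1 : (u + v) ^ 2 = u ^ 2 + v ^ 2 + (u * v + u * v) := by ring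
  simp only [e2, e2p, e1, map_add]
  field_simp
  ring

/-- The quadratic form on the kernel of the linear condition. -/
theorem T_adj_act {C : Cub K D} {φ : F →ₐ[k] D} {p : D} (H : Cfd C φ p) {δ : K}
    (hδ : star δ = -δ) {d : k} (hd : δ ^ 2 = algebraMap k K d) (hd0 : d ≠ 0) {a b : F}
    (ha : Algebra.trace k F a = 0) (hb : Algebra.trace k F b = 0) (h3 : (3 : k) ≠ 0)
    (hab : D0 k a b ≠ 0) {h : D} (hh : InV C φ p h) (t : F) :
    C.T (h * C.adj (act C φ t (tw φ δ a b h))) =
      C.N h * algebraMap k K (d * D0 k a b * e2 k t) := by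
  have h1 := H.T_mul_adj_par hδ hd ha hb h3 hh 0 t
  have e2' : act C φ 0 h = 0 := by
    rw [act, map_zero, map_zero, zero_smul, zero_mul, mul_zero, sub_zero, sub_zero]
  have e3 : e2 k (0 : F) = 0 := by simp [e2]
  have e4 : e2p k (0 : F) t = 0 := by simp [e2p]
  rw [par, e2', zero_add, e3, e4, map_zero, mul_zero, add_zero, zero_add, mul_assoc] at h1
  have h5 : algebraMap k K (d * D0 k a b) ≠ 0 := (_root_.map_ne_zero _).2 (mul_ne_zero hd0 hab)
  exact mul_left_cancel₀ h5 h1

theorem T_cr_act {C : Cub K D} {φ : F →ₐ[k] D} {p : D} (H : Cfd C φ p) {δ : K}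
    (hδ : star δ = -δ) {d : k} (hd : δ ^ 2 = algebraMap k K d) (hd0 : d ≠ 0) {a b : F}
    (ha : Algebra.trace k F a = 0) (hb : Algebra.trace k F b = 0) (h3 : (3 : k) ≠ 0)
    (hab : D0 k a b ≠ 0) {h : D} (hh : InV C φ p h) (t u : F) :
    C.T (h * C.cr (act C φ t (tw φ δ a b h)) (act C φ u (tw φ δ a b h))) =
      C.N h * algebraMap k K (d * D0 k a b * e2p k t u) := by
  have h1 := T_adj_act H hδ hd hd0 ha hb h3 hab hh (t + u)
  have e1 : act C φ (t + u) (tw φ δ a b h) = act C φ t (tw φ δ a b h) +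
      act C φ u (tw φ δ a b h) := by
    rw [← actL_apply C φ _ (t + u), map_add, actL_apply, actL_apply]
  rw [e1, C.adj_add, mul_add, mul_add, map_add, map_add,
    T_adj_act H hδ hd hd0 ha hb h3 hab hh, T_adj_act H hδ hd hd0 ha hb h3 hab hh,
    e2_add H] at h1
  simp only [map_mul, map_add] at h1 ⊢
  linear_combination h1

section dat

variable {C : Cub K D} {φ : F →ₐ[k] D} (M : Dat C φ)

/-- The parameter of the base vector. -/
noncomputable def w₁ : F :=
  -(algebraMap k F (M.n * M.d / 2)) * pr C φ (M.y * M.p⁻¹) / pr C φ (C.adj M.h)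

theorem exists_t₀ : ∃ t : F, v0 M (t, 1) = act C φ (w₁ M) M.h := by
  refine exists_v0 M 1 (M.H.act_inV _ M.h_inV) ?_
  have h1 := M.H.pr_cr_par M.hδ (f := M.a) (g := M.b) M.ha M.hb M.h_inV (w₁ M) 0
  have e1 : par C φ M.δ M.a M.b M.h (w₁ M) 0 = act C φ (w₁ M) M.h := by
    rw [par]
    have e2 : act C φ 0 (tw φ M.δ M.a M.b M.h) = 0 := by
      rw [act, map_zero, map_zero, zero_smul, zero_mul, mul_zero, sub_zero, sub_zero]
    rw [e2, add_zero]
  rw [e1] at h1
  rw [h1, w₁]
  have h2 := M.H.h2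
  have h2' : (2 : F) ≠ 0 := by
    have h := (_root_.map_ne_zero (algebraMap k F)).2 h2
    rwa [map_ofNat] at h
  have h4 : pr C φ (C.adj M.h) ≠ 0 := M.prh0
  simp only [map_mul, map_div₀, map_ofNat, mul_one]
  field_simp
  ring

theorem v0_add_fst (z : F × k) (t : F) : v0 M (z + (t, 0)) = v0 M z + act C φ t M.h' := by
  rw [v0, v0, map_add, M.L_inf, Prod.snd_add, add_zero]
  abel

theorem v0_fst (t : F) : v0 M (t, 0) = act C φ t M.h' := by
  rw [v0, M.L_inf]
  simp

theorem exists_ta {a b : F} (ha : Algebra.trace k F a = 0) (hb : Algebra.trace k F b = 0)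
    (u : F) :
    ∃ t : F, v0 M (t, 0) = act C φ u (tw φ M.δ a b M.h) := by
  have h1 : InV C φ M.p (act C φ u (tw φ M.δ a b M.h)) :=
    M.H.act_inV _ (M.H.tw_inV M.hδ a b M.h_inV)
  have h2 := M.H.pr_cr_par M.hδ (f := a) (g := b) ha hb M.h_inV 0 u
  have e2' : act C φ 0 M.h = 0 := by
    rw [act, map_zero, map_zero, zero_smul, zero_mul, mul_zero, sub_zero, sub_zero]
  rw [par, e2', zero_add, mul_zero, zero_mul] at h2
  refine exists_v0 M 0 h1 ?_
  rw [h2]
  simp

/-- `M.Q` at a point at infinity. -/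
theorem Q_fst' (t : F) : algebraMap k K (M.Q (t, 0)) = C.T (M.h * C.adj (v0 M (t, 0))) := by
  rw [Q_eq', qua]
  simp

theorem polar_eq (z : F × k) (t : F) : algebraMap k K (QuadraticMap.polar M.Q z (t, 0)) =
    C.T (M.h * C.cr (v0 M z) (v0 M (t, 0))) +
      algebraMap k K (M.n * M.d * z.2) * C.T (M.y * M.p⁻¹ * v0 M (t, 0)) := by
  rw [QuadraticMap.polar, map_sub, map_sub, Q_eq', Q_eq', Q_eq', v0_add_fst, ← v0_fst]
  simp only [qua, C.adj_add, mul_add, map_add, Prod.snd_add, add_zero, mul_zero, map_zero,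
    zero_mul]
  simp
  ring

/-- The linearity of the second coordinate. -/
theorem v0_add (z z' : F × k) : v0 M (z + z') = v0 M z + v0 M z' := by
  rw [v0, v0, v0, map_add, Prod.snd_add, mul_add, add_smul]
  abel

theorem v0_smul (c : k) (z : F × k) : v0 M (c • z) = c • v0 M z := by
  rw [v0, v0, map_smul, Prod.smul_snd, smul_sub, smul_smul, smul_eq_mul, mul_left_comm]

/-- The second coordinate as a linear map. -/
noncomputable def v0L : F × k →ₗ[k] D where
  toFun := v0 M
  map_add' := v0_add M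
  map_smul' := v0_smul M

/-- The base point, the two points at infinity, the explicit zero. -/
theorem exists_rho {a b : F} (ha : Algebra.trace k F a = 0) (hb : Algebra.trace k F b = 0)
    (hab : D0 k a b ≠ 0) : ∃ z0 zb za : F × k, z0.2 = 1 ∧ zb.2 = 0 ∧ za.2 = 0 ∧
      M.Q zb = 0 ∧ M.Q za = 0 ∧ v0 M z0 = act C φ (w₁ M) M.h ∧
      v0 M zb = act C φ (sh k b) (tw φ M.δ a b M.h) ∧
      v0 M za = act C φ (sh k a) (tw φ M.δ a b M.h) ∧
      algebraMap k K (M.Q z0) = qua M 1 (v0 M z0) ∧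
      algebraMap k K (QuadraticMap.polar M.Q z0 za) = C.T (M.h * C.cr (v0 M z0) (v0 M za)) +
        algebraMap k K (M.n * M.d) * C.T (M.y * M.p⁻¹ * v0 M za) ∧
      algebraMap k K (QuadraticMap.polar M.Q z0 zb) = C.T (M.h * C.cr (v0 M z0) (v0 M zb)) +
        algebraMap k K (M.n * M.d) * C.T (M.y * M.p⁻¹ * v0 M zb) ∧
      algebraMap k K (QuadraticMap.polar M.Q zb za) = C.N M.h *
        algebraMap k K (M.d * D0 k a b ^ 2) := by
  obtain ⟨t0, h0⟩ := exists_t₀ M
  obtain ⟨tb, h1⟩ := exists_ta M ha hb (sh k b)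
  obtain ⟨ta, h2⟩ := exists_ta M ha hb (sh k a)
  refine ⟨(t0, 1), (tb, 0), (ta, 0), rfl, rfl, rfl, ?_, ?_, h0, h1, h2, Q_eq' M _, ?_, ?_, ?_⟩
  · apply (algebraMap k K).injective
    rw [Q_fst', h1, T_adj_act M.H M.hδ M.hd M.d0 ha hb M.h3 hab M.h_inV, e2_zero_of M.H hb]
    simp
  · apply (algebraMap k K).injective
    rw [Q_fst', h2, T_adj_act M.H M.hδ M.hd M.d0 ha hb M.h3 hab M.h_inV, e2_zero_of M.H ha]
    simp
  · rw [polar_eq, mul_one]
  · rw [polar_eq, mul_one]
  · rw [polar_eq, h1, h2, T_cr_act M.H M.hδ M.hd M.d0 ha hb M.h3 hab M.h_inV]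
    have e : e2p k (sh k b) (sh k a) = e2p k (sh k a) (sh k b) := by
      simp only [e2p, mul_comm]
    rw [e, e2p_sh M.H M.h3 ha hb]
    simp only [mul_zero, map_zero, zero_mul, add_zero]
    congr 2
    ring

end dat

end Vale.Agent.P011.H308
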