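import Vale.Agent.P011.H308.M8t
import Vale.Agent.P011.H948.EtaB

/-!
# The scaled chart: definitions and continuity
-/

set_option linter.unusedSectionVars false

open Module Matrix Filter Topology

namespace Vale.Agent.P011.H308

open Vale.Agent.P011.H775 Vale.Agent.P011.H948

variable {k K D : Type} [Field k] [Field K] [DivisionRing D] [Algebra k K] [Algebra k D]
  [Algebra K D] [IsScalarTower k K D]

section defs

variable (k)

/-- The trace with values in `k`. -/
noncomputable def Tk (C : Cub K D) (x : D) : k := rk k (C.T x)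

/-- The norm with values in `k`. -/
noncomputable def Nk (C : Cub K D) (x : D) : k := rk k (C.N x)

/-- The Gram matrix. -/
noncomputable def Lam (C : Cub K D) (a σ : D) : Matrix (Fin 3) (Fin 3) k :=
  Matrix.of fun i j => Tk k C (a * σ ^ ((i : ℕ) + (j : ℕ)))

/-- The quotient `pr b / pr a` as an element of `D`. -/
noncomputable def sol (C : Cub K D) (a b σ : D) : D :=
  ∑ j : Fin 3, ((Lam k C a σ).det⁻¹ *
    ((Lam k C a σ).adjugate *ᵥ fun i : Fin 3 => Tk k C (b * σ ^ (i : ℕ))) j) • σ ^ (j : ℕ)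

/-- `D0` in `D`. -/
noncomputable def DD (C : Cub K D) (a b : D) : k :=
  (Tk k C (a ^ 2) * Tk k C (b ^ 2) - Tk k C (a * b) ^ 2) / 3

end defs

/-- `pp` of `g = ε⁻¹ ĝ`. -/
noncomputable def pD (ε : k) (g : D) : D := 3 + ε • g⁻¹

/-- `act` in `D`. -/
def actD (C : Cub K D) (w v : D) : D := C.T w • v - w * v - v * w

/-- `tw` in `D`. -/
def twD (δ : K) (a b v : D) : D := δ • (a * v * b - b * v * a)

section chart

variable (C : Cub K D) (s : K) (d : k) (ε : k) (g y r : D)

/-- `σ` -/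
noncomputable def sg : D := r * (pD ε g)⁻¹

/-- the second element of trace zero -/
noncomputable def bt : D :=
  sg ε g r ^ 2 - algebraMap k D (Tk k C (sg ε g r ^ 2) / 3)

/-- scaled `h` -/
noncomputable def hh : D := pD ε g * g

/-- the norm of `p` -/
noncomputable def nn : k := Nk k C (pD ε g)

/-- scaled `w₁` -/
noncomputable def ww : D := -(nn C ε g * d / 2) •
  sol k C (C.adj (hh ε g)) (y * (pD ε g)⁻¹) (sg ε g r)

/-- `v₀` of the base point -/
noncomputable def v1 : D := actD C (ww C d ε g y r) (hh ε g)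

/-- scaled twist of `h` -/
noncomputable def tt : D := twD s (sg ε g r) (bt C ε g r) (hh ε g)

/-- scaled `v₀` of the point `zb` -/
noncomputable def ub : D := actD C (C.adj (bt C ε g r)) (tt C s ε g r)

/-- scaled `v₀` of the point `za` -/
noncomputable def ua : D := actD C (C.adj (sg ε g r)) (tt C s ε g r)

/-- scaled `Q z0` -/
noncomputable def q0 : k := Tk k C (hh ε g * C.adj (v1 C d ε g y r)) +
  nn C ε g * d * Tk k C (y * (pD ε g)⁻¹ * v1 C d ε g y r) + ε * (nn C ε g * d)

/-- scaled polar form of `z0` and the point at infinity `u` -/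
noncomputable def pq (u : D) : k := Tk k C (hh ε g * C.cr (v1 C d ε g y r) u) +
  nn C ε g * d * Tk k C (y * (pD ε g)⁻¹ * u)

/-- scaled polar form of `zb`, `za` -/
noncomputable def ee : k :=
  Nk k C (hh ε g) * (d * DD k C (sg ε g r) (bt C ε g r) ^ 2)

/-- the denominator -/
noncomputable def dn (κ : k) : k :=
  ε * pq C d ε g y r (ua C s ε g r) + κ * ee C d ε g r

/-- the parameter on the line -/
noncomputable def s1 (κ : k) : k :=
  -(ε * (ε * q0 C d ε g y r + κ * pq C d ε g y r (ub C s ε g r))) / dn C s d ε g y r κ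

/-- scaled `v₀` of the zero -/
noncomputable def vv (κ : k) : D :=
  ε • v1 C d ε g y r + κ • ub C s ε g r + s1 C s d ε g y r κ • ua C s ε g r

/-- scaled linear coefficient -/
noncomputable def K1 (f v : D) : k :=
  Tk k C (f * C.adj v) + d * Tk k C (pD ε g * y * C.cr f v) +
    ε * (nn C ε g * d) * Tk k C (g * (pD ε g)⁻¹ * f)

/-- scaled constant coefficient -/
noncomputable def K0 (v : D) : k :=
  Nk k C v + d * Tk k C (pD ε g * y * C.adj v) +
    ε * (nn C ε g * d) * Tk k C (g * (pD ε g)⁻¹ * v)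

/-- the leading coefficient -/
noncomputable def K3 : k := Nk k C (C.adj (sg ε g r))

/-- scaled quadratic coefficient -/
noncomputable def K2 : k := d * Tk k C (pD ε g * y * C.adj (C.adj (sg ε g r)))

/-- scaled `e₀` -/
noncomputable def e0 : D := d • sol k C 1 (pD ε g * y) (sg ε g r)

/-- scaled `tr (e₀ A)` -/
noncomputable def nA (v : D) : k :=
  K1 C d ε g y (e0 C d ε g y r) v - 3 * Nk k C (e0 C d ε g y r)

end chart

section fp

variable [TopologicalSpace k] [IsTopologicalDivisionRing k]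
  [TopologicalSpace K] [IsModuleTopology k K] [TopologicalSpace D] [IsModuleTopology k D]
  [Module.Finite k K] [Module.Finite k D] {C : Cub K D} [TC C] [ContinuousInv₀ D]
  [IsTopologicalRing D] [ContinuousSMul K D] [IsTopologicalRing K]
  {X : Type} [TopologicalSpace X] {x : X}

@[fun_prop]
theorem cTk {f : X → D} (hf : ContinuousAt f x) : ContinuousAt (fun x => Tk k C (f x)) x := by
  unfold Tk
  fun_prop

@[fun_prop]
theorem cNk {f : X → D} (hf : ContinuousAt f x) : ContinuousAt (fun x => Nk k C (f x)) x := by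
  unfold Nk
  fun_prop

theorem cLam {a σ : X → D} (ha : ContinuousAt a x) (hσ : ContinuousAt σ x) :
    ContinuousAt (fun x => Lam k C (a x) (σ x)) x := by
  unfold Lam
  refine tendsto_pi_nhds.2 fun i => tendsto_pi_nhds.2 fun j => ?_
  change ContinuousAt (fun x => Tk k C (a x * σ x ^ ((i : ℕ) + (j : ℕ)))) x
  fun_prop

theorem csol {a b σ : X → D} (ha : ContinuousAt a x) (hb : ContinuousAt b x)
    (hσ : ContinuousAt σ x) (h0 : (Lam k C (a x) (σ x)).det ≠ 0) :
    ContinuousAt (fun x => sol k C (a x) (b x) (σ x)) x := by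
  have h1 : ContinuousAt (fun x => (Lam k C (a x) (σ x)).det⁻¹) x := by
    refine ContinuousAt.inv₀ ?_ h0
    exact ContinuousAt.comp (g := fun M : Matrix (Fin 3) (Fin 3) k => M.det)
      (continuous_id.matrix_det.continuousAt) (cLam ha hσ)
  have h2 : ContinuousAt (fun x => (Lam k C (a x) (σ x)).adjugate *ᵥ
      fun i : Fin 3 => Tk k C (b x * σ x ^ (i : ℕ))) x := by
    refine ContinuousAt.comp (g := fun z : Matrix (Fin 3) (Fin 3) k × (Fin 3 → k) =>
      z.1.adjugate *ᵥ z.2) (f := fun x => (Lam k C (a x) (σ x),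
        fun i : Fin 3 => Tk k C (b x * σ x ^ (i : ℕ)))) ?_ ?_
    · exact (continuous_fst.matrix_adjugate.matrix_mulVec continuous_snd).continuousAt
    · refine (cLam ha hσ).prodMk ?_
      refine tendsto_pi_nhds.2 fun i => ?_
      change ContinuousAt (fun x => Tk k C (b x * σ x ^ (i : ℕ))) x
      fun_prop
  unfold sol
  refine tendsto_finsetSum _ fun j _ => ?_
  refine Tendsto.smul (h1.mul (tendsto_pi_nhds.1 h2 j)) ?_
  change ContinuousAt (fun x => σ x ^ (j : ℕ)) x
  fun_prop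

end fp

section good

variable (C : Cub K D) (s : K) (d : k) (a : AbsoluteValue k ℝ)

/-- The open conditions on `(κ, ε, ĝ, ŷ, r)`. -/
structure GX (κ ε : k) (g y r : D) : Prop where
  L1 : (Lam k C (C.adj (hh ε g)) (sg ε g r)).det ≠ 0
  L2 : (Lam k C 1 (sg ε g r)).det ≠ 0
  n0 : dn C s d ε g y r κ ≠ 0
  k3 : K3 C ε g r ≠ (0 : k)
  i1 : a (K1 C d ε g y (C.adj (sg ε g r)) (vv C s d ε g y r κ) * K3 C ε g r) <
    a (K2 C d ε g y r) ^ 2
  i0 : a (K0 C d ε g y (vv C s d ε g y r κ) * K3 C ε g r ^ 2) < a (K2 C d ε g y r) ^ 3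
  A : nA C d ε g y r (vv C s d ε g y r κ) ≠ 0

variable {C s d a} [TopologicalSpace k] [IsTopologicalDivisionRing k] [T2Space k]
  [TopologicalSpace K] [IsModuleTopology k K] [TopologicalSpace D] [IsModuleTopology k D]
  [Module.Finite k K] [Module.Finite k D]

/-- Continuity at the limit point. -/
theorem eventually_GX (ha : Continuous fun c => a c) (h2 : (2 : K) ≠ 0) (h3 : (3 : K) ≠ 0)
    {gs ys rs : D} (g0 : gs ≠ 0)
    (L1 : (Lam k C (C.adj (hh (0 : k) gs)) (sg (0 : k) gs rs)).det ≠ 0)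
    (L2 : (Lam k C 1 (sg (0 : k) gs rs)).det ≠ 0)
    (he : ee C d 0 gs rs ≠ 0) (hK3 : K3 C 0 gs rs ≠ (0 : k)) (hK2 : K2 C d 0 gs ys rs ≠ 0)
    (hN : 3 * Nk k C (e0 C d 0 gs ys rs) ≠ 0) :
    ∀ᶠ κ in 𝓝 (0 : k), κ ≠ 0 → ∀ᶠ X in 𝓝 ((0 : k), gs, ys, rs),
      GX C s d a κ X.1 X.2.1 X.2.2.1 X.2.2.2 := by
  have i1 : IsTopologicalRing D := IsModuleTopology.isTopologicalRing k D
  have i2 : IsTopologicalRing K := IsModuleTopology.isTopologicalRing k K
  have i3 : ContinuousSMul K D := continuousSMulK k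
  have i4 : ContinuousInv₀ D := continuousInv k
  have i5 : TC C := tC k C h2 h3
  have h3D : (3 : D) ≠ 0 := by
    intro h
    apply h3
    apply (algebraMap K D).injective
    rw [map_ofNat, h, map_zero]
  have p0 : pD (0 : k) gs = 3 := by rw [pD, zero_smul, add_zero]
  have hp0 : pD (0 : k) gs ≠ 0 := by rw [p0]; exact h3D
  -- step 1
  have st1 : ∀ᶠ κ in 𝓝 (0 : k),
      a (K1 C d 0 gs ys (C.adj (sg (0 : k) gs rs)) (κ • ub C s (0 : k) gs rs) * K3 C 0 gs rs) <
        a (K2 C d 0 gs ys rs) ^ 2 ∧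
      a (K0 C d 0 gs ys (κ • ub C s (0 : k) gs rs) * K3 C 0 gs rs ^ 2) <
        a (K2 C d 0 gs ys rs) ^ 3 ∧
      nA C d 0 gs ys rs (κ • ub C s (0 : k) gs rs) ≠ 0 := by
    have hpos : 0 < a (K2 C d 0 gs ys rs) := a.pos hK2
    have c1 : ContinuousAt (fun κ : k => a (K1 C d 0 gs ys (C.adj (sg (0 : k) gs rs))
        (κ • ub C s (0 : k) gs rs) * K3 C 0 gs rs)) 0 := by
      refine ContinuousAt.comp (g := fun c : k => a c) ha.continuousAt ?_
      unfold K1
      fun_prop
    have c0 : ContinuousAt (fun κ : k => a (K0 C d 0 gs ys (κ • ub C s (0 : k) gs rs) *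
        K3 C 0 gs rs ^ 2)) 0 := by
      refine ContinuousAt.comp (g := fun c : k => a c) ha.continuousAt ?_
      unfold K0
      fun_prop
    have cA : ContinuousAt (fun κ : k => nA C d 0 gs ys rs (κ • ub C s (0 : k) gs rs)) 0 := by
      unfold nA K1
      fun_prop
    have cr0 : ∀ f : D, C.cr f 0 = 0 := fun f => by
      have h := C.cr_smul_right 0 f 0
      rwa [zero_smul, zero_smul] at h
    have e1 : ∀ f : D, K1 C d 0 gs ys f (0 : D) = (0 : k) := fun f => by
      simp only [K1, Tk, C.adj_zero, cr0, mul_zero, zero_mul, map_zero, add_zero]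
    have e0' : K0 C d 0 gs ys (0 : D) = (0 : k) := by
      simp only [K0, Tk, Nk, C.N_zero, C.adj_zero, mul_zero, zero_mul, map_zero, add_zero]
    refine (c1.eventually_lt continuousAt_const ?_).and
      ((c0.eventually_lt continuousAt_const ?_).and ?_)
    · rw [zero_smul, e1, zero_mul, map_zero]
      positivity
    · rw [zero_smul, e0', zero_mul, map_zero]
      positivity
    · refine cA.eventually_ne ?_
      rw [zero_smul, nA, e1, zero_sub]
      exact neg_ne_zero.2 hN
  filter_upwards [st1] with κ hκ hκ0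
  obtain ⟨hκ1, hκ2, hκ3⟩ := hκ
  -- step 2
  set x0 : k × D × D × D := ((0 : k), gs, ys, rs) with hx0
  have fe : ContinuousAt (fun X : k × D × D × D => X.1) x0 := continuousAt_fst
  have fg : ContinuousAt (fun X : k × D × D × D => X.2.1) x0 := by fun_prop
  have fy : ContinuousAt (fun X : k × D × D × D => X.2.2.1) x0 := by fun_prop
  have fr : ContinuousAt (fun X : k × D × D × D => X.2.2.2) x0 := by fun_prop
  have cgi : ContinuousAt (fun X : k × D × D × D => (X.2.1)⁻¹) x0 := fg.inv₀ g0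
  have cp : ContinuousAt (fun X : k × D × D × D => pD X.1 X.2.1) x0 := by
    unfold pD
    exact continuousAt_const.add (fe.smul cgi)
  have cpi : ContinuousAt (fun X : k × D × D × D => (pD X.1 X.2.1)⁻¹) x0 := cp.inv₀ hp0
  have csg : ContinuousAt (fun X : k × D × D × D => sg X.1 X.2.1 X.2.2.2) x0 := by
    unfold sg
    exact fr.mul cpi
  have cbt : ContinuousAt (fun X : k × D × D × D => bt C X.1 X.2.1 X.2.2.2) x0 := by
    unfold bt
    have h := (IsModuleTopology.continuous_of_linearMap (Algebra.linearMap k D))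
    refine (csg.pow 2).sub ?_
    refine ContinuousAt.comp (g := fun c : k => algebraMap k D c) h.continuousAt ?_
    exact (cTk (csg.pow 2)).div_const _
  have chh : ContinuousAt (fun X : k × D × D × D => hh X.1 X.2.1) x0 := by
    unfold hh
    exact cp.mul fg
  have cnn : ContinuousAt (fun X : k × D × D × D => nn C X.1 X.2.1) x0 := by
    unfold nn
    exact cNk cp
  have cww : ContinuousAt (fun X : k × D × D × D => ww C d X.1 X.2.1 X.2.2.1 X.2.2.2) x0 := by
    unfold ww
    have h := csol (C := C) (cadj chh) (fy.mul cpi) csg L1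
    exact (((cnn.mul continuousAt_const).div_const 2).neg).smul h
  have cv1 : ContinuousAt (fun X : k × D × D × D => v1 C d X.1 X.2.1 X.2.2.1 X.2.2.2) x0 := by
    unfold v1 actD
    fun_prop
  have ctt : ContinuousAt (fun X : k × D × D × D => tt C s X.1 X.2.1 X.2.2.2) x0 := by
    unfold tt twD
    fun_prop
  have cub : ContinuousAt (fun X : k × D × D × D => ub C s X.1 X.2.1 X.2.2.2) x0 := by
    unfold ub actD
    fun_prop
  have cua : ContinuousAt (fun X : k × D × D × D => ua C s X.1 X.2.1 X.2.2.2) x0 := by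
    unfold ua actD
    fun_prop
  have cq0 : ContinuousAt (fun X : k × D × D × D => q0 C d X.1 X.2.1 X.2.2.1 X.2.2.2) x0 := by
    unfold q0
    fun_prop
  have cpa : ContinuousAt (fun X : k × D × D × D => pq C d X.1 X.2.1 X.2.2.1 X.2.2.2
      (ua C s X.1 X.2.1 X.2.2.2)) x0 := by
    unfold pq
    fun_prop
  have cpb : ContinuousAt (fun X : k × D × D × D => pq C d X.1 X.2.1 X.2.2.1 X.2.2.2
      (ub C s X.1 X.2.1 X.2.2.2)) x0 := by
    unfold pq
    fun_prop
  have cee : ContinuousAt (fun X : k × D × D × D => ee C d X.1 X.2.1 X.2.2.2) x0 := by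
    unfold ee DD
    fun_prop
  have cdn : ContinuousAt (fun X : k × D × D × D =>
      dn C s d X.1 X.2.1 X.2.2.1 X.2.2.2 κ) x0 := by
    unfold dn
    fun_prop
  have hdn : dn C s d x0.1 x0.2.1 x0.2.2.1 x0.2.2.2 κ ≠ 0 := by
    rw [dn, hx0]
    change (0 : k) * _ + κ * ee C d 0 gs rs ≠ 0
    rw [zero_mul, zero_add]
    exact mul_ne_zero hκ0 he
  have cs1 : ContinuousAt (fun X : k × D × D × D =>
      s1 C s d X.1 X.2.1 X.2.2.1 X.2.2.2 κ) x0 := by
    unfold s1
    refine ContinuousAt.div ?_ cdn hdn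
    fun_prop
  have cvv : ContinuousAt (fun X : k × D × D × D =>
      vv C s d X.1 X.2.1 X.2.2.1 X.2.2.2 κ) x0 := by
    unfold vv
    fun_prop
  have evv : vv C s d x0.1 x0.2.1 x0.2.2.1 x0.2.2.2 κ = κ • ub C s (0 : k) gs rs := by
    rw [vv, s1, hx0]
    change (0 : k) • _ + κ • ub C s (0 : k) gs rs + (-((0 : k) * _) / _) • _ = _
    rw [zero_smul, zero_mul, neg_zero, zero_div, zero_smul, zero_add, add_zero]
  have cK3 : ContinuousAt (fun X : k × D × D × D => K3 C X.1 X.2.1 X.2.2.2) x0 := by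
    unfold K3
    fun_prop
  have cK2 : ContinuousAt (fun X : k × D × D × D => K2 C d X.1 X.2.1 X.2.2.1 X.2.2.2) x0 := by
    unfold K2
    fun_prop
  have cK1 : ContinuousAt (fun X : k × D × D × D => K1 C d X.1 X.2.1 X.2.2.1
      (C.adj (sg X.1 X.2.1 X.2.2.2)) (vv C s d X.1 X.2.1 X.2.2.1 X.2.2.2 κ)) x0 := by
    unfold K1
    fun_prop
  have cK0 : ContinuousAt (fun X : k × D × D × D => K0 C d X.1 X.2.1 X.2.2.1
      (vv C s d X.1 X.2.1 X.2.2.1 X.2.2.2 κ)) x0 := by
    unfold K0
    fun_prop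
  have ce0 : ContinuousAt (fun X : k × D × D × D => e0 C d X.1 X.2.1 X.2.2.1 X.2.2.2) x0 := by
    unfold e0
    exact (csol (C := C) continuousAt_const (cp.mul fy) csg L2).const_smul d
  have cnA : ContinuousAt (fun X : k × D × D × D => nA C d X.1 X.2.1 X.2.2.1 X.2.2.2
      (vv C s d X.1 X.2.1 X.2.2.1 X.2.2.2 κ)) x0 := by
    unfold nA K1
    fun_prop
  have cL1 : ContinuousAt (fun X : k × D × D × D =>
      (Lam k C (C.adj (hh X.1 X.2.1)) (sg X.1 X.2.1 X.2.2.2)).det) x0 :=
    ContinuousAt.comp (g := fun M : Matrix (Fin 3) (Fin 3) k => M.det)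
      (continuous_id.matrix_det.continuousAt) (cLam (cadj chh) csg)
  have cL2 : ContinuousAt (fun X : k × D × D × D =>
      (Lam k C 1 (sg X.1 X.2.1 X.2.2.2)).det) x0 :=
    ContinuousAt.comp (g := fun M : Matrix (Fin 3) (Fin 3) k => M.det)
      (continuous_id.matrix_det.continuousAt) (cLam continuousAt_const csg)
  have m1 : ∀ᶠ X in 𝓝 x0, a (K1 C d X.1 X.2.1 X.2.2.1 (C.adj (sg X.1 X.2.1 X.2.2.2))
      (vv C s d X.1 X.2.1 X.2.2.1 X.2.2.2 κ) * K3 C X.1 X.2.1 X.2.2.2) <
      a (K2 C d X.1 X.2.1 X.2.2.1 X.2.2.2) ^ 2 := by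
    refine ContinuousAt.eventually_lt
      (ContinuousAt.comp (g := fun c : k => a c) ha.continuousAt (cK1.mul cK3))
      ((ContinuousAt.comp (g := fun c : k => a c) ha.continuousAt cK2).pow 2) ?_
    rw [evv]
    exact hκ1
  have m0 : ∀ᶠ X in 𝓝 x0, a (K0 C d X.1 X.2.1 X.2.2.1
      (vv C s d X.1 X.2.1 X.2.2.1 X.2.2.2 κ) * K3 C X.1 X.2.1 X.2.2.2 ^ 2) <
      a (K2 C d X.1 X.2.1 X.2.2.1 X.2.2.2) ^ 3 := by
    refine ContinuousAt.eventually_lt
      (ContinuousAt.comp (g := fun c : k => a c) ha.continuousAt (cK0.mul (cK3.pow 2)))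
      ((ContinuousAt.comp (g := fun c : k => a c) ha.continuousAt cK2).pow 3) ?_
    rw [evv]
    exact hκ2
  have mA : ∀ᶠ X in 𝓝 x0, nA C d X.1 X.2.1 X.2.2.1 X.2.2.2
      (vv C s d X.1 X.2.1 X.2.2.1 X.2.2.2 κ) ≠ 0 := by
    refine cnA.eventually_ne ?_
    rw [evv]
    exact hκ3
  filter_upwards [cL1.eventually_ne L1, cL2.eventually_ne L2, cdn.eventually_ne hdn,
    cK3.eventually_ne hK3, m1, m0, mA] with X x1 x2 x3 x4 x5 x6 x7
  exact ⟨x1, x2, x3, x4, x5, x6, x7⟩

end good

end Vale.Agent.P011.H308
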