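import Vale.Agent.P011.H308.M8d

/-!
# Nondegeneracy at the limit point
-/

set_option linter.unusedSectionVars false

open Module Matrix Filter Topology

namespace Vale.Agent.P011.H308

open Vale.Agent.P011.H775 Vale.Agent.P011.H948

/-- The standing hypotheses on the fields. -/
structure Bs (k K : Type) [Field k] [Field K] [StarRing K] [Algebra k K] : Prop where
  hfix : ∀ c : K, star c = c → c ∈ Set.range (algebraMap k K)
  hfix' : ∀ c : k, star (algebraMap k K c) = algebraMap k K c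
  hK : finrank k K = 2
  h2 : (2 : k) ≠ 0
  h3 : (3 : k) ≠ 0

section rk

variable {k K : Type} [Field k] [Field K] [StarRing K] [Algebra k K] (H : Bs k K)

include H

theorem Bs.rk_alg (c : k) : rk k (algebraMap k K c) = c := by
  rw [rk, LinearMap.smul_apply, Algebra.trace_algebraMap, H.hK, nsmul_eq_mul, smul_eq_mul]
  have := H.h2
  push_cast
  field_simp

theorem Bs.rk_eq {c : K} (hc : star c = c) : algebraMap k K (rk k c) = c := by
  obtain ⟨c', rfl⟩ := H.hfix c hc
  rw [H.rk_alg]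

theorem Bs.rk_ne {c : K} (hc : star c = c) (h0 : c ≠ 0) : rk k c ≠ 0 := by
  intro h
  apply h0
  rw [← H.rk_eq hc, h, map_zero]

theorem Bs.two : (2 : K) ≠ 0 := by
  have h := (_root_.map_ne_zero (algebraMap k K)).2 H.h2
  rwa [map_ofNat] at h

theorem Bs.three : (3 : K) ≠ 0 := by
  have h := (_root_.map_ne_zero (algebraMap k K)).2 H.h3
  rwa [map_ofNat] at h

end rk

section cub

variable {K D : Type} [Field K] [DivisionRing D] [Algebra K D] (C : Cub K D)

include C in
/-- A quadratic element is central. -/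
theorem mem_of_quad {w : D} (t n : K) (h : w * w = t • w - n • (1 : D)) :
    ∃ c : K, w = c • (1 : D) := by
  have h1 := C.cayley w
  have h3 : w * w * w = (t * t - n) • w - (t * n) • (1 : D) := by
    rw [h, sub_mul, smul_mul_assoc, smul_mul_assoc, one_mul, h, smul_sub, smul_smul, smul_smul,
      sub_smul]
    abel
  have h4 : ((t * t - n) - C.T w * t + C.S w) • w = (t * n - C.T w * n + C.N w) • (1 : D) := by
    rw [h3, h, smul_sub, smul_smul, smul_smul] at h1
    have h5 : ((t * t - n) - C.T w * t + C.S w) • w - (t * n - C.T w * n + C.N w) • (1 : D) =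
        (t * t - n) • w - (t * n) • (1 : D) - ((C.T w * t) • w - (C.T w * n) • (1 : D)) +
          C.S w • w - C.N w • (1 : D) := by
      module
    rw [← sub_eq_zero, h5]
    exact h1
  by_cases hz : (t * t - n) - C.T w * t + C.S w = 0
  · rw [hz, zero_smul] at h4
    have h6 : t * n - C.T w * n + C.N w = 0 := by
      rcases smul_eq_zero.1 h4.symm with h | h
      · exact h
      · exact absurd h one_ne_zero
    refine ⟨C.T w - t, ?_⟩
    have h7 : C.N (w - (C.T w - t) • (1 : D)) = 0 := by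
      rw [N_sub_smul_one]
      linear_combination h6 - (C.T w - t) * hz
    by_contra hne
    exact C.N_ne_zero (sub_ne_zero.2 hne) h7
  · refine ⟨((t * t - n) - C.T w * t + C.S w)⁻¹ * (t * n - C.T w * n + C.N w), ?_⟩
    rw [mul_smul, ← h4, smul_smul, inv_mul_cancel₀ hz, one_smul]

/-- The discriminant of an element of trace zero. -/
theorem disc_ne (h3 : (3 : K) ≠ 0) {w : D} (h0 : w ≠ 0) (hT : C.T w = 0) :
    4 * C.S w ^ 3 + 27 * C.N w ^ 2 ≠ 0 := by
  intro h
  have hN := C.N_ne_zero h0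
  by_cases hS : C.S w = 0
  · rw [hS] at h
    have h5 : (27 : K) * C.N w ^ 2 ≠ 0 := by
      refine mul_ne_zero ?_ (pow_ne_zero 2 hN)
      have : (27 : K) = 3 ^ 3 := by norm_num
      rw [this]
      exact pow_ne_zero 3 h3
    apply h5
    linear_combination h
  · have h7 : C.N (w - (-(3 * C.N w) / C.S w) • (1 : D)) = 0 := by
      rw [N_sub_smul_one, hT]
      field_simp
      linear_combination C.N w * h
    have h8 : w = (-(3 * C.N w) / C.S w) • (1 : D) := by
      by_contra hne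
      exact C.N_ne_zero (sub_ne_zero.2 hne) h7
    have h9 := congrArg C.T h8
    rw [hT, map_smul, C.T_one, smul_eq_mul] at h9
    have h10 : (-(3 * C.N w) / C.S w) * 3 ≠ 0 :=
      mul_ne_zero (div_ne_zero (neg_ne_zero.2 (mul_ne_zero h3 hN)) hS) h3
    exact h10 h9.symm

end cub

section lam

variable {k K D : Type} [Field k] [Field K] [StarRing K] [DivisionRing D] [StarRing D]
  [Algebra k K] [Algebra k D] [Algebra K D] [IsScalarTower k K D] (H : Bs k K) {C : Cub K D}
  (hC : SCub C)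

include H hC

/-- Powers of a noncentral element are independent over `k`. -/
theorem indep_pow {x : D} (hxc : ∀ c : K, x ≠ c • (1 : D)) {c0 c1 c2 : k}
    (h : c0 • (1 : D) + c1 • x + c2 • (x * x) = 0) : c0 = 0 ∧ c1 = 0 ∧ c2 = 0 := by
  have _ := H
  have _ := hC
  have hk : ∀ (c : k) (z : D), c • z = algebraMap k K c • z := fun c z =>
    (algebraMap_smul K c z).symm
  by_cases h2 : c2 = 0
  · rw [h2, zero_smul, add_zero] at h
    by_cases h1 : c1 = 0
    · rw [h1, zero_smul, add_zero] at h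
      refine ⟨?_, h1, h2⟩
      rcases smul_eq_zero.1 h with h | h
      · exact h
      · exact absurd h one_ne_zero
    · exfalso
      apply hxc (-(algebraMap k K (c1⁻¹ * c0)))
      have h3 : c1 • x = -(c0 • (1 : D)) := by
        rw [eq_neg_iff_add_eq_zero, add_comm]
        exact h
      rw [neg_smul, ← hk, mul_smul, ← smul_neg, ← h3, smul_smul, inv_mul_cancel₀ h1, one_smul]
  · exfalso
    have h3 : x * x = (algebraMap k K (-(c2⁻¹ * c1))) • x -
        (algebraMap k K (c2⁻¹ * c0)) • (1 : D) := by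
      rw [← hk, ← hk]
      have h4 : c2 • (x * x) = -(c1 • x) - c0 • (1 : D) := by
        rw [← sub_eq_zero]
        rw [← h]
        abel
      have h5 : x * x = c2⁻¹ • (c2 • (x * x)) := by
        rw [smul_smul, inv_mul_cancel₀ h2, one_smul]
      rw [h5, h4]
      module
    obtain ⟨c, hc⟩ := mem_of_quad C _ _ h3
    exact hxc c hc

theorem cayley_k {x : D} (hx : star x = x) : x * x * x =
    rk k (C.T x) • (x * x) - rk k (C.S x) • x + rk k (C.N x) • (1 : D) := by
  have h1 := C.cayley x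
  have e1 : rk k (C.T x) • (x * x) = C.T x • (x * x) := by
    rw [← algebraMap_smul K, H.rk_eq (hC.T_symm hx)]
  have e2 : rk k (C.S x) • x = C.S x • x := by
    rw [← algebraMap_smul K, H.rk_eq (hC.S_symm hx)]
  have e3 : rk k (C.N x) • (1 : D) = C.N x • (1 : D) := by
    rw [← algebraMap_smul K, H.rk_eq (hC.N_symm hx)]
  rw [e1, e2, e3, ← sub_eq_zero, ← h1]
  abel

/-- Nondegeneracy of the Gram matrix. -/
theorem det_Lam_ne {x a : D} (hx : star x = x) (hxc : ∀ c : K, x ≠ c • (1 : D))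
    (ha : Tk k C a ≠ 0) : (Lam k C a x).det ≠ 0 := by
  intro hdet
  obtain ⟨c, hc0, hc⟩ := Matrix.exists_mulVec_eq_zero_iff.2 hdet
  set Φ : (Fin 3 → k) →ₗ[k] D := Fintype.linearCombination k (fun j : Fin 3 => x ^ (j : ℕ))
    with hΦ
  have hΦa : ∀ b : Fin 3 → k, Φ b = b 0 • (1 : D) + b 1 • x + b 2 • (x * x) := by
    intro b
    rw [hΦ, Fintype.linearCombination_apply, Fin.sum_univ_three]
    simp [pow_two]
  have hinj : ∀ b, Φ b = 0 → b = 0 := by
    intro b hb
    rw [hΦa] at hb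
    obtain ⟨h0, h1, h2⟩ := indep_pow H hC hxc hb
    funext i
    fin_cases i
    · exact h0
    · exact h1
    · exact h2
  have hxE : ∀ e ∈ LinearMap.range Φ, x * e ∈ LinearMap.range Φ := by
    rintro _ ⟨b, rfl⟩
    refine ⟨![b 2 * rk k (C.N x), b 0 - b 2 * rk k (C.S x), b 1 + b 2 * rk k (C.T x)], ?_⟩
    have h1 := cayley_k H hC hx
    rw [hΦa, hΦa]
    simp only [Matrix.cons_val_zero, Matrix.cons_val_one, Matrix.cons_val_two,
      Matrix.head_cons, Matrix.tail_cons]
    rw [mul_add, mul_add, mul_smul_comm, mul_smul_comm, mul_smul_comm, mul_one, ← mul_assoc, h1]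
    simp
    module
  have huE : ∀ e ∈ LinearMap.range Φ, Φ c * e ∈ LinearMap.range Φ := by
    intro e he
    rw [hΦa, add_mul, add_mul, smul_mul_assoc, smul_mul_assoc, smul_mul_assoc, one_mul,
      mul_assoc]
    exact Submodule.add_mem _ (Submodule.add_mem _ (Submodule.smul_mem _ _ he)
      (Submodule.smul_mem _ _ (hxE e he))) (Submodule.smul_mem _ _ (hxE _ (hxE e he)))
  have hu0 : Φ c ≠ 0 := fun h => hc0 (hinj c h)
  set m : LinearMap.range Φ →ₗ[k] LinearMap.range Φ :=
    (LinearMap.mulLeft k (Φ c)).restrict huE with hm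
  have hmi : Function.Injective m := by
    rw [injective_iff_map_eq_zero]
    intro e he
    have h1 : Φ c * (e : D) = 0 := congrArg Subtype.val he
    rcases mul_eq_zero.1 h1 with h | h
    · exact absurd h hu0
    · exact Subtype.ext h
  have h1E : (1 : D) ∈ LinearMap.range Φ := ⟨![1, 0, 0], by rw [hΦa]; simp⟩
  obtain ⟨e, he⟩ := LinearMap.surjective_of_injective hmi ⟨1, h1E⟩
  have he' : Φ c * (e : D) = 1 := congrArg Subtype.val he
  obtain ⟨b, hb⟩ := e.2
  have hTk : ∀ z w : D, Tk k C (z + w) = Tk k C z + Tk k C w := fun z w => by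
    rw [Tk, map_add, map_add, Tk, Tk]
  have hTs : ∀ (r : k) (z : D), Tk k C (r • z) = r * Tk k C z := fun r z => by
    rw [Tk, ← algebraMap_smul K r z, map_smul, Tk, smul_eq_mul, ← Algebra.smul_def, map_smul,
      smul_eq_mul]
  have hi : ∀ i : Fin 3, Tk k C (a * (x ^ (i : ℕ) * Φ c)) = 0 := by
    intro i
    have h1 := congrFun hc i
    have h2 : (Lam k C a x *ᵥ c) i = Tk k C (a * x ^ (i : ℕ)) * c 0 +
        Tk k C (a * x ^ ((i : ℕ) + 1)) * c 1 + Tk k C (a * x ^ ((i : ℕ) + 2)) * c 2 := by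
      rw [Matrix.mulVec, dotProduct, Fin.sum_univ_three]
      rfl
    rw [h2] at h1
    rw [hΦa]
    have e1 : a * (x ^ (i : ℕ) * (c 0 • (1 : D) + c 1 • x + c 2 • (x * x))) =
        c 0 • (a * x ^ (i : ℕ)) + c 1 • (a * x ^ ((i : ℕ) + 1)) +
          c 2 • (a * x ^ ((i : ℕ) + 2)) := by
      simp only [mul_add, mul_smul_comm, mul_one, pow_add, pow_one, pow_two]
    rw [e1, hTk, hTk, hTs, hTs, hTs]
    rw [Pi.zero_apply] at h1
    linear_combination h1
  apply ha
  have h5 : a = b 0 • (a * (x ^ 0 * Φ c)) + b 1 • (a * (x ^ 1 * Φ c)) +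
      b 2 • (a * (x ^ 2 * Φ c)) := by
    have h6 : (1 : D) = b 0 • (x ^ 0 * Φ c) + b 1 • (x ^ 1 * Φ c) + b 2 • (x ^ 2 * Φ c) := by
      have hcomm : x * Φ c = Φ c * x := by
        rw [hΦa]
        simp only [mul_add, add_mul, mul_smul_comm, smul_mul_assoc, mul_one, one_mul, mul_assoc]
      rw [← he', ← hb, hΦa b]
      simp only [mul_add, mul_smul_comm, mul_one, pow_zero, pow_one, pow_two, one_mul]
      rw [mul_assoc x x, hcomm, ← mul_assoc x, hcomm, mul_assoc]
    calc a = a * 1 := (mul_one a).symm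
      _ = _ := by
        conv_lhs => rw [h6]
        simp only [mul_add, mul_smul_comm]
  have h0 := hi 0
  have h1 := hi 1
  have h2 := hi 2
  have h0' : Tk k C (a * (x ^ 0 * Φ c)) = 0 := h0
  have h1' : Tk k C (a * (x ^ 1 * Φ c)) = 0 := h1
  have h2' : Tk k C (a * (x ^ 2 * Φ c)) = 0 := h2
  rw [h5, hTk, hTk, hTs, hTs, hTs, h0', h1', h2']
  ring

omit [StarRing K] [StarRing D] H hC in
theorem Tk_add (z w : D) : Tk k C (z + w) = Tk k C z + Tk k C w := by
  rw [Tk, map_add, map_add, Tk, Tk]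

omit [StarRing K] [StarRing D] H hC in
theorem Tk_smul (c : k) (z : D) : Tk k C (c • z) = c * Tk k C z := by
  rw [Tk, ← algebraMap_smul K c z, map_smul, Tk, smul_eq_mul, ← Algebra.smul_def, map_smul,
    smul_eq_mul]

theorem star_smul_k (c : k) {x : D} (hx : star x = x) : star (c • x) = c • x := by
  rw [← algebraMap_smul K c x, hC.smul, H.hfix', hx]

theorem star_pow_k {x : D} (hx : star x = x) (n : ℕ) : star (x ^ n) = x ^ n := by
  have _ := H
  have _ := hC
  rw [star_pow, hx]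

omit [IsScalarTower k K D] in
theorem star_one_D : star (1 : D) = 1 := by
  have _ := H
  have _ := hC
  exact star_one D

theorem sol_symm {x : D} (hx : star x = x) (a b : D) : star (sol k C a b x) = sol k C a b x := by
  rw [sol, star_sum]
  exact Finset.sum_congr rfl fun j _ => star_smul_k H hC _ (star_pow_k H hC hx _)

theorem sol_ne {x : D} (hxc : ∀ c : K, x ≠ c • (1 : D)) {a b : D}
    (hdet : (Lam k C a x).det ≠ 0) (i : Fin 3) (hb : Tk k C (b * x ^ (i : ℕ)) ≠ 0) :
    sol k C a b x ≠ 0 := by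
  intro h
  set w : Fin 3 → k := fun i : Fin 3 => Tk k C (b * x ^ (i : ℕ)) with hw
  set v : Fin 3 → k := (Lam k C a x).adjugate *ᵥ w with hv
  rw [sol, Fin.sum_univ_three] at h
  have h' : ((Lam k C a x).det⁻¹ * v 0) • (1 : D) + ((Lam k C a x).det⁻¹ * v 1) • x +
      ((Lam k C a x).det⁻¹ * v 2) • (x * x) = 0 := by
    rw [← h]
    simp [hv, hw, pow_two]
  obtain ⟨h0, h1, h2⟩ := indep_pow H hC hxc h'
  have hi := inv_ne_zero hdet
  have hv0 : v = 0 := by
    funext j
    fin_cases j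
    · exact (mul_eq_zero.1 h0).resolve_left hi
    · exact (mul_eq_zero.1 h1).resolve_left hi
    · exact (mul_eq_zero.1 h2).resolve_left hi
  have h3 : (Lam k C a x) *ᵥ v = (Lam k C a x).det • w := by
    rw [hv, Matrix.mulVec_mulVec, Matrix.mul_adjugate, Matrix.smul_mulVec, Matrix.one_mulVec]
  rw [hv0, Matrix.mulVec_zero] at h3
  have h4 := congrFun h3 i
  rw [Pi.zero_apply, Pi.smul_apply, smul_eq_mul] at h4
  rcases mul_eq_zero.1 h4.symm with h5 | h5
  · exact hdet h5
  · exact hb h5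

end lam

/-- The hypotheses on the limit point. -/
structure Lim {K D : Type} [Field K] [DivisionRing D] [StarRing D] [Algebra K D] (C : Cub K D)
    (gs ys rs : D) : Prop where
  sg : star gs = gs
  sy : star ys = ys
  sr : star rs = rs
  Tr : C.T rs = 0
  r0 : rs ≠ 0
  S : C.S gs ≠ 0
  Ty : C.T (ys * rs) ≠ 0

section lim

variable {k K D : Type} [Field k] [Field K] [StarRing K] [DivisionRing D] [StarRing D]
  [Algebra k K] [Algebra k D] [Algebra K D] [IsScalarTower k K D] (H : Bs k K) {C : Cub K D}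
  (hC : SCub C) {gs ys rs : D} (hL : Lim C gs ys rs)

include H hC hL

omit [IsScalarTower k K D] hC in
theorem Lim.g0 : gs ≠ 0 := by
  have _ := H
  rintro rfl
  apply hL.S
  rw [Cub.S, C.adj_zero, map_zero]

omit hC in
theorem sg_lim : sg (0 : k) gs rs = (3 : k)⁻¹ • rs := by
  have _ := hL
  rw [sg, pD, zero_smul, add_zero]
  have h3 : (3 : D) = algebraMap k D 3 := by rw [map_ofNat]
  rw [h3, ← map_inv₀, ← Algebra.commutes, ← Algebra.smul_def]

omit hC in
theorem sg_T : C.T (sg (0 : k) gs rs) = 0 := by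
  rw [sg_lim H hL, ← algebraMap_smul K, map_smul, hL.Tr, smul_zero]

theorem sg_star : star (sg (0 : k) gs rs) = sg (0 : k) gs rs := by
  rw [sg_lim H hL]
  exact star_smul_k H hC _ hL.sr

omit hC in
theorem sg_ne : sg (0 : k) gs rs ≠ 0 := by
  rw [sg_lim H hL]
  exact smul_ne_zero (inv_ne_zero H.h3) hL.r0

omit hC in
theorem sg_nc (c : K) : sg (0 : k) gs rs ≠ c • (1 : D) := by
  intro h
  have h1 := sg_T (k := k) H hL
  rw [h, map_smul, C.T_one, smul_eq_mul] at h1
  rcases mul_eq_zero.1 h1 with h2 | h2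
  · apply sg_ne (k := k) H hL
    rw [h, h2, zero_smul]
  · exact H.three h2

omit hC in
theorem hh_lim : hh (0 : k) gs = (3 : K) • gs := by
  have _ := H
  have _ := hL
  rw [hh, pD, zero_smul, add_zero]
  have h3 : (3 : D) = algebraMap K D 3 := by rw [map_ofNat]
  rw [h3, ← Algebra.smul_def]

theorem L1_ne : (Lam k C (C.adj (hh (0 : k) gs)) (sg (0 : k) gs rs)).det ≠ 0 := by
  refine det_Lam_ne H hC (sg_star H hC hL) (sg_nc H hL) ?_
  have h1 : C.T (C.adj (hh (0 : k) gs)) = 3 ^ 2 * C.S gs := by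
    rw [hh_lim H hL, ← Cub.S, C.S_smul]
  rw [Tk, h1]
  refine H.rk_ne ?_ (mul_ne_zero (pow_ne_zero 2 H.three) hL.S)
  rw [star_mul', hC.S_symm hL.sg, star_pow]
  congr 2
  have h := H.hfix' 3
  rwa [map_ofNat] at h

theorem L2_ne : (Lam k C 1 (sg (0 : k) gs rs)).det ≠ 0 := by
  refine det_Lam_ne H hC (sg_star H hC hL) (sg_nc H hL) ?_
  have h := H.rk_alg 3
  rw [map_ofNat] at h
  rw [Tk, C.T_one, h]
  exact H.h3

theorem K3_ne : K3 C 0 gs rs ≠ (0 : k) := by
  rw [K3, Nk]
  refine H.rk_ne (hC.N_symm (hC.adj_symm (sg_star H hC hL))) (C.N_ne_zero ?_)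
  intro h
  have h1 := C.mul_adj (sg (0 : k) gs rs)
  rw [h, mul_zero] at h1
  rcases smul_eq_zero.1 h1.symm with h2 | h2
  · exact C.N_ne_zero (sg_ne H hL) h2
  · exact one_ne_zero h2

theorem K2_ne {d : k} (hd : d ≠ 0) : K2 C d 0 gs ys rs ≠ 0 := by
  rw [K2]
  refine mul_ne_zero hd ?_
  have h1 : C.T (pD (0 : k) gs * ys * C.adj (C.adj (sg (0 : k) gs rs))) =
      C.N (sg (0 : k) gs rs) * C.T (ys * rs) := by
    have h3 : (3 : D) = algebraMap K D 3 := by rw [map_ofNat]
    have h4 : sg (0 : k) gs rs = (3 : K)⁻¹ • rs := by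
      rw [sg_lim H hL, ← algebraMap_smul K, map_inv₀, map_ofNat]
    have h5 : C.T (ys * sg (0 : k) gs rs) = (3 : K)⁻¹ * C.T (ys * rs) := by
      rw [h4, mul_smul_comm, map_smul, smul_eq_mul]
    rw [C.adj_adj, pD, zero_smul, add_zero, h3, ← Algebra.smul_def, smul_mul_assoc,
      mul_smul_comm, map_smul, map_smul, smul_eq_mul, smul_eq_mul, h5]
    have := H.three
    field_simp
  rw [Tk, h1]
  refine H.rk_ne ?_ (mul_ne_zero (C.N_ne_zero (sg_ne H hL)) hL.Ty)
  rw [star_mul', hC.N_symm (sg_star H hC hL), hC.T_mul_symm hL.sy hL.sr]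

theorem T_pow_two : C.T (sg (0 : k) gs rs ^ 2) = -2 * C.S (sg (0 : k) gs rs) := by
  have _ := hC
  set w := sg (0 : k) gs rs with hw
  have h1 : C.T (C.adj w) = C.T (w * w) - C.T w * C.T w + C.S w * 3 := by
    rw [C.adj_eq, map_add, map_sub, map_smul, map_smul, C.T_one, smul_eq_mul, smul_eq_mul]
  rw [← Cub.S, sg_T H hL] at h1
  rw [pow_two]
  linear_combination (-1 : K) * h1

theorem T_pow_three : C.T (sg (0 : k) gs rs ^ 3) = 3 * C.N (sg (0 : k) gs rs) := by
  have _ := hC
  set w := sg (0 : k) gs rs with hw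
  have h1 := congrArg C.T (C.cayley w)
  rw [sg_T H hL, zero_smul, sub_zero, map_sub, map_add, map_smul, map_smul, C.T_one,
    sg_T H hL, map_zero, smul_eq_mul, smul_eq_mul] at h1
  have e : w ^ 3 = w * w * w := by rw [pow_succ, pow_two]
  rw [e]
  linear_combination h1

theorem T_pow_four : C.T (sg (0 : k) gs rs ^ 4) = 2 * C.S (sg (0 : k) gs rs) ^ 2 := by
  have h2 := T_pow_two (k := k) H hC hL
  set w := sg (0 : k) gs rs with hw
  have h1 := congrArg (fun z => C.T (z * w)) (C.cayley w)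
  rw [sg_T H hL, zero_smul, sub_zero, sub_mul, add_mul, smul_mul_assoc, smul_mul_assoc, one_mul,
    map_sub, map_add, map_smul, map_smul, sg_T H hL, zero_mul, map_zero, smul_eq_mul,
    smul_eq_mul, ← pow_two, h2] at h1
  have e : w ^ 4 = w ^ 2 * w * w := by rw [pow_succ, pow_succ]
  rw [e]
  linear_combination h1

theorem T_bt : C.T (bt C (0 : k) gs rs ^ 2) = 2 * C.S (sg (0 : k) gs rs) ^ 2 / 3 ∧
    C.T (sg (0 : k) gs rs * bt C (0 : k) gs rs) = 3 * C.N (sg (0 : k) gs rs) := by
  have h2 := T_pow_two (k := k) H hC hL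
  have h3 := T_pow_three (k := k) H hC hL
  have h4 := T_pow_four (k := k) H hC hL
  have hT := sg_T (k := k) H hL
  have hst := sg_star (k := k) H hC hL
  have h33 := H.three
  set w := sg (0 : k) gs rs with hw
  have hb : bt C (0 : k) gs rs = w ^ 2 - (C.T (w ^ 2) / 3) • (1 : D) := by
    rw [bt, ← hw]
    congr 1
    have h5 : algebraMap k D (Tk k C (w ^ 2) / 3) =
        algebraMap k K (Tk k C (w ^ 2) / 3) • (1 : D) := by
      rw [← Algebra.algebraMap_eq_smul_one, ← IsScalarTower.algebraMap_apply]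
    rw [h5, map_div₀, map_ofNat, Tk, H.rk_eq (hC.T_symm (by rw [star_pow, hst]))]
  constructor
  · have e : (w ^ 2 - (C.T (w ^ 2) / 3) • (1 : D)) ^ 2 = w ^ 4 - (2 * (C.T (w ^ 2) / 3)) • w ^ 2 +
        (C.T (w ^ 2) / 3) ^ 2 • (1 : D) := by
      rw [pow_two, sub_mul, mul_sub, mul_sub, mul_smul_comm, smul_mul_assoc, mul_one,
        smul_mul_assoc, one_mul, ← pow_add, mul_smul_comm, mul_one, smul_smul]
      module
    rw [hb, e, map_add, map_sub, map_smul, map_smul, C.T_one, smul_eq_mul, smul_eq_mul, h2, h4]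
    field_simp
    ring
  · have e : w * (w ^ 2 - (C.T (w ^ 2) / 3) • (1 : D)) = w ^ 3 - (C.T (w ^ 2) / 3) • w := by
      rw [mul_sub, mul_smul_comm, mul_one, pow_succ' w 2]
    rw [hb, e, map_sub, map_smul, hT, h3, smul_zero, sub_zero]

theorem bt_star : star (bt C (0 : k) gs rs) = bt C (0 : k) gs rs := by
  rw [bt, star_sub, star_pow, sg_star H hC hL]
  congr 1
  rw [Algebra.algebraMap_eq_smul_one]
  exact star_smul_k H hC _ (star_one D)

theorem DD_ne : DD k C (sg (0 : k) gs rs) (bt C (0 : k) gs rs) ≠ 0 := by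
  obtain ⟨hb1, hb2⟩ := T_bt (k := k) H hC hL
  have h2 := T_pow_two (k := k) H hC hL
  have hst := sg_star (k := k) H hC hL
  have hbst := bt_star (k := k) H hC hL
  have hT := sg_T (k := k) H hL
  have hd := disc_ne C H.three (sg_ne (k := k) H hL) hT
  intro h0
  apply hd
  have h := congrArg (algebraMap k K) h0
  rw [DD] at h
  simp only [map_div₀, map_sub, map_mul, map_pow, map_ofNat, map_zero, Tk] at h
  rw [H.rk_eq (hC.T_symm (by rw [star_pow, hst])), H.rk_eq (hC.T_symm (by rw [star_pow, hbst])),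
    H.rk_eq (hC.T_mul_symm hst hbst), hb1, hb2, h2] at h
  have h33 := H.three
  field_simp at h
  linear_combination (-1 : K) * h

theorem ee_ne {d : k} (hd : d ≠ 0) : ee C d 0 gs rs ≠ 0 := by
  rw [ee]
  refine mul_ne_zero ?_ (mul_ne_zero hd (pow_ne_zero 2 (DD_ne H hC hL)))
  rw [Nk, hh_lim H hL]
  have h3 : star (3 : K) = 3 := by
    have h := H.hfix' 3
    rwa [map_ofNat] at h
  exact H.rk_ne (hC.N_symm (by rw [hC.smul, h3, hL.sg]))
    (C.N_ne_zero (smul_ne_zero H.three (hL.g0 H)))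

theorem e0_ne {d : k} (hd : d ≠ 0) : 3 * Nk k C (e0 C d 0 gs ys rs) ≠ 0 := by
  refine mul_ne_zero H.h3 ?_
  have hst := sg_star (k := k) H hC hL
  rw [Nk, e0]
  refine H.rk_ne (hC.N_symm (star_smul_k H hC _ (sol_symm H hC hst _ _))) (C.N_ne_zero ?_)
  refine smul_ne_zero hd (sol_ne H hC (sg_nc H hL) (L2_ne H hC hL) 1 ?_)
  have h1 : C.T (pD (0 : k) gs * ys * sg (0 : k) gs rs ^ ((1 : Fin 3) : ℕ)) = C.T (ys * rs) := by
    have h3 : (3 : D) = algebraMap K D 3 := by rw [map_ofNat]
    have h4 : sg (0 : k) gs rs = (3 : K)⁻¹ • rs := by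
      rw [sg_lim H hL, ← algebraMap_smul K, map_inv₀, map_ofNat]
    have h5 : C.T (ys * sg (0 : k) gs rs) = (3 : K)⁻¹ * C.T (ys * rs) := by
      rw [h4, mul_smul_comm, map_smul, smul_eq_mul]
    have h6 : ((1 : Fin 3) : ℕ) = 1 := rfl
    rw [h6, pow_one, pD, zero_smul, add_zero, h3, ← Algebra.smul_def, smul_mul_assoc, map_smul,
      smul_eq_mul, h5]
    have := H.three
    field_simp
  rw [Tk, h1]
  exact H.rk_ne (hC.T_mul_symm hL.sy hL.sr) hL.Ty

end lim

end Vale.Agent.P011.H308
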