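import Vale.Agent.P011.H308.M8e

/-!
# The scaled chart and the chart
-/

set_option linter.unusedSectionVars false

open Module Matrix Filter Topology
open scoped TensorProduct

namespace Vale.Agent.P011.H308

open Vale.Agent.P011.H775 Vale.Agent.P011.H948

variable {k K F D : Type} [Field k] [Field K] [Field F] [Algebra k K] [Algebra k F]

variable [StarRing K] [DivisionRing D] [StarRing D] [Algebra k D] [Algebra K D]
  [FiniteDimensional K D] [Algebra.IsCentral K D] [IsScalarTower k K D]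
  [FiniteDimensional k F] [Algebra.IsSeparable k F]

section cfd

variable {C : Cub K D} {φ : F →ₐ[k] D} {p : D} (H : Cfd C φ p)

include H

theorem bs (h3 : (3 : k) ≠ 0) : Bs k K := ⟨H.hfix, H.hfix', H.hK, H.h2, h3⟩

theorem rk_algK (c : k) : rk k (algebraMap k K c) = c := by
  rw [rk, LinearMap.smul_apply, Algebra.trace_algebraMap, H.hK, nsmul_eq_mul, smul_eq_mul]
  have := H.h2
  push_cast
  field_simp

theorem Tk_mul_pr {x : D} (hx : Sy p x) (f : F) :
    Tk k C (x * φ f) = Algebra.trace k F (f * pr C φ x) := by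
  rw [Tk, C.T_comm, H.T_mul_pr hx, rk_algK H]

theorem Tk_φ (f : F) : Tk k C (φ f) = Algebra.trace k F f := by
  rw [Tk, H.T_φ, rk_algK H]

theorem Nk_φ (f : F) : Nk k C (φ f) = Algebra.norm k f := by
  rw [Nk, H.N_φ, rk_algK H]

theorem DD_φ (a b : F) : DD k C (φ a) (φ b) = D0 k a b := by
  rw [DD, D0, ← map_pow, ← map_pow, ← map_mul, Tk_φ H, Tk_φ H, Tk_φ H]

/-- The quotient of two projections. -/
theorem sol_eq {σ : F} {a b : D} (ha : Sy p a) (hb : Sy p b)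
    (hdet : (Lam k C a (φ σ)).det ≠ 0) :
    sol k C a b (φ σ) = φ (pr C φ b / pr C φ a) := by
  have hL : ∀ i j : Fin 3, Lam k C a (φ σ) i j =
      Algebra.trace k F (σ ^ ((i : ℕ) + (j : ℕ)) * pr C φ a) := by
    intro i j
    change Tk k C (a * φ σ ^ ((i : ℕ) + (j : ℕ))) = _
    rw [← map_pow, Tk_mul_pr H ha]
  have hw : (fun i : Fin 3 => Tk k C (b * φ σ ^ (i : ℕ))) =
      fun i : Fin 3 => Algebra.trace k F (σ ^ (i : ℕ) * pr C φ b) := by
    funext i
    rw [← map_pow, Tk_mul_pr H hb]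
  set c : Fin 3 → k := fun j => (Lam k C a (φ σ)).det⁻¹ * ((Lam k C a (φ σ)).adjugate *ᵥ
    fun i : Fin 3 => Tk k C (b * φ σ ^ (i : ℕ))) j with hc
  set x : F := ∑ j : Fin 3, c j • σ ^ (j : ℕ) with hx
  have h1 : sol k C a b (φ σ) = φ x := by
    rw [sol, hx, map_sum]
    exact Finset.sum_congr rfl fun j _ => by rw [map_smul, map_pow]
  have hmul : ∀ (e : Fin 3 → k) (i : Fin 3), (Lam k C a (φ σ) *ᵥ e) i =
      Algebra.trace k F (σ ^ (i : ℕ) * ((∑ j : Fin 3, e j • σ ^ (j : ℕ)) * pr C φ a)) := by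
    intro e i
    rw [Matrix.mulVec, dotProduct, Finset.sum_mul, Finset.mul_sum, map_sum]
    refine Finset.sum_congr rfl fun j _ => ?_
    rw [hL, smul_mul_assoc, mul_smul_comm, map_smul, smul_eq_mul, pow_add, mul_comm (e j),
      mul_assoc]
  have h2 : Lam k C a (φ σ) *ᵥ c = fun i : Fin 3 => Tk k C (b * φ σ ^ (i : ℕ)) := by
    have e : c = (Lam k C a (φ σ)).det⁻¹ • ((Lam k C a (φ σ)).adjugate *ᵥ
      fun i : Fin 3 => Tk k C (b * φ σ ^ (i : ℕ))) := by
      funext j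
      rw [hc, Pi.smul_apply, smul_eq_mul]
    rw [e, Matrix.mulVec_smul, Matrix.mulVec_mulVec, Matrix.mul_adjugate, Matrix.smul_mulVec,
      Matrix.one_mulVec, smul_smul, inv_mul_cancel₀ hdet, one_smul]
  -- the powers of `σ` span
  set Φ : (Fin 3 → k) →ₗ[k] F := Fintype.linearCombination k (fun j : Fin 3 => σ ^ (j : ℕ))
    with hΦ
  have hΦa : ∀ e : Fin 3 → k, Φ e = ∑ j : Fin 3, e j • σ ^ (j : ℕ) := by
    intro e
    rw [hΦ, Fintype.linearCombination_apply]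
  have hinj : Function.Injective Φ := by
    rw [injective_iff_map_eq_zero]
    intro e he
    have h3 : Lam k C a (φ σ) *ᵥ e = 0 := by
      funext i
      rw [hmul, ← hΦa, he, zero_mul, mul_zero, map_zero, Pi.zero_apply]
    by_contra hne
    exact hdet (Matrix.exists_mulVec_eq_zero_iff.1 ⟨e, hne, h3⟩)
  have hsurj : Function.Surjective Φ := by
    refine (LinearMap.injective_iff_surjective_of_finrank_eq_finrank ?_).1 hinj
    rw [Module.finrank_fin_fun, H.hF]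
  have key : ∀ u w : F, (∀ i : Fin 3, Algebra.trace k F (σ ^ (i : ℕ) * u) =
      Algebra.trace k F (σ ^ (i : ℕ) * w)) → u = w := by
    intro u w h
    apply eq_of_trace H
    intro e
    obtain ⟨c', rfl⟩ := hsurj e
    rw [hΦa, Finset.sum_mul, Finset.sum_mul, map_sum, map_sum]
    refine Finset.sum_congr rfl fun i _ => ?_
    rw [smul_mul_assoc, smul_mul_assoc, map_smul, map_smul, h]
  have h4 : x * pr C φ a = pr C φ b := by
    apply key
    intro i
    have h5 := congrFun h2 i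
    rw [hmul, ← hx] at h5
    rw [h5, ← map_pow, Tk_mul_pr H hb]
  have h6 : pr C φ a ≠ 0 := by
    intro h0
    apply hdet
    have h7 : Lam k C a (φ σ) = 0 := by
      ext i j
      rw [hL, h0, mul_zero, map_zero, Matrix.zero_apply]
    rw [h7, Matrix.det_zero]
  rw [h1, ← h4, mul_div_assoc, div_self h6, mul_one]

end cfd

/-- The admissible charts. -/
structure AdX {C : Cub K D} {φ : F →ₐ[k] D} (d : k) (s : K) (g y r : D) (σ : F)
    (M : Dat C φ) : Prop where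
  hσ : φ σ = r * (pp g)⁻¹
  a : M.a = σ
  b : M.b = σ ^ 2 - algebraMap k F (Algebra.trace k F (σ ^ 2) / 3)
  p : M.p = pp g
  g : M.g = g
  y : M.y = y
  δ : M.δ = s
  d : M.d = d

section dat

variable {C : Cub K D} {φ : F →ₐ[k] D} {M : Dat C φ} {d : k} {s : K} {g y r : D} {σ : F}
  (hM : AdX d s g y r σ M) {l : k} (hl : l ≠ 0)

include hM hl

theorem g_ne : g ≠ 0 := by
  have _ := hl
  intro h
  apply M.prh0
  rw [hM.g, h, mul_zero, C.adj_zero, map_zero]

theorem x_p : pD l (l • g) = M.p := by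
  rw [hM.p, pp, pD]
  congr 1
  have hg := g_ne hM hl
  apply mul_right_cancel₀ (smul_ne_zero hl hg)
  rw [smul_mul_assoc, inv_mul_cancel₀ (smul_ne_zero hl hg), mul_smul_comm, inv_mul_cancel₀ hg]

theorem x_sg : sg l (l • g) r = φ σ := by
  rw [sg, x_p hM hl, hM.hσ, hM.p]

theorem x_bt : bt C l (l • g) r = φ M.b := by
  rw [bt, x_sg hM hl, hM.b, map_sub, map_pow, AlgHom.commutes, ← map_pow, Tk_φ M.H]

theorem x_hh : hh l (l • g) = l • M.h := by
  rw [hh, x_p hM hl, mul_smul_comm, Dat.h, hM.g]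

theorem x_nn : nn C l (l • g) = M.n := by
  rw [nn, x_p hM hl, Nk, M.hn, rk_algK M.H]

theorem Tk_s (c : k) (z : D) : Tk k C (c • z) = c * Tk k C z := by
  have _ := hM
  have _ := hl
  exact Tk_smul c z

omit hM hl in
theorem smul_algK (K : Type) {k D : Type} [Field k] [Field K] [Ring D] [Algebra k K]
    [Algebra k D] [Algebra K D] [IsScalarTower k K D] (c : k) (z : D) :
    c • z = algebraMap k K c • z :=
  (algebraMap_smul K c z).symm

omit hM hl in
theorem adj_smul_k (c : k) (z : D) : C.adj (c • z) = c ^ 2 • C.adj z := by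
  rw [smul_algK K, C.adj_smul, ← map_pow, ← smul_algK K]

omit hM hl in
theorem N_smul_k (c : k) (z : D) : Nk k C (c • z) = c ^ 3 * Nk k C z := by
  rw [smul_algK K, Nk, C.N_smul, ← map_pow, Nk, ← Algebra.smul_def, map_smul, smul_eq_mul]

omit hM hl in
theorem cr_smul_r (c : k) (z w : D) : C.cr z (c • w) = c • C.cr z w := by
  rw [smul_algK K, C.cr_smul_right, ← smul_algK K]

omit hM hl in
theorem cr_smul_l (c : k) (z w : D) : C.cr (c • z) w = c • C.cr z w := by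
  rw [smul_algK K, C.cr_smul_left, ← smul_algK K]

omit hM hl in
theorem actD_smul_r (c : k) (w v : D) : actD C w (c • v) = c • actD C w v := by
  rw [actD, actD, mul_smul_comm, smul_mul_assoc, smul_comm, smul_sub, smul_sub]

omit hM hl in
theorem actD_φ (w : F) (v : D) : actD C (φ w) v = act C φ w v := rfl

theorem x_ww (hdet : (Lam k C (C.adj (hh l (l • g))) (sg l (l • g) r)).det ≠ 0) :
    ww C d l (l • g) (l • y) r = φ (l⁻¹ • w₁ M) := by
  have hs1 : Sy M.p (C.adj (hh l (l • g))) := by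
    rw [x_hh hM hl, adj_smul_k, smul_algK K]
    exact M.H.smul_K (M.H.adj_sy M.h_inV.sy) (M.H.hfix' _)
  have hs2 : Sy M.p (l • y * (pD l (l • g))⁻¹) := by
    rw [x_p hM hl, smul_mul_assoc, smul_algK K, ← hM.y]
    exact M.H.smul_K (M.sy_mul_inv M.hy) (M.H.hfix' _)
  have hdet' := hdet
  rw [x_sg hM hl] at hdet'
  rw [ww, x_nn hM hl, x_sg hM hl, sol_eq M.H hs1 hs2 hdet', x_hh hM hl, adj_smul_k,
    x_p hM hl, smul_mul_assoc, map_smul, map_smul, ← hM.y, ← hM.d, ← map_smul]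
  congr 1
  have hp := M.prh0
  have hp' : pr C φ (C.adj M.h) ≠ 0 := hp
  have hlF : algebraMap k F l ≠ 0 := (_root_.map_ne_zero _).2 hl
  rw [w₁]
  simp only [Algebra.smul_def, map_neg, map_inv₀, map_pow]
  field_simp

theorem x_v1 (hdet : (Lam k C (C.adj (hh l (l • g))) (sg l (l • g) r)).det ≠ 0) :
    v1 C d l (l • g) (l • y) r = act C φ (w₁ M) M.h := by
  rw [v1, x_ww hM hl hdet, x_hh hM hl, actD_smul_r, actD_φ, ← actL_apply C φ _ (l⁻¹ • w₁ M),
    map_smul, smul_smul, mul_inv_cancel₀ hl, one_smul, actL_apply]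

theorem x_tt : tt C s l (l • g) r = l • M.h' := by
  rw [tt, x_sg hM hl, x_bt hM hl, x_hh hM hl, twD, Dat.h', tw, hM.δ, hM.a]
  simp only [mul_smul_comm, smul_mul_assoc]
  rw [← smul_sub, smul_comm]

theorem x_ub : ub C s l (l • g) r = l • v0 M (sh k M.b, 0) := by
  rw [ub, x_bt hM hl, x_tt hM hl, M.H.adj_φ, actD_smul_r, actD_φ, v0_fst]

theorem x_ua : ua C s l (l • g) r = l • v0 M (sh k M.a, 0) := by
  rw [ua, x_sg hM hl, x_tt hM hl, M.H.adj_φ, actD_smul_r, actD_φ, v0_fst, hM.a]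

omit hM hl in
theorem rk_mul_alg (c : k) (z : K) : rk k (algebraMap k K c * z) = c * rk k z := by
  rw [← Algebra.smul_def, map_smul, smul_eq_mul]

variable (M) in
omit hM hl in
theorem Q_za : M.Q (sh k M.a, 0) = 0 := by
  apply (algebraMap k K).injective
  rw [Q_fst', v0_fst, Dat.h', T_adj_act M.H M.hδ M.hd M.d0 M.ha M.hb M.h3 M.D00 M.h_inV,
    e2_zero_of M.H M.ha]
  simp

variable (M) in
omit hM hl in
theorem Q_zb : M.Q (sh k M.b, 0) = 0 := by
  apply (algebraMap k K).injective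
  rw [Q_fst', v0_fst, Dat.h', T_adj_act M.H M.hδ M.hd M.d0 M.ha M.hb M.h3 M.D00 M.h_inV,
    e2_zero_of M.H M.hb]
  simp

variable (M) in
omit hM hl in
theorem polar_ba : algebraMap k K (QuadraticMap.polar M.Q (sh k M.b, 0) (sh k M.a, 0)) =
    C.N M.h * algebraMap k K (M.d * D0 k M.a M.b ^ 2) := by
  rw [polar_eq, v0_fst, v0_fst, Dat.h',
    T_cr_act M.H M.hδ M.hd M.d0 M.ha M.hb M.h3 M.D00 M.h_inV]
  have e : e2p k (sh k M.b) (sh k M.a) = e2p k (sh k M.a) (sh k M.b) := by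
    simp only [e2p, mul_comm]
  rw [e, e2p_sh M.H M.h3 M.ha M.hb]
  simp only [mul_zero, map_zero, zero_mul, add_zero]
  congr 2
  ring

theorem x_ee : ee C d l (l • g) r =
    l ^ 3 * QuadraticMap.polar M.Q (sh k M.b, 0) (sh k M.a, 0) := by
  have h1 : QuadraticMap.polar M.Q (sh k M.b, 0) (sh k M.a, 0) =
      Nk k C M.h * (M.d * D0 k M.a M.b ^ 2) := by
    rw [← rk_algK M.H (QuadraticMap.polar M.Q (sh k M.b, 0) (sh k M.a, 0)), polar_ba,
      mul_comm (C.N M.h), rk_mul_alg, Nk, mul_comm]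
  rw [ee, x_hh hM hl, N_smul_k, x_sg hM hl, x_bt hM hl, DD_φ M.H, h1, hM.a, hM.d]
  ring

theorem x_q0 {z0 : F × k} (h0 : z0.2 = 1) (hz : v0 M z0 = act C φ (w₁ M) M.h)
    (hdet : (Lam k C (C.adj (hh l (l • g))) (sg l (l • g) r)).det ≠ 0) :
    q0 C d l (l • g) (l • y) r = l * M.Q z0 := by
  have h1 : M.Q z0 = Tk k C (M.h * C.adj (v0 M z0)) +
      M.n * M.d * Tk k C (M.y * M.p⁻¹ * v0 M z0) + M.n * M.d := by
    rw [← rk_algK M.H (M.Q z0), Q_eq', qua, h0, mul_one, one_pow, mul_one, map_add, map_add,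
      rk_mul_alg, rk_algK M.H, Tk, Tk]
  rw [q0, x_v1 hM hl hdet, ← hz, x_hh hM hl, x_nn hM hl, x_p hM hl, h1, smul_mul_assoc,
    smul_mul_assoc, smul_mul_assoc, Tk_smul, Tk_smul, hM.y, hM.d]
  ring

theorem x_pq {z0 : F × k} (h0 : z0.2 = 1) (hz : v0 M z0 = act C φ (w₁ M) M.h)
    (hdet : (Lam k C (C.adj (hh l (l • g))) (sg l (l • g) r)).det ≠ 0) (t : F) :
    pq C d l (l • g) (l • y) r (l • v0 M (t, 0)) =
      l ^ 2 * QuadraticMap.polar M.Q z0 (t, 0) := by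
  have h1 : QuadraticMap.polar M.Q z0 (t, 0) = Tk k C (M.h * C.cr (v0 M z0) (v0 M (t, 0))) +
      M.n * M.d * Tk k C (M.y * M.p⁻¹ * v0 M (t, 0)) := by
    rw [← rk_algK M.H (QuadraticMap.polar M.Q z0 (t, 0)), polar_eq, h0, mul_one, map_add,
      rk_mul_alg, Tk, Tk]
  rw [pq, x_v1 hM hl hdet, ← hz, x_hh hM hl, x_nn hM hl, x_p hM hl, h1, cr_smul_r,
    smul_mul_assoc, smul_mul_assoc, smul_mul_assoc, mul_smul_comm, mul_smul_comm, Tk_smul,
    Tk_smul, Tk_smul, Tk_smul, hM.y, hM.d]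
  ring

section rho

variable {z0 : F × k} (h0 : z0.2 = 1) (hz : v0 M z0 = act C φ (w₁ M) M.h)
    (hdet : (Lam k C (C.adj (hh l (l • g))) (sg l (l • g) r)).det ≠ 0) (κ : k)

include h0 hz hdet

theorem x_dn : dn C s d l (l • g) (l • y) r κ =
    l ^ 3 * den M.Q z0 (sh k M.b, 0) (sh k M.a, 0) κ := by
  rw [dn, x_ua hM hl, x_pq hM hl h0 hz hdet, x_ee hM hl, den]
  ring

theorem x_s1 : s1 C s d l (l • g) (l • y) r κ =
    ss M.Q z0 (sh k M.b, 0) (sh k M.a, 0) κ := by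
  rw [s1, x_dn hM hl h0 hz hdet, x_q0 hM hl h0 hz hdet, x_ub hM hl, x_pq hM hl h0 hz hdet, ss]
  have hl3 : l ^ 3 ≠ 0 := pow_ne_zero 3 hl
  have e : -(l * (l * (l * M.Q z0) + κ * (l ^ 2 * QuadraticMap.polar M.Q z0 (sh k M.b, 0)))) =
      l ^ 3 * -(M.Q z0 + κ * QuadraticMap.polar M.Q z0 (sh k M.b, 0)) := by ring
  rw [e, mul_div_mul_left _ _ hl3]

theorem x_vv : vv C s d l (l • g) (l • y) r κ =
    l • v0 M (rho M.Q z0 (sh k M.b, 0) (sh k M.a, 0) κ) := by
  rw [vv, x_s1 hM hl h0 hz hdet, x_v1 hM hl hdet, ← hz, x_ub hM hl, x_ua hM hl, rho, v0_add,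
    v0_add, v0_smul, v0_smul, smul_add, smul_add, smul_comm κ l, smul_comm _ l]

end rho

omit hM hl in
theorem rk_k1 (x₀ : k) (f v : D) : rk k (k1 M x₀ f v) = Tk k C (f * C.adj v) +
    M.d * x₀ * Tk k C (M.p * M.y * C.cr f v) +
      M.n * M.d * x₀ ^ 2 * Tk k C (M.g * M.p⁻¹ * f) := by
  rw [k1, map_add, map_add, rk_mul_alg, rk_mul_alg, Tk, Tk, Tk]

omit hM hl in
theorem rk_k0 (x₀ : k) (v : D) : rk k (k0 M x₀ v) = Nk k C v +
    M.d * x₀ * Tk k C (M.p * M.y * C.adj v) +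
      M.n * M.d * x₀ ^ 2 * Tk k C (M.g * M.p⁻¹ * v) := by
  rw [k0, map_add, map_add, rk_mul_alg, rk_mul_alg, Tk, Tk, Nk]

omit hM hl in
theorem rk_k2 (x₀ : k) (f : D) : rk k (k2 M x₀ f) =
    M.d * x₀ * Tk k C (M.p * M.y * C.adj f) := by
  rw [k2, rk_mul_alg, Tk]

theorem x_K1 (f v : D) : K1 C d l (l • g) (l • y) f (l • v) = l ^ 2 * rk k (k1 M 1 f v) := by
  rw [K1, x_p hM hl, x_nn hM hl, rk_k1, adj_smul_k, cr_smul_r, mul_smul_comm, mul_smul_comm,
    mul_smul_comm, smul_mul_assoc, smul_mul_assoc, smul_mul_assoc, Tk_smul, Tk_smul, Tk_smul,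
    Tk_smul, hM.y, hM.d, hM.g]
  ring

theorem x_K0 (v : D) : K0 C d l (l • g) (l • y) (l • v) = l ^ 3 * rk k (k0 M 1 v) := by
  rw [K0, x_p hM hl, x_nn hM hl, rk_k0, N_smul_k, adj_smul_k, mul_smul_comm, mul_smul_comm,
    mul_smul_comm, smul_mul_assoc, smul_mul_assoc, smul_mul_assoc, Tk_smul, Tk_smul, Tk_smul,
    Tk_smul, hM.y, hM.d, hM.g]
  ring

theorem x_K2 : K2 C d l (l • g) (l • y) r = l * rk k (k2 M 1 (φ (sh k σ))) := by
  rw [K2, x_p hM hl, x_sg hM hl, rk_k2, M.H.adj_φ, mul_smul_comm, smul_mul_assoc, Tk_smul, hM.y,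
    hM.d]
  ring

theorem x_K3 : K3 C l (l • g) r = Algebra.norm k (sh k σ) := by
  rw [K3, x_sg hM hl, M.H.adj_φ, Nk_φ M.H]

theorem x_e0 (hdet : (Lam k C 1 (sg l (l • g) r)).det ≠ 0) :
    e0 C d l (l • g) (l • y) r = l • φ (d • yF M) := by
  have h1 : Sy M.p (1 : D) := by
    change M.p * star (1 : D) = 1 * M.p
    rw [star_one, mul_one, one_mul]
  have h2 : Sy M.p (M.p * l • y) := by
    rw [mul_smul_comm, smul_algK K, ← hM.y]
    exact M.H.smul_K (py_sy M) (M.H.hfix' _)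
  have hdet' := hdet
  rw [x_sg hM hl] at hdet'
  rw [e0, x_p hM hl, x_sg hM hl, sol_eq M.H h1 h2 hdet']
  have e1 : pr C φ (1 : D) = 1 := by
    rw [← map_one φ, M.H.pr_φ]
  rw [e1, div_one, mul_smul_comm, map_smul, map_smul, map_smul, yF, hM.y, smul_comm]

/-- The trace of `A` against `e₀`. -/
theorem trace_e0_A (z : F × k) (h1 : z.2 = 1) :
    Algebra.trace k F ((M.d • yF M) * M.A z) =
      rk k (k1 M 1 (φ (M.d • yF M)) (v0 M z)) - 3 * Algebra.norm k (M.d • yF M) := by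
  have _ := hM
  have _ := hl
  have h := skolem_line M z (M.d • yF M)
  rw [h1, mul_one, ← Algebra.smul_def] at h
  generalize M.d • yF M = E at h ⊢
  have a1 := h 1
  have a2 := h (-1)
  have n2 : Algebra.norm k ((2 : k) • E) = 8 * Algebra.norm k E := by
    rw [Algebra.smul_def, map_mul, Algebra.norm_algebraMap, M.H.hF]
    norm_num
  have e1 : (1 : k) • E + E = (2 : k) • E := by
    rw [one_smul, two_smul]
  have e2 : (-1 : k) • E + E = 0 := by
    rw [neg_smul, one_smul, neg_add_cancel]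
  rw [e1, n2, smul_mul_assoc, (Algebra.trace k F).map_smul, smul_eq_mul] at a1
  have n0 : Algebra.norm k (0 : F) = 0 := Algebra.norm_zero
  rw [e2, n0, zero_mul, map_zero] at a2
  apply mul_left_cancel₀ M.H.h2
  linear_combination a1 - a2

theorem x_nA {z : F × k} (h1 : z.2 = 1) (hdet : (Lam k C 1 (sg l (l • g) r)).det ≠ 0) :
    nA C d l (l • g) (l • y) r (l • v0 M z) =
      l ^ 3 * Algebra.trace k F ((M.d • yF M) * M.A z) := by
  have e : ∀ f v : D, K1 C d l (l • g) (l • y) (l • f) (l • v) =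
      l ^ 3 * rk k (k1 M 1 f v) := by
    intro f v
    rw [x_K1 hM hl, rk_k1, rk_k1, cr_smul_l, smul_mul_assoc, mul_smul_comm, mul_smul_comm,
      Tk_smul, Tk_smul, Tk_smul]
    ring
  rw [nA, x_e0 hM hl hdet, e, N_smul_k, Nk_φ M.H, trace_e0_A hM hl z h1, hM.d]
  ring

/-- **The algebraic half.** -/
theorem alg_end [Infinite k] {κ : k} (hκ : κ ≠ 0) : ∃ z : F × k,
    (∀ a : AbsoluteValue k ℝ, GX C s d a κ l (l • g) (l • y) r →
      M.Q z = 0 ∧ QuadraticMap.polar M.Q z (sh k M.a, 0) ≠ 0 ∧ M.A z ≠ 0 ∧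
      ∃ c3 c2 c1 c0 : k, c3 ≠ 0 ∧ a (c1 * c3) < a c2 ^ 2 ∧ a (c0 * c3 ^ 2) < a c2 ^ 3 ∧
        ∀ (L : Type) [Field L] [Algebra k L] (μ : L),
          algebraMap k L c3 * μ ^ 3 + algebraMap k L c2 * μ ^ 2 + algebraMap k L c1 * μ +
            algebraMap k L c0 = 0 →
          ∃ f : TensorProduct k L F, Algebra.norm L f +
            Algebra.trace L (TensorProduct k L F) ((1 ⊗ₜ[k] M.A z) * f) +
            algebraMap k L (M.G z) = 0) := by
  have _ := hκ
  obtain ⟨t0, ht0⟩ := exists_t₀ M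
  refine ⟨rho M.Q (t0, 1) (sh k M.b, 0) (sh k M.a, 0) κ, ?_⟩
  intro a hG
  have h0 : ((t0, 1) : F × k).2 = 1 := rfl
  set z : F × k := rho M.Q (t0, 1) (sh k M.b, 0) (sh k M.a, 0) κ with hzz
  have hz2 : z.2 = 1 := by
    rw [hzz, rho]
    simp
  have hdn := hG.n0
  rw [x_dn hM hl h0 ht0 hG.L1] at hdn
  have hden := right_ne_zero_of_mul hdn
  have hla : 0 < a l := a.pos hl
  refine ⟨Q_rho (Q_zb M) (Q_za M) hden, ?_, ?_, Algebra.norm k (sh k σ),
    rk k (k2 M 1 (φ (sh k σ))), rk k (k1 M 1 (φ (sh k σ)) (v0 M z)), rk k (k0 M 1 (v0 M z)),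
    ?_, ?_, ?_, ?_⟩
  · rw [hzz, polar_rho (Q_za M)]
    exact hden
  · intro hA
    have h1 := hG.A
    rw [x_vv hM hl h0 ht0 hG.L1, ← hzz, x_nA hM hl hz2 hG.L2, hA, mul_zero, map_zero,
      mul_zero] at h1
    exact h1 rfl
  · have h1 := hG.k3
    rwa [x_K3 hM hl] at h1
  · have h1 := hG.i1
    rw [x_vv hM hl h0 ht0 hG.L1, ← hzz, x_sg hM hl, M.H.adj_φ, x_K1 hM hl, x_K3 hM hl,
      x_K2 hM hl, mul_assoc, map_mul, map_mul a l, map_pow, mul_pow] at h1
    exact lt_of_mul_lt_mul_left h1 (by positivity)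
  · have h1 := hG.i0
    rw [x_vv hM hl h0 ht0 hG.L1, ← hzz, x_K0 hM hl, x_K3 hM hl,
      x_K2 hM hl, mul_assoc, map_mul, map_mul a l, map_pow, mul_pow] at h1
    exact lt_of_mul_lt_mul_left h1 (by positivity)
  · intro L _ _ μ hμ
    refine exists_point_of_root M z (sh k σ) μ ?_
    rw [hz2, ← hμ]
    ring

end dat

end Vale.Agent.P011.H308
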