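import Vale.Agent.P011.H308.M8c
import Vale.Agent.P011.H948.ChartC
import Vale.Agent.P011.H182.Nma
import Mathlib.Topology.Algebra.Module.ModuleTopology
import Mathlib.Topology.Instances.Matrix
import Mathlib.Analysis.Normed.Field.Basic
import Mathlib.Topology.Algebra.Field

/-!
# Continuity of the operations of a finite dimensional division algebra
-/

set_option linter.unusedSectionVars false

open Module Matrix Filter Topology

namespace Vale.Agent.P011.H308

open Vale.Agent.P011.H775 Vale.Agent.P011.H948

section inv

variable {k D : Type} [Field k] [DivisionRing D] [Algebra k D]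

theorem inv_formula {ι : Type} [Fintype ι] [DecidableEq ι] (b : Basis ι k D) (x : D) :
    x⁻¹ = ∑ i, ((Algebra.leftMulMatrix b x).det⁻¹ •
      ((Algebra.leftMulMatrix b x).adjugate *ᵥ b.equivFun 1)) i • b i := by
  by_cases hx : x = 0
  · have hne : Nonempty ι := b.index_nonempty
    have h0 : (Algebra.leftMulMatrix b x).det = 0 := by
      rw [hx, map_zero, Matrix.det_zero]
    rw [h0, hx, _root_.inv_zero, _root_.inv_zero]
    simp
  · have h1 : Algebra.leftMulMatrix b x * Algebra.leftMulMatrix b x⁻¹ = 1 := by
      rw [← map_mul, mul_inv_cancel₀ hx, map_one]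
    have h2 : (Algebra.leftMulMatrix b x).det ≠ 0 := by
      intro h0
      have h3 := congrArg Matrix.det h1
      rw [Matrix.det_mul, h0, zero_mul, Matrix.det_one] at h3
      exact zero_ne_one h3
    have h3 : (Algebra.leftMulMatrix b x).adjugate *ᵥ b.equivFun 1 =
        (Algebra.leftMulMatrix b x).det • b.equivFun x⁻¹ := by
      have h4 : (b.equivFun 1 : ι → k) = Algebra.leftMulMatrix b x *ᵥ b.equivFun x⁻¹ := by
        have h5 := Algebra.leftMulMatrix_mulVec_repr b x x⁻¹
        rw [mul_inv_cancel₀ hx] at h5
        exact h5.symm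
      rw [h4, Matrix.mulVec_mulVec, Matrix.adjugate_mul, Matrix.smul_mulVec, Matrix.one_mulVec]
    rw [h3, smul_smul, inv_mul_cancel₀ h2, one_smul, b.sum_equivFun]

theorem continuousInv (k : Type) {D : Type} [Field k] [DivisionRing D] [Algebra k D]
    [TopologicalSpace k] [IsTopologicalDivisionRing k] [Module.Finite k D]
    [TopologicalSpace D] [IsModuleTopology k D] : ContinuousInv₀ D := by
  classical
  have hr : IsTopologicalRing D := IsModuleTopology.isTopologicalRing k D
  refine ⟨fun x hx => ?_⟩
  set b := Module.finBasis k D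
  have hL : Continuous fun y : D => Algebra.leftMulMatrix b y := by
    refine continuous_matrix fun i j => ?_
    let ℓ : D →ₗ[k] k :=
      { toFun := fun y => Algebra.leftMulMatrix b y i j
        map_add' := fun y z => by rw [map_add, Matrix.add_apply]
        map_smul' := fun c y => by rw [map_smul, Matrix.smul_apply, RingHom.id_apply] }
    exact IsModuleTopology.continuous_of_linearMap ℓ
  have h1 : Algebra.leftMulMatrix b x * Algebra.leftMulMatrix b x⁻¹ = 1 := by
    rw [← map_mul, mul_inv_cancel₀ hx, map_one]
  have h2 : (Algebra.leftMulMatrix b x).det ≠ 0 := by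
    intro h0
    have h3 := congrArg Matrix.det h1
    rw [Matrix.det_mul, h0, zero_mul, Matrix.det_one] at h3
    exact zero_ne_one h3
  have e : (Inv.inv : D → D) = fun y => ∑ i, ((Algebra.leftMulMatrix b y).det⁻¹ •
      ((Algebra.leftMulMatrix b y).adjugate *ᵥ b.equivFun 1)) i • b i :=
    funext fun y => inv_formula b y
  rw [e]
  have hdet : ContinuousAt (fun y : D => (Algebra.leftMulMatrix b y).det⁻¹) x :=
    (hL.matrix_det.continuousAt).inv₀ h2
  have hadj : Continuous fun y : D =>
      (Algebra.leftMulMatrix b y).adjugate *ᵥ (b.equivFun 1 : _ → k) :=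
    hL.matrix_adjugate.matrix_mulVec continuous_const
  refine tendsto_finsetSum _ fun i _ => ?_
  refine Tendsto.smul ?_ tendsto_const_nhds
  have h5 : ContinuousAt (fun y : D => (Algebra.leftMulMatrix b y).det⁻¹ *
      ((Algebra.leftMulMatrix b y).adjugate *ᵥ (b.equivFun 1 : _ → k)) i) x :=
    hdet.mul ((continuous_apply i).comp hadj).continuousAt
  exact h5

end inv

section cub

variable {k K D : Type} [Field k] [Field K] [DivisionRing D] [Algebra k K] [Algebra k D]
  [Algebra K D] [IsScalarTower k K D]

/-- The operations are continuous. -/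
class TC [TopologicalSpace K] [TopologicalSpace D] (C : Cub K D) : Prop where
  T : Continuous fun x : D => C.T x
  adj : Continuous fun x : D => C.adj x
  cr : Continuous fun x : D × D => C.cr x.1 x.2
  N : Continuous fun x : D => C.N x

theorem continuousSMulK (k : Type) {K D : Type} [Field k] [Field K] [DivisionRing D]
    [Algebra k K] [Algebra k D] [Algebra K D] [IsScalarTower k K D] [TopologicalSpace k]
    [IsTopologicalDivisionRing k] [TopologicalSpace K] [IsModuleTopology k K]
    [TopologicalSpace D] [IsModuleTopology k D] [Module.Finite k K] [Module.Finite k D] :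
    ContinuousSMul K D := by
  have hr : IsTopologicalRing D := IsModuleTopology.isTopologicalRing k D
  have h1 : Continuous fun c : K => algebraMap K D c :=
    IsModuleTopology.continuous_of_linearMap ((Algebra.linearMap K D).restrictScalars k)
  refine ⟨?_⟩
  have h2 : (fun z : K × D => z.1 • z.2) = fun z : K × D => algebraMap K D z.1 * z.2 := by
    funext z
    rw [Algebra.smul_def]
  rw [h2]
  exact (h1.comp continuous_fst).mul continuous_snd

theorem tC (k : Type) {K D : Type} [Field k] [Field K] [DivisionRing D]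
    [Algebra k K] [Algebra k D] [Algebra K D] [IsScalarTower k K D] [TopologicalSpace k]
    [IsTopologicalDivisionRing k] [TopologicalSpace K] [IsModuleTopology k K]
    [TopologicalSpace D] [IsModuleTopology k D] [Module.Finite k K] [Module.Finite k D]
    (C : Cub K D) (h2 : (2 : K) ≠ 0) (h3 : (3 : K) ≠ 0) : TC C := by
  have hr : IsTopologicalRing D := IsModuleTopology.isTopologicalRing k D
  have hr' : IsTopologicalRing K := IsModuleTopology.isTopologicalRing k K
  have hs : ContinuousSMul K D := continuousSMulK k
  have hT : Continuous fun x : D => C.T x :=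
    IsModuleTopology.continuous_of_linearMap (C.T.restrictScalars k)
  have hc : Continuous fun x : D × D => C.cr x.1 x.2 := by
    simp only [Cub.cr]
    have h1 : Continuous fun x : D × D => C.T x.1 := hT.comp continuous_fst
    have h2 : Continuous fun x : D × D => C.T x.2 := hT.comp continuous_snd
    have h3 : Continuous fun x : D × D => C.T (x.1 * x.2) :=
      hT.comp (continuous_fst.mul continuous_snd)
    fun_prop
  have ha : Continuous fun x : D => C.adj x := by
    have e : (fun x : D => C.adj x) = fun x : D => (2 : K)⁻¹ • C.cr x x := by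
      funext x
      rw [C.cr_self, smul_smul, inv_mul_cancel₀ h2, one_smul]
    rw [e]
    have h4 : Continuous fun x : D => C.cr x x := hc.comp (continuous_id.prodMk continuous_id)
    exact h4.const_smul _
  refine ⟨hT, ha, hc, ?_⟩
  have e : (fun x : D => C.N x) = fun x : D => (3 : K)⁻¹ * C.T (x * C.adj x) := by
    funext x
    rw [C.mul_adj, map_smul, C.T_one, smul_eq_mul, mul_comm (C.N x), ← mul_assoc,
      inv_mul_cancel₀ h3, one_mul]
  rw [e]
  have h5 : Continuous fun x : D => C.T (x * C.adj x) := hT.comp (continuous_id.mul ha)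
  exact continuous_const.mul h5

section fp

variable {X : Type} [TopologicalSpace X] [TopologicalSpace K] [TopologicalSpace D]
  {C : Cub K D} [TC C] {f g : X → D} {x : X}

@[fun_prop]
theorem cT (hf : ContinuousAt f x) : ContinuousAt (fun x => C.T (f x)) x :=
  ContinuousAt.comp (g := fun x : D => C.T x) (TC.T (C := C)).continuousAt hf

@[fun_prop]
theorem cN (hf : ContinuousAt f x) : ContinuousAt (fun x => C.N (f x)) x :=
  ContinuousAt.comp (g := fun x : D => C.N x) (TC.N (C := C)).continuousAt hf

@[fun_prop]
theorem cadj (hf : ContinuousAt f x) : ContinuousAt (fun x => C.adj (f x)) x :=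
  ContinuousAt.comp (g := fun x : D => C.adj x) (TC.adj (C := C)).continuousAt hf

@[fun_prop]
theorem ccr (hf : ContinuousAt f x) (hg : ContinuousAt g x) :
    ContinuousAt (fun x => C.cr (f x) (g x)) x :=
  ContinuousAt.comp (f := fun x => (f x, g x)) (g := fun z : D × D => C.cr z.1 z.2)
    (TC.cr (C := C)).continuousAt (hf.prodMk hg)

end fp

section rk

variable {X : Type} [TopologicalSpace X] [TopologicalSpace k] [IsTopologicalDivisionRing k]
  [TopologicalSpace K] [IsModuleTopology k K] {f : X → K} {x : X}

@[fun_prop]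
theorem crk (hf : ContinuousAt f x) : ContinuousAt (fun x => rk k (f x)) x :=
  ContinuousAt.comp (g := fun x : K => rk k x)
    (IsModuleTopology.continuous_of_linearMap (rk k)).continuousAt hf

end rk

end cub

section abs

open Vale.Agent.P011.H182 (na na_nonneg coord_le_na)

variable {k : Type} [Field k] (a : AbsoluteValue k ℝ)

/-- The topology of an absolute value. -/
theorem exists_top : ∃ τ : TopologicalSpace k, @IsTopologicalDivisionRing k _ τ ∧
    @T2Space k τ ∧ (@Continuous k ℝ τ _ fun c => a c) ∧
    ∀ (X : Type) (l : Filter X) (f : X → k) (c : k),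
      Tendsto (fun x => a (f x - c)) l (𝓝 0) → Tendsto f l (@nhds k τ c) := by
  let _ : NormedField k := a.toNormedField
  refine ⟨inferInstance, ?_, inferInstance, ?_, ?_⟩
  · exact (inferInstance : IsTopologicalDivisionRing k)
  · exact continuous_norm
  · intro X l f c h
    exact tendsto_iff_norm_sub_tendsto_zero.2 h

variable {a} {D : Type} [DivisionRing D] [Algebra k D] [TopologicalSpace k]
  [IsTopologicalDivisionRing k] [TopologicalSpace D] [IsModuleTopology k D]
  {N : ℕ} (B : Basis (Fin N) k D)

theorem tendsto_na (hk : ∀ (X : Type) (l : Filter X) (f : X → k) (c : k),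
      Tendsto (fun x => a (f x - c)) l (𝓝 0) → Tendsto f l (𝓝 c))
    {X : Type} {l : Filter X} {f : X → D} {x0 : D}
    (h : Tendsto (fun x => na B a (f x - x0)) l (𝓝 0)) : Tendsto f l (𝓝 x0) := by
  have hc : ∀ i, Tendsto (fun x => B.repr (f x) i) l (𝓝 (B.repr x0 i)) := by
    intro i
    apply hk
    refine squeeze_zero (fun x => a.nonneg _) (fun x => ?_) h
    have h1 := coord_le_na B a (f x - x0) i
    rwa [map_sub, Finsupp.sub_apply] at h1
  have e : f = fun x => ∑ i, B.repr (f x) i • B i := funext fun x => (B.sum_repr _).symm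
  rw [e, ← B.sum_repr x0]
  have : ContinuousAdd D := IsModuleTopology.toContinuousAdd k D
  exact tendsto_finsetSum _ fun i _ => (hc i).smul tendsto_const_nhds

theorem exists_eta (hk : ∀ (X : Type) (l : Filter X) (f : X → k) (c : k),
      Tendsto (fun x => a (f x - c)) l (𝓝 0) → Tendsto f l (𝓝 c)) {gs ys rs : D}
    {P : k × D × D × D → Prop} (h : ∀ᶠ X in 𝓝 ((0 : k), gs, ys, rs), P X) :
    ∃ η : ℝ, 0 < η ∧ ∀ (ε : k) (g y r : D), a ε < η → na B a (g - gs) < η →
      na B a (y - ys) < η → na B a (r - rs) < η → P (ε, g, y, r) := by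
  set m : k × D × D × D → ℝ := fun X => a X.1 + na B a (X.2.1 - gs) + na B a (X.2.2.1 - ys) +
    na B a (X.2.2.2 - rs) with hm
  set l : Filter (k × D × D × D) := comap m (𝓝 0) with hl
  have h0 : Tendsto m l (𝓝 0) := tendsto_comap
  have p1 : ∀ X : k × D × D × D, 0 ≤ a X.1 := fun X => a.nonneg _
  have p2 : ∀ X : k × D × D × D, 0 ≤ na B a (X.2.1 - gs) := fun X => na_nonneg _ _ _
  have p3 : ∀ X : k × D × D × D, 0 ≤ na B a (X.2.2.1 - ys) := fun X => na_nonneg _ _ _
  have p4 : ∀ X : k × D × D × D, 0 ≤ na B a (X.2.2.2 - rs) := fun X => na_nonneg _ _ _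
  have t1 : Tendsto (fun X : k × D × D × D => X.1) l (𝓝 0) := by
    apply hk
    refine squeeze_zero (fun x => a.nonneg _) (fun X => ?_) h0
    rw [sub_zero]
    have := p1 X
    have := p2 X
    have := p3 X
    have := p4 X
    simp only [hm]
    linarith
  have t2 : Tendsto (fun X : k × D × D × D => X.2.1) l (𝓝 gs) := by
    apply tendsto_na B hk
    refine squeeze_zero (fun x => na_nonneg _ _ _) (fun X => ?_) h0
    have := p1 X
    have := p2 X
    have := p3 X
    have := p4 X
    simp only [hm]
    linarith
  have t3 : Tendsto (fun X : k × D × D × D => X.2.2.1) l (𝓝 ys) := by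
    apply tendsto_na B hk
    refine squeeze_zero (fun x => na_nonneg _ _ _) (fun X => ?_) h0
    have := p1 X
    have := p2 X
    have := p3 X
    have := p4 X
    simp only [hm]
    linarith
  have t4 : Tendsto (fun X : k × D × D × D => X.2.2.2) l (𝓝 rs) := by
    apply tendsto_na B hk
    refine squeeze_zero (fun x => na_nonneg _ _ _) (fun X => ?_) h0
    have := p1 X
    have := p2 X
    have := p3 X
    have := p4 X
    simp only [hm]
    linarith
  have t : Tendsto (fun X : k × D × D × D => X) l (𝓝 ((0 : k), gs, ys, rs)) :=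
    t1.prodMk_nhds (t2.prodMk_nhds (t3.prodMk_nhds t4))
  have h1 : ∀ᶠ X in l, P X := t.eventually h
  rw [hl, eventually_comap] at h1
  obtain ⟨δ, hδ, h2⟩ := Metric.eventually_nhds_iff.1 h1
  refine ⟨δ / 4, by positivity, ?_⟩
  intro ε g y r e1 e2 e3 e4
  refine h2 (y := m (ε, g, y, r)) ?_ _ rfl
  rw [Real.dist_eq, sub_zero, abs_of_nonneg]
  · simp only [hm]
    linarith
  · have := p1 (ε, g, y, r)
    have := p2 (ε, g, y, r)
    have := p3 (ε, g, y, r)
    have := p4 (ε, g, y, r)
    simp only [hm]
    linarith

theorem exists_delta (hk : ∀ (X : Type) (l : Filter X) (f : X → k) (c : k),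
      Tendsto (fun x => a (f x - c)) l (𝓝 0) → Tendsto f l (𝓝 c))
    {P : k → Prop} (h : ∀ᶠ c in 𝓝 (0 : k), P c) :
    ∃ η : ℝ, 0 < η ∧ ∀ c : k, a c < η → P c := by
  set l : Filter k := comap (fun c => a c) (𝓝 0) with hl
  have h0 : Tendsto (fun c => a c) l (𝓝 0) := tendsto_comap
  have t1 : Tendsto (fun c : k => c) l (𝓝 0) := by
    apply hk
    simpa using h0
  have h1 : ∀ᶠ X in l, P X := t1.eventually h
  rw [hl, eventually_comap] at h1
  obtain ⟨δ, hδ, h2⟩ := Metric.eventually_nhds_iff.1 h1
  refine ⟨δ, hδ, fun c hc => h2 (y := a c) ?_ _ rfl⟩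
  rwa [Real.dist_eq, sub_zero, abs_of_nonneg (a.nonneg _)]

end abs

end Vale.Agent.P011.H308
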