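import Vale.Agent.P011.H738.FDefs
import Vale.Agent.P011.H519.LocComp

/-!
# The place of a prime of a Dedekind domain with finite residue field

`A` a Dedekind domain with field of fractions `K₀`, `v` a prime with finite residue field: the
normalised absolute value of `K₀` at `v` as a `Place K₀` (helper738), and the comparison of the
completion `v.adicCompletion K₀` with the completion of the place.
-/

open IsDedekindDomain HeightOneSpectrum WithZero Vale.Agent.P011.H738
open scoped NNReal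

namespace Vale.Agent.P011.H308

noncomputable section

variable {A : Type} [CommRing A] [IsDedekindDomain A] {K₀ : Type} [Field K₀] [Algebra A K₀]
  [IsFractionRing A K₀]

/-- The order of the residue field. -/
def qv (v : HeightOneSpectrum A) : ℝ≥0 := Nat.card (A ⧸ v.asIdeal)

omit [IsDedekindDomain A] in
theorem one_lt_card (v : HeightOneSpectrum A) [Finite (A ⧸ v.asIdeal)] :
    1 < Nat.card (A ⧸ v.asIdeal) := by
  have h1 : Nontrivial (A ⧸ v.asIdeal) := Ideal.Quotient.nontrivial_iff.mpr v.isPrime.ne_top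
  exact Finite.one_lt_card

omit [IsDedekindDomain A] in
theorem one_lt_qv (v : HeightOneSpectrum A) [Finite (A ⧸ v.asIdeal)] : 1 < qv v := by
  rw [qv]
  exact_mod_cast one_lt_card v

omit [IsDedekindDomain A] in
theorem one_lt_qv' (v : HeightOneSpectrum A) [Finite (A ⧸ v.asIdeal)] :
    (1 : ℝ) < Nat.card (A ⧸ v.asIdeal) := by
  exact_mod_cast one_lt_card v

variable (K₀) in
/-- The normalised absolute value. -/
def hosAbv (v : HeightOneSpectrum A) [Finite (A ⧸ v.asIdeal)] : AbsoluteValue K₀ ℝ :=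
  v.adicAbv (one_lt_qv v)

variable {v : HeightOneSpectrum A} [Finite (A ⧸ v.asIdeal)]

theorem hosAbv_eq (x : K₀) : hosAbv K₀ v x =
    (WithZeroMulInt.toNNReal (ne_zero_of_lt (one_lt_qv v)) (v.valuation K₀ x) : ℝ≥0) := rfl

theorem hosAbv_nonarch (x y : K₀) :
    hosAbv K₀ v (x + y) ≤ max (hosAbv K₀ v x) (hosAbv K₀ v y) :=
  v.isNonarchimedean_adicAbv (one_lt_qv v) x y

theorem hosAbv_le_one {x : K₀} : hosAbv K₀ v x ≤ 1 ↔ v.valuation K₀ x ≤ 1 := by
  rw [hosAbv_eq, NNReal.coe_le_one, WithZeroMulInt.toNNReal_le_one_iff (one_lt_qv v)]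

theorem hosAbv_lt_one {x : K₀} : hosAbv K₀ v x < 1 ↔ v.valuation K₀ x < 1 := by
  rw [hosAbv_eq, NNReal.coe_lt_one, WithZeroMulInt.toNNReal_lt_one_iff (one_lt_qv v)]

theorem hosAbv_exp {x : K₀} {m : ℤ} (h : v.valuation K₀ x = exp m) :
    hosAbv K₀ v x = (Nat.card (A ⧸ v.asIdeal) : ℝ) ^ m := by
  rw [hosAbv_eq, h, WithZeroMulInt.toNNReal_neg_apply _ exp_ne_zero]
  have h1 : WithZero.unzero (exp_ne_zero : (exp m : ℤᵐ⁰) ≠ 0) = Multiplicative.ofAdd m := by
    apply WithZero.coe_injective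
    rw [WithZero.coe_unzero]
    rfl
  rw [h1]
  simp [qv]

/-- The residue ring of the absolute value. -/
theorem hosAbv_residue :
    Finite (integers (hosAbv K₀ v) hosAbv_nonarch ⧸ maxIdeal (hosAbv K₀ v) hosAbv_nonarch) ∧
    Nat.card (integers (hosAbv K₀ v) hosAbv_nonarch ⧸ maxIdeal (hosAbv K₀ v) hosAbv_nonarch) =
      Nat.card (A ⧸ v.asIdeal) := by
  let I := integers (hosAbv K₀ v) hosAbv_nonarch
  let M : Ideal I := maxIdeal (hosAbv K₀ v) hosAbv_nonarch
  let g : A →+* I := (algebraMap A K₀).codRestrict I (fun a => v.adicAbv_coe_le_one (one_lt_qv v) a)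
  have hg : ∀ a, ((g a : I) : K₀) = algebraMap A K₀ a := fun a => rfl
  let f : A →+* I ⧸ M := (Ideal.Quotient.mk M).comp g
  have hker : RingHom.ker f = v.asIdeal := by
    ext a
    rw [RingHom.mem_ker]
    change Ideal.Quotient.mk M (g a) = 0 ↔ _
    rw [Ideal.Quotient.eq_zero_iff_mem]
    exact v.adicAbv_coe_lt_one_iff (one_lt_qv v) a
  have hsurj : Function.Surjective f := by
    intro y
    obtain ⟨⟨x, hx⟩, rfl⟩ := Ideal.Quotient.mk_surjective y
    have hx' : v.valuation K₀ x ≤ 1 := hosAbv_le_one.mp hx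
    obtain ⟨a, ha⟩ := exists_valuation_sub_lt_of_integer v hx'
      (Units.mk0 (1 : ℤᵐ⁰) one_ne_zero)
    refine ⟨a, ?_⟩
    change Ideal.Quotient.mk M (g a) = Ideal.Quotient.mk M _
    rw [Ideal.Quotient.eq]
    exact hosAbv_lt_one.mpr ha
  have e : (A ⧸ v.asIdeal) ≃+* (I ⧸ M) :=
    (Ideal.quotEquivOfEq hker.symm).trans (RingHom.quotientKerEquivOfSurjective hsurj)
  exact ⟨Finite.of_equiv _ e.toEquiv, (Nat.card_congr e.toEquiv).symm⟩

variable (K₀ v) in
/-- **The place of `K₀` at the prime `v`.** -/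
def plHos : Place K₀ where
  abv := hosAbv K₀ v
  nonarch := hosAbv_nonarch
  normalized := by
    rw [hosAbv_residue.2]
    refine ⟨hosAbv_residue.1, ?_, ?_⟩
    · obtain ⟨z, hz⟩ := v.valuation_surjective K₀ (exp 1)
      exact ⟨z, by rw [hosAbv_exp hz, zpow_one]⟩
    · intro x hx
      have h0 : v.valuation K₀ x ≠ 0 := (Valuation.ne_zero_iff _).mpr hx
      exact ⟨log (v.valuation K₀ x), hosAbv_exp (exp_log h0).symm⟩

variable (K₀ v) in
/-- The inclusion of `K₀` with the `v`-adic topology in the completion. -/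
def toPl₀ : WithVal (v.valuation K₀) →+* (plHos K₀ v).comp :=
  (algebraMap K₀ (plHos K₀ v).comp).comp (WithVal.equiv (v.valuation K₀)).toRingHom

theorem algebraMap_comp {k : Type} [Field k] (w : Place k) (x : k) :
    algebraMap k w.comp x = ((WithAbs.toAbs w.abv x : WithAbs w.abv) : w.comp) := rfl

theorem norm_algebraMap {k : Type} [Field k] (w : Place k) (x : k) :
    ‖algebraMap k w.comp x‖ = w.abv x := by
  rw [algebraMap_comp, UniformSpace.Completion.norm_coe]
  rfl

omit [Finite (A ⧸ v.asIdeal)] in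
theorem mem_nhds_withVal (n : ℤ) :
    {y : WithVal (v.valuation K₀) | Valued.v y ≤ exp n} ∈ nhds (0 : WithVal (v.valuation K₀)) := by
  obtain ⟨z, hz⟩ := v.valuation_surjective K₀ (exp n)
  have hz1 : Valued.v (WithVal.toVal (v.valuation K₀) z) = exp n := hz
  have hz0 : Valued.v (WithVal.toVal (v.valuation K₀) z) ≠ (0 : ℤᵐ⁰) := by
    rw [hz1]; exact exp_ne_zero
  have hz' : Valued.v.restrict (WithVal.toVal (v.valuation K₀) z) ≠ 0 := by simpa using hz0
  refine Valued.mem_nhds_zero.mpr ⟨Units.mk0 _ hz', fun y hy => ?_⟩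
  have h2 := (Valuation.restrict_lt_iff (v := Valued.v)).mp hy
  rw [hz1] at h2
  exact h2.le

theorem continuous_toPl₀ : Continuous (toPl₀ K₀ v) := by
  refine continuous_of_continuousAt_zero _ ?_
  rw [ContinuousAt, map_zero, Metric.tendsto_nhds]
  intro ε hε
  obtain ⟨n, hn⟩ := exists_pow_lt_of_lt_one hε
    (inv_lt_one_of_one_lt₀ (a := (Nat.card (A ⧸ v.asIdeal) : ℝ)) (one_lt_qv' v))
  filter_upwards [mem_nhds_withVal (K₀ := K₀) (v := v) (-(n : ℤ))] with y hy
  rw [dist_zero_right]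
  change ‖algebraMap K₀ (plHos K₀ v).comp y.ofVal‖ < ε
  rw [norm_algebraMap]
  change hosAbv K₀ v y.ofVal < ε
  have hy' : v.valuation K₀ y.ofVal ≤ exp (-(n : ℤ)) := hy
  have h1 : hosAbv K₀ v y.ofVal ≤ (Nat.card (A ⧸ v.asIdeal) : ℝ) ^ (-(n : ℤ)) := by
    obtain ⟨z, hz⟩ := v.valuation_surjective K₀ (exp (-(n : ℤ)))
    rw [← hosAbv_exp hz, hosAbv_eq, hosAbv_eq, NNReal.coe_le_coe, hz]
    exact (WithZeroMulInt.toNNReal_strictMono (one_lt_qv v)).monotone hy'
  refine h1.trans_lt ?_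
  rwa [zpow_neg, zpow_natCast, ← inv_pow]

variable (K₀ v) in
/-- The map of the completions. -/
def toPl : v.adicCompletion K₀ →+* (plHos K₀ v).comp :=
  (UniformSpace.Completion.extensionHom (toPl₀ K₀ v) continuous_toPl₀).comp
    (adicCompletion.equiv K₀ v).toRingHom

theorem toPl_algebraMap (x : K₀) :
    toPl K₀ v (algebraMap K₀ (v.adicCompletion K₀) x) = algebraMap K₀ (plHos K₀ v).comp x := by
  have h := UniformSpace.Completion.extensionHom_coe (toPl₀ K₀ v) continuous_toPl₀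
    (WithVal.toVal (v.valuation K₀) x)
  exact h

end

end Vale.Agent.P011.H308
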