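import Vale.Agent.P011.Hey.H63.Hensel

/-!
# Norms from quadratic extensions of a local field of odd residue characteristic

`L` a complete ultrametric field in which `2` is a unit, with a uniformiser `p` and a unit `n`
which is not a square, such that every unit `u` is a square or `n` times a square, and every unit
is a value of `x ^ 2 - n * y ^ 2`.
-/

open Polynomial

set_option linter.unusedSectionVars false
set_option linter.unusedSimpArgs false

namespace Vale.Agent.P011.H308.R6D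

/-- `c` is a value of the norm form of the square root of `d`. -/
def NL {L : Type*} [Field L] (d c : L) : Prop := ∃ x y : L, x ^ 2 - d * y ^ 2 = c

section field

variable {L : Type*} [Field L] {d e c c' s : L}

theorem NL.mul (h : NL d c) (h' : NL d c') : NL d (c * c') := by
  obtain ⟨x, y, rfl⟩ := h
  obtain ⟨z, w, rfl⟩ := h'
  exact ⟨x * z + d * y * w, x * w + y * z, by ring⟩

theorem NL.one : NL d 1 := ⟨1, 0, by ring⟩

theorem NL.neg_self : NL d (-d) := ⟨0, 1, by ring⟩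

theorem NL.sq (s : L) : NL d (s ^ 2) := ⟨s, 0, by ring⟩

theorem NL.inv (h : NL d c) : NL d c⁻¹ := by
  by_cases hc : c = 0
  · rw [hc, inv_zero]
    exact ⟨0, 0, by ring⟩
  · have h1 := h.mul (NL.sq (d := d) c⁻¹)
    rwa [show c * c⁻¹ ^ 2 = c⁻¹ by field_simp] at h1

theorem NL.of_mul (h : NL d (c * c')) (h' : NL d c') (h0 : c' ≠ 0) : NL d c := by
  have h1 := h.mul h'.inv
  rwa [mul_assoc, mul_inv_cancel₀ h0, mul_one] at h1

theorem NL.sq_mul (s : L) (h : NL d c) : NL d (s ^ 2 * c) := (NL.sq s).mul h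

theorem NL.of_sq_mul (hs : s ≠ 0) (h : NL d (s ^ 2 * c)) : NL d c := by
  rw [mul_comm] at h
  exact h.of_mul (NL.sq s) (pow_ne_zero 2 hs)

/-- Multiplying `d` by a square does not change the norms. -/
theorem NL.congr (hs : s ≠ 0) (h : NL d c) : NL (d * s ^ 2) c := by
  obtain ⟨x, y, rfl⟩ := h
  exact ⟨x, y / s, by field_simp⟩

theorem NL.congr' (h : NL (d * s ^ 2) c) : NL d c := by
  obtain ⟨x, y, rfl⟩ := h
  exact ⟨x, y * s, by ring⟩

/-- Every element is a norm if `d` is a nonzero square. -/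
theorem NL.of_square (h2 : (2 : L) ≠ 0) (hs : s ≠ 0) (c : L) : NL (s ^ 2) c :=
  ⟨(c + 1) / 2, (c - 1) / (2 * s), by field_simp; ring⟩

end field

section norm

variable {L : Type*} [NormedField L] [IsUltrametricDist L] [CompleteSpace L]

theorem add_left' {x y : L} (h : ‖y‖ < ‖x‖) : ‖x + y‖ = ‖x‖ := by
  rw [IsUltrametricDist.norm_add_eq_max_of_norm_ne_norm h.ne', max_eq_left h.le]

theorem add_right' {x y : L} (h : ‖x‖ < ‖y‖) : ‖x + y‖ = ‖y‖ := by
  rw [add_comm, add_left' h]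

/-- Elements close to one are squares. -/
theorem exists_sqrt (h2 : ‖(2 : L)‖ = 1) {x : L} (hx : ‖x - 1‖ < 1) : ∃ β : L, β ^ 2 = x := by
  have hx1 : ‖(1 : L) - x‖ < 1 := by rwa [norm_sub_rev]
  let a0 : Hey.H63.OK L := ⟨1 - x, hx1.le⟩
  obtain ⟨z, -, hz⟩ := Hey.H63.hensel (K := L) (X ^ 2 + C 2 * X + C a0) (by
    have e : (X ^ 2 + C 2 * X + C a0 : (Hey.H63.OK L)[X]).coeff 0 = a0 := by simp
    rw [e]
    exact hx1) (by
    have e : (X ^ 2 + C 2 * X + C a0 : (Hey.H63.OK L)[X]).coeff 1 = 2 := by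
      simp [coeff_X, coeff_C, coeff_X_pow]
    rw [e]
    exact h2)
  refine ⟨1 + z, ?_⟩
  have h3 := congrArg (fun y : Hey.H63.OK L => (y : L)) hz
  simp only [eval_add, eval_pow, eval_X, eval_mul, eval_C] at h3
  have h4 : ((z : L)) ^ 2 + 2 * z + (1 - x) = 0 := h3
  linear_combination h4

/-- Elements close to a nonzero element differ from it by a nonzero square. -/
theorem exists_sqrt' (h2 : ‖(2 : L)‖ = 1) {x y : L} (hx : x ≠ 0) (h : ‖y - x‖ < ‖x‖) :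
    ∃ β : L, β ≠ 0 ∧ y = x * β ^ 2 := by
  obtain ⟨β, hβ⟩ := exists_sqrt h2 (x := y / x) (by
    rw [div_sub_one hx, norm_div]
    exact (div_lt_one (norm_pos_iff.mpr hx)).mpr h)
  have hy : y ≠ 0 := by
    rintro rfl
    rw [zero_sub, norm_neg] at h
    exact lt_irrefl _ h
  refine ⟨β, ?_, by rw [hβ, mul_div_cancel₀ _ hx]⟩
  rintro rfl
  rw [zero_pow two_ne_zero] at hβ
  exact (div_ne_zero hy hx) hβ.symm

end norm

/-- The data of a local field of odd residue characteristic used below. -/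
structure LData (L : Type*) [NormedField L] where
  /-- a uniformiser -/
  p : L
  /-- a unit which is not a square -/
  n : L
  two : ‖(2 : L)‖ = 1
  p0 : p ≠ 0
  p1 : ‖p‖ < 1
  disc : ∀ x : L, x ≠ 0 → ∃ m : ℤ, ‖x‖ = ‖p‖ ^ m
  n1 : ‖n‖ = 1
  nsq : ∀ β : L, β ^ 2 ≠ n
  cls : ∀ u : L, ‖u‖ = 1 → (∃ β, β ^ 2 = u) ∨ ∃ β, n * β ^ 2 = u
  unr : ∀ u : L, ‖u‖ = 1 → NL n u

section data

variable {L : Type*} [NormedField L] [IsUltrametricDist L] [CompleteSpace L] (Δ : LData L)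

/-- Even valuation. -/
def Ev (x : L) : Prop := ∃ c : L, c ≠ 0 ∧ ‖x‖ = ‖c‖ ^ 2

namespace LData

include Δ in
theorem two_ne : (2 : L) ≠ 0 := by
  intro h
  have := Δ.two
  rw [h, norm_zero] at this
  exact zero_ne_one this

theorem n0 : Δ.n ≠ 0 := by
  intro h
  have := Δ.n1
  rw [h, norm_zero] at this
  exact zero_ne_one this

include Δ in
theorem four : ‖(4 : L)‖ = 1 := by
  rw [show (4 : L) = 2 * 2 by norm_num, norm_mul, Δ.two, one_mul]

theorem pp : 0 < ‖Δ.p‖ := norm_pos_iff.mpr Δ.p0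

theorem not_ev_p : ¬ Ev Δ.p := by
  rintro ⟨c, hc, h⟩
  obtain ⟨m, hm⟩ := Δ.disc c hc
  rw [hm, ← zpow_natCast, ← zpow_mul] at h
  have h1 : ‖Δ.p‖ ^ (1 : ℤ) = ‖Δ.p‖ ^ (m * ((2 : ℕ) : ℤ)) := by rw [zpow_one]; exact h
  have h2 := zpow_right_injective₀ Δ.pp Δ.p1.ne h1
  push_cast at h2
  omega

theorem ev_or {x : L} (hx : x ≠ 0) : Ev x ∨ Ev (Δ.p * x) := by
  obtain ⟨m, hm⟩ := Δ.disc x hx
  rcases Int.even_or_odd' m with ⟨j, rfl | rfl⟩
  · left
    refine ⟨Δ.p ^ j, zpow_ne_zero _ Δ.p0, ?_⟩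
    rw [hm, norm_zpow, ← zpow_natCast, ← zpow_mul]
    congr 1
    push_cast
    ring
  · right
    refine ⟨Δ.p ^ (j + 1), zpow_ne_zero _ Δ.p0, ?_⟩
    rw [norm_mul, hm, norm_zpow, ← zpow_natCast, ← zpow_mul, ← zpow_one_add₀ Δ.pp.ne']
    congr 1
    push_cast
    ring

end LData

theorem Ev.mul {x y : L} (hx : Ev x) (hy : Ev y) : Ev (x * y) := by
  obtain ⟨c, hc, h⟩ := hx
  obtain ⟨e, he, h'⟩ := hy
  exact ⟨c * e, mul_ne_zero hc he, by rw [norm_mul, norm_mul, h, h']; ring⟩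

theorem Ev.inv {x : L} (hx : Ev x) : Ev x⁻¹ := by
  obtain ⟨c, hc, h⟩ := hx
  exact ⟨c⁻¹, inv_ne_zero hc, by rw [norm_inv, norm_inv, h, inv_pow]⟩

theorem Ev.neg {x : L} (hx : Ev x) : Ev (-x) := by
  obtain ⟨c, hc, h⟩ := hx
  exact ⟨c, hc, by rw [norm_neg, h]⟩

theorem Ev.ne {x : L} (hx : Ev x) : x ≠ 0 := by
  obtain ⟨c, hc, h⟩ := hx
  rintro rfl
  rw [norm_zero] at h
  exact (pow_ne_zero 2 (norm_ne_zero_iff.mpr hc)) h.symm

theorem Ev.of_norm {x y : L} (hx : Ev x) (h : ‖y‖ = ‖x‖) : Ev y := by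
  obtain ⟨c, hc, h'⟩ := hx
  exact ⟨c, hc, by rw [h, h']⟩

theorem ev_sq {x : L} (hx : x ≠ 0) : Ev (x ^ 2) := ⟨x, hx, norm_pow x 2⟩

/-- The decomposition of an element of even valuation. -/
theorem Ev.dec {x : L} (hx : Ev x) : ∃ c u : L, c ≠ 0 ∧ ‖u‖ = 1 ∧ x = c ^ 2 * u := by
  obtain ⟨c, hc, h⟩ := hx
  refine ⟨c, x / c ^ 2, hc, ?_, by field_simp⟩
  rw [norm_div, norm_pow, h, div_self (pow_ne_zero 2 (norm_ne_zero_iff.mpr hc))]

namespace LData

include Δ in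
/-- The product of two elements of odd valuation has even valuation. -/
theorem odd_mul {x y : L} (hx0 : x ≠ 0) (hy0 : y ≠ 0) (hx : ¬ Ev x) (hy : ¬ Ev y) :
    Ev (x * y) := by
  have h1 := (Δ.ev_or hx0).resolve_left hx
  have h2 := (Δ.ev_or hy0).resolve_left hy
  have h3 := (h1.mul h2).mul (ev_sq Δ.p0).inv
  rwa [show Δ.p * x * (Δ.p * y) * (Δ.p ^ 2)⁻¹ = x * y by
    have := Δ.p0
    field_simp] at h3

/-- Elements of even valuation are norms from the unramified extension. -/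
theorem nl_ev {c : L} (hc : Ev c) : NL Δ.n c := by
  obtain ⟨s, u, -, hu, rfl⟩ := hc.dec
  exact (Δ.unr u hu).sq_mul s

/-- Nonsquares of even valuation. -/
theorem dec_n {a : L} (ha : Ev a) (hn : ∀ β : L, β ^ 2 ≠ a) :
    ∃ s : L, s ≠ 0 ∧ a = Δ.n * s ^ 2 := by
  obtain ⟨s, u, hs, hu, rfl⟩ := ha.dec
  rcases Δ.cls u hu with ⟨β, hβ⟩ | ⟨β, hβ⟩
  · exact absurd (by rw [mul_pow, hβ]) (hn (s * β))
  · refine ⟨s * β, mul_ne_zero hs ?_, by rw [← hβ]; ring⟩
    rintro rfl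
    rw [zero_pow two_ne_zero, mul_zero] at hβ
    rw [← hβ, norm_zero] at hu
    exact zero_ne_one hu

/-- The ramified case: `c` or `n c` is a norm. -/
theorem nl_odd {a c : L} (ha0 : a ≠ 0) (ha : ¬ Ev a) (hc0 : c ≠ 0) :
    NL a c ∨ NL a (Δ.n * c) := by
  have key : ∀ x : L, Ev x → NL a x ∨ NL a (Δ.n * x) := by
    intro x hx
    obtain ⟨s, u, hs, hu, rfl⟩ := hx.dec
    rcases Δ.cls u hu with ⟨β, hβ⟩ | ⟨β, hβ⟩
    · left
      rw [← hβ, ← mul_pow]
      exact NL.sq _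
    · right
      have h1 : Δ.n * (s ^ 2 * u) = (Δ.n * s * β) ^ 2 := by rw [← hβ]; ring
      rw [h1]
      exact NL.sq _
  by_cases hc : Ev c
  · exact key c hc
  · have h1 := (Δ.odd_mul ha0 hc0 ha hc).neg
    rcases key _ h1 with h2 | h2
    · left
      exact NL.of_mul (c' := -a) (by rwa [mul_neg, mul_comm c a]) NL.neg_self (neg_ne_zero.mpr ha0)
    · right
      exact NL.of_mul (c' := -a) (by
        rwa [show Δ.n * c * -a = Δ.n * -(a * c) by ring]) NL.neg_self (neg_ne_zero.mpr ha0)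

/-- The goodness condition for the trace `T` at the element `r`. -/
def Good (a e r : L) : Prop := ∃ x y z w : L, x ^ 2 - a * y ^ 2 ≠ 0 ∧
  r * (x ^ 2 - a * y ^ 2) = z ^ 2 - e * w ^ 2

theorem good_of {a e r s : L} (hs : s ≠ 0) (h : NL a s) (h' : NL e (r * s)) : Good a e r := by
  obtain ⟨x, y, rfl⟩ := h
  obtain ⟨z, w, hz⟩ := h'
  exact ⟨x, y, z, w, hs, hz.symm⟩

theorem Good.congr {a e r β : L} (hβ : β ≠ 0) (h : Good a e r) : Good a (e * β ^ 2) r := by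
  obtain ⟨x, y, z, w, h1, h2⟩ := h
  exact ⟨x, y, z, w / β, h1, by rw [h2]; field_simp⟩

include Δ in
theorem big (M : ℝ) : ∃ T : L, T ≠ 0 ∧ M < ‖T ^ 2‖ := by
  have h5 : 0 < max 1 M := lt_of_lt_of_le one_pos (le_max_left _ _)
  obtain ⟨m, hm⟩ := exists_pow_lt_of_lt_one (inv_pos.mpr h5) Δ.p1
  have h6 : 0 < ‖Δ.p‖ ^ m := pow_pos Δ.pp m
  refine ⟨(Δ.p ^ m)⁻¹, inv_ne_zero (pow_ne_zero _ Δ.p0), ?_⟩
  rw [norm_pow, norm_inv, norm_pow]
  have h7 : max 1 M < (‖Δ.p‖ ^ m)⁻¹ := (lt_inv_comm₀ h6 h5).mp hm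
  have h8 : 1 ≤ (‖Δ.p‖ ^ m)⁻¹ := ((le_max_left 1 M).trans_lt h7).le
  calc M ≤ max 1 M := le_max_right _ _
    _ < (‖Δ.p‖ ^ m)⁻¹ := h7
    _ ≤ (‖Δ.p‖ ^ m)⁻¹ ^ 2 := by
      rw [sq]
      exact le_mul_of_one_le_left (by linarith) h8

include Δ in
/-- **Local solvability.** -/
theorem main {δ a b r : L} (hδ : δ ≠ 0) (hδ4 : δ + 4 ≠ 0) (ha : a = δ * (δ + 4) / 4)
    (hb0 : b ≠ 0) (hr : r ≠ 0) (h : NL a b ∨ ‖δ‖ < 1) :
    ∃ T : L, T ^ 2 - 4 ≠ 0 ∧ NL a (-(b * (δ + 4 - T ^ 2))) ∧ Good a (T ^ 2 - 4) r := by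
  have h2 := Δ.two_ne
  have h4 := Δ.four
  have h40 : (4 : L) ≠ 0 := by
    intro h0
    rw [h0, norm_zero] at h4
    exact zero_ne_one h4
  have ha0 : a ≠ 0 := by
    rw [ha]
    exact div_ne_zero (mul_ne_zero hδ hδ4) h40
  by_cases hb : NL a b
  · -- the unramified case: a large trace
    obtain ⟨T, hT, hM⟩ := Δ.big (max 1 ‖δ + 4‖)
    obtain ⟨β, hβ0, hβ⟩ := exists_sqrt' Δ.two (x := T ^ 2) (y := T ^ 2 - 4) (pow_ne_zero 2 hT) (by
      rw [sub_sub_cancel_left, norm_neg, h4]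
      exact (le_max_left _ _).trans_lt hM)
    obtain ⟨γ, hγ0, hγ⟩ := exists_sqrt' Δ.two (x := T ^ 2) (y := T ^ 2 - (δ + 4))
      (pow_ne_zero 2 hT) (by
      rw [sub_sub_cancel_left, norm_neg]
      exact (le_max_right _ _).trans_lt hM)
    refine ⟨T, ?_, ?_, ?_⟩
    · rw [hβ]
      exact mul_ne_zero (pow_ne_zero 2 hT) (pow_ne_zero 2 hβ0)
    · rw [show -(b * (δ + 4 - T ^ 2)) = (T * γ) ^ 2 * b by
        rw [mul_pow, ← hγ]; ring]
      exact hb.sq_mul _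
    · refine good_of one_ne_zero NL.one ?_
      rw [hβ, ← mul_pow]
      exact NL.of_square h2 (mul_ne_zero hT hβ0) _
  · have hδ1 := h.resolve_left hb
    have hansq : ∀ β : L, β ^ 2 ≠ a := by
      rintro β rfl
      refine hb (NL.of_square h2 (s := β) ?_ b)
      rintro rfl
      exact ha0 (by ring)
    obtain ⟨σ, hσ0, hσ⟩ := exists_sqrt' Δ.two (x := (4 : L)) (y := δ + 4) h40 (by
      rw [add_sub_cancel_right, h4]
      exact hδ1)
    have ha' : a = δ * σ ^ 2 := by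
      rw [ha, hσ]
      field_simp
    have hσn : ‖σ‖ ^ 2 = 1 := by
      have h5 : ‖δ + 4‖ = 1 := by
        rw [add_comm, ← h4]
        exact add_left' (by rw [h4]; exact hδ1)
      rw [hσ, norm_mul, h4, one_mul, norm_pow] at h5
      exact h5
    have han : ‖a‖ = ‖δ‖ := by rw [ha', norm_mul, norm_pow, hσn, mul_one]
    by_cases hev : Ev δ
    · -- even valuation
      obtain ⟨e, he0, he⟩ := Δ.dec_n (hev.of_norm han) hansq
      have hNa : ∀ c : L, Ev c → NL a c := by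
        intro c hc
        rw [he]
        exact (Δ.nl_ev hc).congr he0
      have hbo : ¬ Ev b := fun hb' => hb (hNa b hb')
      have hδp : ‖δ‖ < ‖Δ.p‖ := by
        obtain ⟨m, hm⟩ := Δ.disc δ hδ
        have hm0 : 0 < m := by
          by_contra hcon
          rw [not_lt] at hcon
          rw [hm] at hδ1
          exact absurd hδ1 (not_lt.mpr (one_le_zpow_of_nonpos₀ Δ.pp Δ.p1.le hcon))
        have hm1 : m ≠ 1 := by
          rintro rfl
          rw [zpow_one] at hm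
          exact Δ.not_ev_p (hev.of_norm hm.symm)
        rw [hm]
        calc ‖Δ.p‖ ^ m ≤ ‖Δ.p‖ ^ (2 : ℤ) :=
              zpow_le_zpow_right_of_le_one₀ Δ.pp Δ.p1.le (by omega)
          _ < ‖Δ.p‖ ^ (1 : ℤ) := zpow_lt_zpow_right_of_lt_one₀ Δ.pp Δ.p1 (by norm_num)
          _ = ‖Δ.p‖ := zpow_one _
      have hp2 : ‖Δ.p ^ 2‖ < ‖Δ.p‖ := by
        rw [norm_pow, sq]
        exact mul_lt_of_lt_one_left Δ.pp Δ.p1
      have he1 : ‖4 * Δ.p + Δ.p ^ 2‖ = ‖Δ.p‖ := by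
        have h5 : ‖4 * Δ.p‖ = ‖Δ.p‖ := by rw [norm_mul, h4, one_mul]
        rw [← h5]
        exact add_left' (by rw [h5]; exact hp2)
      have heT : (2 + Δ.p) ^ 2 - 4 = 4 * Δ.p + Δ.p ^ 2 := by ring
      have heT0 : (2 + Δ.p) ^ 2 - 4 ≠ 0 := by
        rw [heT, ← norm_ne_zero_iff, he1]
        exact Δ.pp.ne'
      have heTo : ¬ Ev ((2 + Δ.p) ^ 2 - 4) := by
        intro h5
        rw [heT] at h5
        exact Δ.not_ev_p (h5.of_norm he1.symm)
      refine ⟨2 + Δ.p, heT0, ?_, ?_⟩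
      · have hP : ‖δ + 4 - (2 + Δ.p) ^ 2‖ = ‖Δ.p‖ := by
          rw [show δ + 4 - (2 + Δ.p) ^ 2 = δ + -(4 * Δ.p + Δ.p ^ 2) by ring]
          rw [add_right' (by
            rw [norm_neg, he1]; exact hδp), norm_neg, he1]
        refine hNa _ (Ev.neg (Δ.odd_mul hb0 ?_ hbo ?_))
        · rw [← norm_ne_zero_iff, hP]
          exact Δ.pp.ne'
        · intro h5
          exact Δ.not_ev_p (h5.of_norm hP.symm)
      · by_cases hre : Ev r
        · refine good_of (inv_ne_zero hr) (hNa _ hre.inv) ?_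
          rw [mul_inv_cancel₀ hr]
          exact NL.one
        · have h5 : ¬ Ev r⁻¹ := fun h6 => hre (by simpa using h6.inv)
          refine good_of (s := -(((2 + Δ.p) ^ 2 - 4) * r⁻¹)) ?_
            (hNa _ (Ev.neg (Δ.odd_mul heT0 (inv_ne_zero hr) heTo h5))) ?_
          · exact neg_ne_zero.mpr (mul_ne_zero heT0 (inv_ne_zero hr))
          · rw [show r * -(((2 + Δ.p) ^ 2 - 4) * r⁻¹) = -((2 + Δ.p) ^ 2 - 4) by
              field_simp]
            exact NL.neg_self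
    · -- odd valuation
      have hao : ¬ Ev a := fun h5 => hev (h5.of_norm han.symm)
      have hbn : NL a (Δ.n * b) := (Δ.nl_odd ha0 hao hb0).resolve_left hb
      have hn1 : ‖(1 : L) - Δ.n‖ = 1 := by
        apply le_antisymm
        · rw [sub_eq_add_neg]
          refine (IsUltrametricDist.norm_add_le_max _ _).trans ?_
          rw [norm_neg, norm_one, Δ.n1, max_self]
        · by_contra hcon
          rw [not_le, norm_sub_rev] at hcon
          obtain ⟨β, hβ⟩ := exists_sqrt Δ.two hcon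
          exact Δ.nsq β hβ
      have hn0 : (1 : L) - Δ.n ≠ 0 := by
        rw [← norm_ne_zero_iff, hn1]
        exact one_ne_zero
      have hc0 : (4 : L) / (1 - Δ.n) ≠ 0 := div_ne_zero h40 hn0
      have hcn : ‖(4 : L) / (1 - Δ.n)‖ = 1 := by rw [norm_div, h4, hn1, div_one]
      have heT : (2 * (1 + Δ.n) / (1 - Δ.n)) ^ 2 - 4 = Δ.n * (4 / (1 - Δ.n)) ^ 2 := by
        field_simp
        ring
      have heTn : ‖Δ.n * (4 / (1 - Δ.n)) ^ 2‖ = 1 := by
        rw [norm_mul, norm_pow, hcn, Δ.n1, one_pow, one_mul]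
      obtain ⟨β, hβ0, hβ⟩ := exists_sqrt' Δ.two (x := Δ.n * (4 / (1 - Δ.n)) ^ 2)
        (y := Δ.n * (4 / (1 - Δ.n)) ^ 2 - δ) (mul_ne_zero Δ.n0 (pow_ne_zero 2 hc0)) (by
        rw [sub_sub_cancel_left, norm_neg, heTn]
        exact hδ1)
      refine ⟨2 * (1 + Δ.n) / (1 - Δ.n), ?_, ?_, ?_⟩
      · rw [heT]
        exact mul_ne_zero Δ.n0 (pow_ne_zero 2 hc0)
      · rw [show -(b * (δ + 4 - (2 * (1 + Δ.n) / (1 - Δ.n)) ^ 2)) =
          (4 / (1 - Δ.n) * β) ^ 2 * (Δ.n * b) by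
          rw [show -(b * (δ + 4 - (2 * (1 + Δ.n) / (1 - Δ.n)) ^ 2)) =
            b * ((2 * (1 + Δ.n) / (1 - Δ.n)) ^ 2 - 4 - δ) by ring, heT, hβ]
          ring]
        exact hbn.sq_mul _
      · rw [heT]
        by_cases hre : Ev r
        · refine good_of one_ne_zero NL.one ?_
          rw [mul_one]
          exact (Δ.nl_ev hre).congr hc0
        · refine good_of (s := -a) (neg_ne_zero.mpr ha0) NL.neg_self ?_
          rw [mul_neg]
          exact (Δ.nl_ev (Ev.neg (Δ.odd_mul hr ha0 hre hao))).congr hc0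

/-- The explicit solution of the equation for the pure quaternion. -/
theorem solve {δ a b T : L} (h40 : (4 : L) ≠ 0) (hδ : δ ≠ 0) (hδ4 : δ + 4 ≠ 0)
    (ha : a = δ * (δ + 4) / 4) (hb0 : b ≠ 0) (h : NL a (-(b * (δ + 4 - T ^ 2)))) :
    ∃ f g : L, T ^ 2 * δ / (δ + 4) + b * (f ^ 2 - a * g ^ 2) = δ := by
  obtain ⟨x, y, hxy⟩ := h
  refine ⟨2 * a * y / (b * (δ + 4)), 2 * x / (b * (δ + 4)), ?_⟩
  have h1 : b * ((2 * a * y / (b * (δ + 4))) ^ 2 - a * (2 * x / (b * (δ + 4))) ^ 2) =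
      -4 * a * (x ^ 2 - a * y ^ 2) / (b * (δ + 4) ^ 2) := by
    field_simp
    ring
  rw [h1, hxy, ha]
  field_simp
  ring

end LData

end data

end Vale.Agent.P011.H308.R6D
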