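import Vale.Agent.P011.MPQ.Defs
import Mathlib.Algebra.QuaternionBasis

/-!
# Presentations of a quaternion algebra adapted to an element
-/

namespace Vale.Agent.P011.H308.R6P

open Vale.Agent.P011.MPQ

section gen

variable {L : Type} [Field L] {a b a0 b0 : Lˣ}

theorem mul_star_eq (x : Qt a b) : x * star x = algebraMap L (Qt a b) (nrd x) := by
  ext <;> simp [nrd, QuaternionAlgebra.algebraMap_eq] <;> ring

theorem star_pure {x : Qt a b} (hx : x.re = 0) : star x = -x := by
  ext <;> simp [hx]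

theorem re_mul_comm (x y : Qt a b) : (x * y).re = (y * x).re := by
  simp only [QuaternionAlgebra.re_mul]
  ring

/-- A pair of anticommuting pure quaternions with given squares. -/
structure Pr (a b : Lˣ) (u t : Qt a0 b0) : Prop where
  ure : u.re = 0
  tre : t.re = 0
  uu : u * u = algebraMap L _ (a : L)
  tt : t * t = algebraMap L _ (b : L)
  ut : t * u = -(u * t)

variable {u t : Qt a0 b0}

/-- The basis. -/
def Pr.basis (h : Pr a b u t) : QuaternionAlgebra.Basis (Qt a0 b0) (a : L) 0 (b : L) where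
  i := u
  j := t
  k := u * t
  i_mul_i := by rw [h.uu, zero_smul, add_zero, Algebra.algebraMap_eq_smul_one]
  j_mul_j := by rw [h.tt, Algebra.algebraMap_eq_smul_one]
  i_mul_j := rfl
  j_mul_i := by rw [h.ut, zero_smul, zero_sub]

/-- The homomorphism. -/
def Pr.phi (h : Pr a b u t) : Qt a b →ₐ[L] Qt a0 b0 := h.basis.liftHom

theorem Pr.phi_apply (h : Pr a b u t) (x : Qt a b) : h.phi x =
    algebraMap L _ x.re + x.imI • u + x.imJ • t + x.imK • (u * t) := rfl

theorem Pr.utre (h2 : (2 : L) ≠ 0) (h : Pr a b u t) : (u * t).re = 0 := by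
  have h1 := re_mul_comm u t
  rw [h.ut, QuaternionAlgebra.re_neg] at h1
  have h3 : 2 * (u * t).re = 0 := by linear_combination h1
  exact (mul_eq_zero.mp h3).resolve_left h2

theorem Pr.re_phi (h2 : (2 : L) ≠ 0) (h : Pr a b u t) (x : Qt a b) : (h.phi x).re = x.re := by
  rw [h.phi_apply, QuaternionAlgebra.re_add, QuaternionAlgebra.re_add, QuaternionAlgebra.re_add,
    QuaternionAlgebra.re_smul, QuaternionAlgebra.re_smul, QuaternionAlgebra.re_smul, h.ure, h.tre,
    h.utre h2, QuaternionAlgebra.algebraMap_eq]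
  simp

theorem star_eq (x : Qt a b) : star x = algebraMap L _ (2 * x.re) - x := by
  ext
  · simp [QuaternionAlgebra.algebraMap_eq]
    ring
  · simp [QuaternionAlgebra.algebraMap_eq]
  · simp [QuaternionAlgebra.algebraMap_eq]
  · simp [QuaternionAlgebra.algebraMap_eq]

theorem Pr.star_phi (h2 : (2 : L) ≠ 0) (h : Pr a b u t) (x : Qt a b) :
    star (h.phi x) = h.phi (star x) := by
  rw [star_eq, star_eq, h.re_phi h2, map_sub, AlgHom.commutes]

theorem Pr.nrd_phi (h2 : (2 : L) ≠ 0) (h : Pr a b u t) (x : Qt a b) :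
    nrd (h.phi x) = nrd x := by
  have h1 := mul_star_eq (h.phi x)
  rw [h.star_phi h2, ← map_mul, mul_star_eq, AlgHom.commutes] at h1
  exact ((algebraMap L (Qt a0 b0)).injective h1).symm

theorem unit_conj (x : Qt a b) : (⟨0, 1, 0, 0⟩ : Qt a b) * x * ⟨0, 1, 0, 0⟩ =
    (a : L) • ⟨x.re, x.imI, -x.imJ, -x.imK⟩ := by
  ext <;> simp

theorem Pr.injective (h2 : (2 : L) ≠ 0) (h : Pr a b u t) : Function.Injective h.phi := by
  rw [injective_iff_map_eq_zero]
  intro x hx
  have h1 : h.phi ((a : L) • ⟨x.re, x.imI, -x.imJ, -x.imK⟩) = 0 := by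
    rw [← unit_conj, map_mul, map_mul, hx, mul_zero, zero_mul]
  rw [map_smul, smul_eq_zero] at h1
  have h3 := h1.resolve_left a.ne_zero
  have hu : u ≠ 0 := by
    intro h0
    have h4 := h.uu
    rw [h0, mul_zero] at h4
    exact a.ne_zero ((algebraMap L (Qt a0 b0)).injective (by rw [← h4, map_zero]))
  have key : ∀ y z : L, algebraMap L (Qt a0 b0) y + z • u = 0 → y = 0 ∧ z = 0 := by
    intro y z h4
    have h5 := congrArg QuaternionAlgebra.re h4
    rw [QuaternionAlgebra.re_add, QuaternionAlgebra.re_smul, h.ure, smul_zero, add_zero,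
      QuaternionAlgebra.algebraMap_eq] at h5
    have h6 : y = 0 := h5
    rw [h6, map_zero, zero_add] at h4
    exact ⟨h6, (smul_eq_zero.mp h4).resolve_right hu⟩
  rw [h.phi_apply] at hx
  replace h3 : algebraMap L (Qt a0 b0) x.re + x.imI • u + (-x.imJ) • t + (-x.imK) • (u * t) = 0 :=
    h3
  have h4 : algebraMap L (Qt a0 b0) (2 * x.re) + (2 * x.imI) • u = 0 := by
    have h5 : algebraMap L (Qt a0 b0) (2 * x.re) + (2 * x.imI) • u =
        (algebraMap L _ x.re + x.imI • u + x.imJ • t + x.imK • (u * t)) +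
        (algebraMap L _ x.re + x.imI • u + (-x.imJ) • t + (-x.imK) • (u * t)) := by
      rw [two_mul, two_mul, map_add]
      module
    rw [h5, hx, h3, add_zero]
  have h6 : (algebraMap L (Qt a0 b0) (2 * x.imJ) + (2 * x.imK) • u) * t = 0 := by
    have h5 : (algebraMap L (Qt a0 b0) (2 * x.imJ) + (2 * x.imK) • u) * t =
        (algebraMap L _ x.re + x.imI • u + x.imJ • t + x.imK • (u * t)) -
        (algebraMap L _ x.re + x.imI • u + (-x.imJ) • t + (-x.imK) • (u * t)) := by
      rw [add_mul, smul_mul_assoc, ← Algebra.smul_def]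
      module
    rw [h5, hx, h3, sub_zero]
  have h7 : algebraMap L (Qt a0 b0) (2 * x.imJ) + (2 * x.imK) • u = 0 := by
    have h8 := congrArg (· * t) h6
    simp only [zero_mul, mul_assoc, h.tt] at h8
    rw [← Algebra.commutes, ← Algebra.smul_def, smul_eq_zero] at h8
    exact h8.resolve_left b.ne_zero
  obtain ⟨e1, e2⟩ := key _ _ h4
  obtain ⟨e3, e4⟩ := key _ _ h7
  ext
  · exact (mul_eq_zero.mp e1).resolve_left h2
  · exact (mul_eq_zero.mp e2).resolve_left h2
  · exact (mul_eq_zero.mp e3).resolve_left h2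
  · exact (mul_eq_zero.mp e4).resolve_left h2

theorem Pr.surjective (h2 : (2 : L) ≠ 0) (h : Pr a b u t) : Function.Surjective h.phi := by
  have h1 : Module.finrank L (Qt a b) = Module.finrank L (Qt a0 b0) := by
    rw [QuaternionAlgebra.finrank_eq_four, QuaternionAlgebra.finrank_eq_four]
  exact (LinearMap.injective_iff_surjective_of_finrank_eq_finrank h1
    (f := h.phi.toLinearMap)).mp (h.injective h2)

/-- Isotropy of the norm form. -/
theorem norm_of_iso (h2 : (2 : L) ≠ 0) {x : Qt a b} (hx : x ≠ 0) (h : nrd x = 0) :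
    ∃ y z : L, y ^ 2 - a * z ^ 2 = b := by
  have hsq : ∀ y z : L, y ^ 2 - a * z ^ 2 = 0 → z ≠ 0 → ∃ y z : L, y ^ 2 - a * z ^ 2 = b := by
    intro y z h0 hz
    obtain ⟨s, h1⟩ : ∃ s : L, (a : L) = s ^ 2 := ⟨y / z, by
      field_simp
      linear_combination -h0⟩
    have hs : s ≠ 0 := by
      rintro rfl
      exact a.ne_zero (by rw [h1]; ring)
    refine ⟨(b + 1) / 2, (b - 1) / (2 * s), ?_⟩
    rw [h1]
    field_simp
    ring
  have h1 : x.re ^ 2 - a * x.imI ^ 2 = b * (x.imJ ^ 2 - a * x.imK ^ 2) := by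
    rw [nrd] at h
    linear_combination h
  by_cases h3 : x.imJ ^ 2 - a * x.imK ^ 2 = 0
  · by_cases h4 : x.imK = 0
    · rw [h3, mul_zero] at h1
      by_cases h5 : x.imI = 0
      · exfalso
        rw [h4] at h3
        rw [h5] at h1
        apply hx
        ext
        · simpa using h1
        · exact h5
        · simpa using h3
        · exact h4
      · exact hsq _ _ h1 h5
    · exact hsq _ _ h3 h4
  · refine ⟨(x.re * x.imJ - a * x.imI * x.imK) / (x.imJ ^ 2 - a * x.imK ^ 2),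
      (x.imI * x.imJ - x.re * x.imK) / (x.imJ ^ 2 - a * x.imK ^ 2), ?_⟩
    have h4 : ((x.re * x.imJ - a * x.imI * x.imK) / (x.imJ ^ 2 - a * x.imK ^ 2)) ^ 2 -
        a * ((x.imI * x.imJ - x.re * x.imK) / (x.imJ ^ 2 - a * x.imK ^ 2)) ^ 2 =
        (x.re ^ 2 - a * x.imI ^ 2) / (x.imJ ^ 2 - a * x.imK ^ 2) := by
      field_simp
      ring
    rw [h4, h1, mul_div_cancel_right₀ _ h3]

theorem Pr.transfer (h2 : (2 : L) ≠ 0) (h : Pr a b u t) (h0 : ∃ x z : L, x ^ 2 - a0 * z ^ 2 = b0) :
    ∃ x z : L, x ^ 2 - a * z ^ 2 = b := by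
  obtain ⟨x, z, hxz⟩ := h0
  obtain ⟨w, hw⟩ := h.surjective h2 ⟨x, z, 1, 0⟩
  refine norm_of_iso h2 (x := w) ?_ ?_
  · rintro rfl
    rw [map_zero] at hw
    have := congrArg QuaternionAlgebra.imJ hw
    simp at this
  · rw [← h.nrd_phi h2, hw, nrd]
    simp only
    linear_combination hxz

end gen

section bc

variable {F : Type} [Field F] (L : Type) [Field L] [Algebra F L] {a b a0 b0 : Fˣ}

/-- Extension of scalars. -/
def bc (x : Qt a0 b0) : Qt (Units.map (algebraMap F L).toMonoidHom a0)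
    (Units.map (algebraMap F L).toMonoidHom b0) :=
  ⟨algebraMap F L x.re, algebraMap F L x.imI, algebraMap F L x.imJ, algebraMap F L x.imK⟩

theorem bc_re (x : Qt a0 b0) : (bc L x).re = algebraMap F L x.re := rfl

theorem bc_imI (x : Qt a0 b0) : (bc L x).imI = algebraMap F L x.imI := rfl

theorem bc_imJ (x : Qt a0 b0) : (bc L x).imJ = algebraMap F L x.imJ := rfl

theorem bc_imK (x : Qt a0 b0) : (bc L x).imK = algebraMap F L x.imK := rfl

theorem bc_mul (x y : Qt a0 b0) : bc L (x * y) = bc L x * bc L y := by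
  ext
  · rw [QuaternionAlgebra.re_mul, bc_re, QuaternionAlgebra.re_mul]
    simp only [bc_re, bc_imI, bc_imJ, bc_imK, Units.coe_map,
      RingHom.toMonoidHom_eq_coe, MonoidHom.coe_coe, map_add, map_sub, map_mul, map_zero]
  · rw [QuaternionAlgebra.imI_mul, bc_imI, QuaternionAlgebra.imI_mul]
    simp only [bc_re, bc_imI, bc_imJ, bc_imK, Units.coe_map,
      RingHom.toMonoidHom_eq_coe, MonoidHom.coe_coe, map_add, map_sub, map_mul, map_zero]
  · rw [QuaternionAlgebra.imJ_mul, bc_imJ, QuaternionAlgebra.imJ_mul]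
    simp only [bc_re, bc_imI, bc_imJ, bc_imK, Units.coe_map,
      RingHom.toMonoidHom_eq_coe, MonoidHom.coe_coe, map_add, map_sub, map_mul, map_zero]
  · rw [QuaternionAlgebra.imK_mul, bc_imK, QuaternionAlgebra.imK_mul]
    simp only [bc_re, bc_imI, bc_imJ, bc_imK, Units.coe_map,
      RingHom.toMonoidHom_eq_coe, MonoidHom.coe_coe, map_add, map_sub, map_mul, map_zero]

theorem bc_neg (x : Qt a0 b0) : bc L (-x) = -bc L x := by
  ext
  · rw [QuaternionAlgebra.re_neg, bc_re, bc_re, QuaternionAlgebra.re_neg, map_neg]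
  · rw [QuaternionAlgebra.imI_neg, bc_imI, bc_imI, QuaternionAlgebra.imI_neg, map_neg]
  · rw [QuaternionAlgebra.imJ_neg, bc_imJ, bc_imJ, QuaternionAlgebra.imJ_neg, map_neg]
  · rw [QuaternionAlgebra.imK_neg, bc_imK, bc_imK, QuaternionAlgebra.imK_neg, map_neg]

theorem bc_algebraMap (c : F) : bc L (algebraMap F (Qt a0 b0) c) =
    algebraMap L _ (algebraMap F L c) := by
  rw [QuaternionAlgebra.algebraMap_eq, QuaternionAlgebra.algebraMap_eq]
  ext
  · rfl
  · exact map_zero (algebraMap F L)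
  · exact map_zero (algebraMap F L)
  · exact map_zero (algebraMap F L)

theorem Pr.bc {u t : Qt a0 b0} (h : Pr a b u t) :
    Pr (Units.map (algebraMap F L).toMonoidHom a) (Units.map (algebraMap F L).toMonoidHom b)
      (bc L u) (bc L t) where
  ure := by
    change algebraMap F L u.re = 0
    rw [h.ure, map_zero]
  tre := by
    change algebraMap F L t.re = 0
    rw [h.tre, map_zero]
  uu := by rw [← bc_mul, h.uu, bc_algebraMap]; rfl
  tt := by rw [← bc_mul, h.tt, bc_algebraMap]; rfl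
  ut := by rw [← bc_mul, ← bc_mul, h.ut, bc_neg]

theorem Pr.transferL (h2 : (2 : F) ≠ 0) {u t : Qt a0 b0} (h : Pr a b u t)
    (h0 : ∃ x z : L, x ^ 2 - algebraMap F L a0 * z ^ 2 = algebraMap F L b0) :
    ∃ x z : L, x ^ 2 - algebraMap F L a * z ^ 2 = algebraMap F L b := by
  have h2L : (2 : L) ≠ 0 := by
    rw [← map_ofNat (algebraMap F L) 2]
    exact (map_ne_zero_iff _ (algebraMap F L).injective).mpr h2
  exact (h.bc L).transfer h2L h0

end bc

/-- **The presentation adapted to an element of norm one.** -/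
theorem exists_pres {F : Type} [Field F] (h2 : (2 : F) ≠ 0) {a0 b0 : Fˣ} (hA : Aniso a0 b0)
    (y : Qt a0 b0) (hy : nrd y = 1) (hy1 : y ≠ 1) (hy2 : y ≠ -1) :
    ∃ (a b : Fˣ) (φ : Qt a b →ₐ[F] Qt a0 b0), (∀ x, nrd (φ x) = nrd x) ∧
      (∀ x, (φ x).re = x.re) ∧ Function.Injective φ ∧ φ ⟨y.re, 1, 0, 0⟩ = y ∧
      (a : F) = (2 * y.re - 2) * (2 * y.re + 2) / 4 ∧ Aniso a b ∧
      ∀ (L : Type) [Field L] [Algebra F L],
        (∃ x z : L, x ^ 2 - algebraMap F L a0 * z ^ 2 = algebraMap F L b0) →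
        ∃ x z : L, x ^ 2 - algebraMap F L a * z ^ 2 = algebraMap F L b := by
  have h4 : (4 : F) ≠ 0 := by
    rw [show (4 : F) = 2 * 2 by norm_num]
    exact mul_ne_zero h2 h2
  -- the pure part
  let u : Qt a0 b0 := ⟨0, y.imI, y.imJ, y.imK⟩
  have hyu : y = algebraMap F _ y.re + u := by
    ext <;> simp [u, QuaternionAlgebra.algebraMap_eq]
  have hn : a0 * y.imI ^ 2 + b0 * y.imJ ^ 2 - a0 * b0 * y.imK ^ 2 = y.re ^ 2 - 1 := by
    rw [nrd] at hy
    linear_combination -hy
  have huu : u * u = algebraMap F _ (y.re ^ 2 - 1) := by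
    rw [← hn]
    ext <;> simp [u, QuaternionAlgebra.algebraMap_eq] <;> ring
  have hu0 : u ≠ 0 := by
    intro h0
    rw [h0, add_zero] at hyu
    rw [h0, mul_zero] at huu
    have h5 := (algebraMap F (Qt a0 b0)).injective (huu.symm.trans (map_zero _).symm)
    have h6 : (y.re - 1) * (y.re + 1) = 0 := by linear_combination h5
    rcases mul_eq_zero.mp h6 with h7 | h7
    · exact hy1 (by rw [hyu, sub_eq_zero.mp h7, map_one])
    · exact hy2 (by rw [hyu, eq_neg_of_add_eq_zero_left h7, map_neg, map_one])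
  have hnu : nrd u ≠ 0 := fun h => hu0 (hA u h)
  have ha0 : y.re ^ 2 - 1 ≠ 0 := by
    intro h5
    apply hnu
    rw [nrd]
    simp only [u]
    linear_combination -hn - h5
  -- an orthogonal pure vector
  obtain ⟨t, htre, ht0, hut⟩ : ∃ t : Qt a0 b0, t.re = 0 ∧ t ≠ 0 ∧ t * u = -(u * t) := by
    by_cases hpq : y.imI = 0 ∧ y.imJ = 0
    · refine ⟨⟨0, 1, 0, 0⟩, rfl, ?_, ?_⟩
      · intro h5
        have := congrArg QuaternionAlgebra.imI h5
        simp at this
      · ext <;> simp [u, hpq.1, hpq.2]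
    · refine ⟨⟨0, b0 * y.imJ, -(a0 * y.imI), 0⟩, rfl, ?_, ?_⟩
      · intro h5
        apply hpq
        have e1 := congrArg QuaternionAlgebra.imI h5
        have e2 := congrArg QuaternionAlgebra.imJ h5
        simp at e1 e2
        exact ⟨e2, e1⟩
      · ext <;> simp [u] <;> ring
  have hnt : nrd t ≠ 0 := fun h => ht0 (hA t h)
  have htt : t * t = algebraMap F _ (-nrd t) := by
    have h5 := mul_star_eq t
    rw [star_pure htre, mul_neg] at h5
    rw [map_neg, ← h5, neg_neg]
  let a : Fˣ := Units.mk0 (y.re ^ 2 - 1) ha0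
  let b : Fˣ := Units.mk0 (-nrd t) (neg_ne_zero.mpr hnt)
  have h : Pr a b u t := ⟨rfl, htre, huu, htt, hut⟩
  refine ⟨a, b, h.phi, h.nrd_phi h2, h.re_phi h2, h.injective h2, ?_, ?_, ?_, ?_⟩
  · rw [h.phi_apply]
    simp only [one_smul, zero_smul, add_zero]
    exact hyu.symm
  · change y.re ^ 2 - 1 = _
    field_simp
    ring
  · intro x hx
    rw [← h.nrd_phi h2] at hx
    exact h.injective h2 (by rw [hA _ hx, map_zero])
  · intro L _ _ h0
    exact h.transferL L h2 h0

end Vale.Agent.P011.H308.R6P
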