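import Vale.Agent.P011.H308.PlExt
import Vale.Agent.P011.H519.SplitPlace
import Vale.Agent.P011.H519.PolyPlaces
import Vale.Agent.P011.H271.GF

/-!
# Split places of an algebra with involution of the second kind over a function field

`A` central simple of degree `n` over `K`, with an involution of the second kind with fixed field
`k`, a global function field. Outside every finite set of places of `k` there is a place `v` with
large residue field such that `K` embeds in `k_v` and
`k_v ⊗_k A = M_n(k_v) × M_n(k_v)` with the involution `(X, Y) ↦ (Yᵀ, Xᵀ)`.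
-/

open Module Polynomial IsDedekindDomain Vale.Agent.P011.H738 Vale.Agent.P011.H519
  Vale.Agent.P011.H271

namespace Vale.Agent.P011.H308

/-! ### The quadratic extension -/

section quad

variable {k K : Type} [Field k] [Field K] [StarRing K] [Algebra k K]

/-- The fixed field of a nontrivial involution: the extension has degree at most two. -/
theorem finite_of_star (hfix : ∀ x : K, star x = x ↔ x ∈ Set.range (algebraMap k K))
    (hne : ∃ x : K, star x ≠ x) : FiniteDimensional k K := by
  obtain ⟨x, hx⟩ := hne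
  have hd : x - star x ≠ 0 := sub_ne_zero.mpr (Ne.symm hx)
  refine Module.finite_def.mpr (Submodule.fg_def.mpr ⟨{1, x}, Set.toFinite _, ?_⟩)
  rw [eq_top_iff]
  intro y _
  have h1 : star ((y - star y) / (x - star x)) = (y - star y) / (x - star x) := by
    rw [star_div₀, star_sub, star_sub, star_star, star_star, ← neg_sub y, ← neg_sub x, neg_div_neg_eq]
  obtain ⟨b, hb⟩ := (hfix _).mp h1
  have h2 : star (y - algebraMap k K b * x) = y - algebraMap k K b * x := by
    have h3 : star (algebraMap k K b) = algebraMap k K b := (hfix _).mpr ⟨b, rfl⟩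
    rw [star_sub, star_mul', h3]
    have h4 : algebraMap k K b * (x - star x) = y - star y := by
      rw [hb, div_mul_cancel₀ _ hd]
    linear_combination h4
  obtain ⟨a, ha⟩ := (hfix _).mp h2
  have h5 : y = a • (1 : K) + b • x := by
    rw [Algebra.smul_def, Algebra.smul_def, mul_one, ha]
    ring
  rw [h5]
  refine Submodule.add_mem _ (Submodule.smul_mem _ _ (Submodule.subset_span ?_))
    (Submodule.smul_mem _ _ (Submodule.subset_span ?_))
  · simp
  · simp

theorem separable_of_star (hfix : ∀ x : K, star x = x ↔ x ∈ Set.range (algebraMap k K)) :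
    Algebra.IsSeparable k K := by
  refine ⟨fun x => ?_⟩
  by_cases hx : star x = x
  · obtain ⟨a, rfl⟩ := (hfix x).mp hx
    exact isSeparable_algebraMap a
  · have hs : star (x + star x) = x + star x := by rw [star_add, star_star, add_comm]
    have hp : star (x * star x) = x * star x := by rw [star_mul', star_star, mul_comm]
    obtain ⟨a, ha⟩ := (hfix _).mp hs
    obtain ⟨b, hb⟩ := (hfix _).mp hp
    have hpoly : (X ^ 2 - C a * X + C b : k[X]).map (algebraMap k K) =
        (X - C x) * (X - C (star x)) := by
      simp only [Polynomial.map_add, Polynomial.map_sub, Polynomial.map_pow, Polynomial.map_X,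
        Polynomial.map_mul, Polynomial.map_C, ha, hb]
      rw [C_add, C_mul]
      ring
    have hsep : (X ^ 2 - C a * X + C b : k[X]).Separable := by
      rw [← Polynomial.separable_map (algebraMap k K), hpoly]
      refine Separable.mul (separable_X_sub_C) (separable_X_sub_C) ?_
      exact Polynomial.isCoprime_X_sub_C_of_isUnit_sub
        (sub_ne_zero.mpr (Ne.symm hx)).isUnit
    have hroot : aeval x (X ^ 2 - C a * X + C b : k[X]) = 0 := by
      rw [aeval_def, ← eval_map, hpoly]
      simp
    exact Separable.of_dvd hsep (minpoly.dvd k x hroot)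

end quad

/-! ### Spanning -/

section span

variable {k K B F : Type} [Field k] [Field K] [Field F] [StarRing K] [Ring B] [StarRing B]
  [Algebra K B] [Algebra k K] [StarModule K B] [Algebra.IsCentral K B] [IsSimpleRing B]

/-- Distinct embeddings of `k` give independent factors `M_n(F) × M_n(F)` with the involution
`(X, Y) ↦ (Yᵀ, Xᵀ)`. -/
theorem span_swap_pi (hne : ∃ x : K, star x ≠ x)
    (hk : ∀ x : k, star (algebraMap k K x) = algebraMap k K x)
    {n : ℕ} (hn : n ≠ 0) (hB : finrank K B = n ^ 2) {T : Type} [Finite T]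
    (s : T → k →+* F) (hs : Function.Injective s) (σ : T → K →+* F)
    (hσ : ∀ t (c : k), σ t (algebraMap k K c) = s t c)
    (f : T → B →+* Matrix (Fin n) (Fin n) F)
    (hf : ∀ t (c : K), f t (algebraMap K B c) = algebraMap _ _ (σ t c)) :
    Submodule.span F (Set.range fun (x : B) (t : T) =>
      (f t x, (f t (star x)).transpose)) = ⊤ := by
  classical
  let τ : T × Bool → K →+* F := fun p =>
    if p.2 then (σ p.1) else (σ p.1).comp (starRingEnd K)
  have hτk : ∀ p (c : k), τ p (algebraMap k K c) = s p.1 c := by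
    rintro ⟨t, b⟩ c
    cases b with
    | true => exact hσ t c
    | false =>
      change σ t (star (algebraMap k K c)) = s t c
      rw [hk, hσ]
  have hτ : Function.Injective τ := by
    rintro ⟨t, b⟩ ⟨t', b'⟩ h
    have ht : t = t' := by
      refine hs (RingHom.ext fun c => ?_)
      have h1 := hτk (t, b) c
      rw [h, hτk] at h1
      exact h1.symm
    subst ht
    obtain ⟨x, hx⟩ := hne
    have hx' : σ t x ≠ σ t (star x) := fun h' => hx ((σ t).injective h').symm
    cases b <;> cases b'
    · rfl
    · exact absurd (DFunLike.congr_fun h x).symm hx'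
    · exact absurd (DFunLike.congr_fun h x) hx'
    · rfl
  let f' : T × Bool → B →+* Matrix (Fin n) (Fin n) F := fun p =>
    if p.2 then f p.1 else transp (f p.1)
  have hf' : ∀ p (c : K), f' p (algebraMap K B c) = algebraMap _ _ (τ p c) := by
    rintro ⟨t, b⟩ c
    cases b with
    | true => exact hf t c
    | false =>
      change (f t (star (algebraMap K B c))).transpose = algebraMap _ _ (σ t (star c))
      rw [star_algebraMap, hf, Matrix.algebraMap_eq_diagonal, Matrix.diagonal_transpose]
  have hspan := span_pi_eq_top hB hn hτ f' hf'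
  let e : (T × Bool → Matrix (Fin n) (Fin n) F) →ₗ[F]
      (T → Matrix (Fin n) (Fin n) F × Matrix (Fin n) (Fin n) F) :=
    { toFun := fun w t => (w (t, true), w (t, false))
      map_add' := fun _ _ => rfl
      map_smul' := fun _ _ => rfl }
  have he : Function.Surjective e := fun w =>
    ⟨fun p => if p.2 then (w p.1).1 else (w p.1).2, rfl⟩
  have h1 := Submodule.map_span e (Set.range fun (x : B) t => f' t x)
  rw [hspan, Submodule.map_top, LinearMap.range_eq_top.mpr he, ← Set.range_comp] at h1
  exact h1.symm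

/-- The case of one embedding. -/
theorem span_swap (hne : ∃ x : K, star x ≠ x)
    {n : ℕ} (hn : n ≠ 0) (hB : finrank K B = n ^ 2) (σ : K →+* F)
    (f : B →+* Matrix (Fin n) (Fin n) F)
    (hf : ∀ (c : K), f (algebraMap K B c) = algebraMap _ _ (σ c)) :
    Submodule.span F (Set.range fun (x : B) =>
      (f x, (f (star x)).transpose)) = ⊤ := by
  classical
  let τ : Bool → K →+* F := fun b => if b then σ else σ.comp (starRingEnd K)
  have hτ : Function.Injective τ := by
    obtain ⟨x, hx⟩ := hne
    have hx' : σ x ≠ σ (star x) := fun h' => hx (σ.injective h').symm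
    intro b b' h
    cases b <;> cases b'
    · rfl
    · exact absurd (DFunLike.congr_fun h x).symm hx'
    · exact absurd (DFunLike.congr_fun h x) hx'
    · rfl
  let f' : Bool → B →+* Matrix (Fin n) (Fin n) F := fun b => if b then f else transp f
  have hf' : ∀ p (c : K), f' p (algebraMap K B c) = algebraMap _ _ (τ p c) := by
    rintro b c
    cases b with
    | true => exact hf c
    | false =>
      change (f (star (algebraMap K B c))).transpose = algebraMap _ _ (σ (star c))
      rw [star_algebraMap, hf, Matrix.algebraMap_eq_diagonal, Matrix.diagonal_transpose]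
  have hspan := span_pi_eq_top hB hn hτ f' hf'
  let e : (Bool → Matrix (Fin n) (Fin n) F) →ₗ[F]
      (Matrix (Fin n) (Fin n) F × Matrix (Fin n) (Fin n) F) :=
    { toFun := fun w => (w true, w false)
      map_add' := fun _ _ => rfl
      map_smul' := fun _ _ => rfl }
  have he : Function.Surjective e := fun w =>
    ⟨fun p => if p then w.1 else w.2, rfl⟩
  have h1 := Submodule.map_span e (Set.range fun (x : B) t => f' t x)
  rw [hspan, Submodule.map_top, LinearMap.range_eq_top.mpr he, ← Set.range_comp] at h1
  exact h1.symm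

end span

/-- The order of the residue field of a place. -/
noncomputable def resCard {k : Type} [Field k] (v : Place k) : ℕ :=
  Nat.card (integers v.abv v.nonarch ⧸ maxIdeal v.abv v.nonarch)

theorem resCard_plHos {A K₀ : Type} [CommRing A] [IsDedekindDomain A] [Field K₀] [Algebra A K₀]
    [IsFractionRing A K₀] (v : HeightOneSpectrum A) [Finite (A ⧸ v.asIdeal)] :
    resCard (plHos K₀ v) = Nat.card (A ⧸ v.asIdeal) :=
  hosAbv_residue.2

theorem resCard_plExt {K₀ k : Type} [Field K₀] [Field k] [Algebra K₀ k] (w : Place K₀)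
    (s : k →ₐ[K₀] w.comp) : resCard (plExt w s) = resCard w :=
  (ext_residue w s).2

/-! ### Totally split places -/

section total

variable {Fq : Type} [Field Fq] [Finite Fq] {k K A : Type} [Field k] [Field K] [StarRing K]
  [Ring A] [StarRing A] [Algebra (RatFunc Fq) k] [FiniteDimensional (RatFunc Fq) k]
  [Algebra.IsSeparable (RatFunc Fq) k]
  [Algebra k K] [Algebra K A] [StarModule K A]

theorem exists_total (hfix : ∀ x : K, star x = x ↔ x ∈ Set.range (algebraMap k K))
    (hne : ∃ x : K, star x ≠ x) (hc : Algebra.IsCentral K A) (hsimple : IsSimpleRing A) {n : ℕ}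
    (hn : n ≠ 0) (hA : finrank K A = n ^ 2) {S : Set (Place k)} (hS : S.Finite) (N : ℕ) :
    ∃ w : Place (RatFunc Fq), N < resCard w ∧
      Nat.card (k →ₐ[RatFunc Fq] w.comp) = finrank (RatFunc Fq) k ∧
      (∀ s : k →ₐ[RatFunc Fq] w.comp, plExt w s ∉ S) ∧
      ∃ (σ : (k →ₐ[RatFunc Fq] w.comp) → K →+* w.comp)
        (f : (k →ₐ[RatFunc Fq] w.comp) → A →+* Matrix (Fin n) (Fin n) w.comp),
        (∀ s (c : k), σ s (algebraMap k K c) = s c) ∧
        (∀ s (c : K), f s (algebraMap K A c) = algebraMap _ _ (σ s c)) := by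
  classical
  let _ : Algebra (RatFunc Fq) K := ((algebraMap k K).comp (algebraMap (RatFunc Fq) k)).toAlgebra
  have htow : IsScalarTower (RatFunc Fq) k K := IsScalarTower.of_algebraMap_eq fun _ => rfl
  have hfdK : FiniteDimensional k K := finite_of_star hfix hne
  have hsepK : Algebra.IsSeparable k K := separable_of_star hfix
  have hfd : FiniteDimensional (RatFunc Fq) K := FiniteDimensional.trans (RatFunc Fq) k K
  have hsep : Algebra.IsSeparable (RatFunc Fq) K := Algebra.IsSeparable.trans (RatFunc Fq) k K
  have hun : Finite Fq[X]ˣ := finite_units_poly Fq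
  -- the primes to be avoided
  let S₁ : Set (HeightOneSpectrum Fq[X]) := {v | Nat.card (Fq[X] ⧸ v.asIdeal) ≤ N}
  let S₂ : Set (HeightOneSpectrum Fq[X]) := {v | ∃ w ∈ S, ∀ a : Fq[X], a ∈ v.asIdeal ↔
    w.abv (algebraMap (RatFunc Fq) k (algebraMap Fq[X] (RatFunc Fq) a)) < 1}
  have hS₁ : S₁.Finite := finite_small Fq N
  have hS₂ : S₂.Finite := by
    have h1 : ∀ w ∈ S, {v : HeightOneSpectrum Fq[X] | ∀ a : Fq[X], a ∈ v.asIdeal ↔
        w.abv (algebraMap (RatFunc Fq) k (algebraMap Fq[X] (RatFunc Fq) a)) < 1}.Finite := by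
      intro w _
      refine Set.Subsingleton.finite ?_
      intro v hv v' hv'
      refine HeightOneSpectrum.ext (Ideal.ext fun a => ?_)
      rw [hv a, hv' a]
    refine (hS.biUnion h1).subset ?_
    rintro v ⟨w, hw, hv⟩
    exact Set.mem_biUnion hw hv
  obtain ⟨v, hv, hsp, hcard, σ, f, hσ, hf, -⟩ := exists_swap (A := Fq[X]) (K₀ := RatFunc Fq)
    (K := K) (B := A) (k := k) hne (fun x => (hfix _).mpr ⟨x, rfl⟩) hn hA (hS₁.union hS₂)
  have hquot := hasFiniteQuotients_poly Fq
  have hfinq : Finite (Fq[X] ⧸ v.asIdeal) := Ring.HasFiniteQuotients.finiteQuotient v.ne_bot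
  let w : Place (RatFunc Fq) := plHos (RatFunc Fq) v
  let ι : v.adicCompletion (RatFunc Fq) →ₐ[RatFunc Fq] w.comp :=
    { toPl (RatFunc Fq) v with commutes' := toPl_algebraMap }
  have hι : Function.Injective ι := ι.toRingHom.injective
  let c : (k →ₐ[RatFunc Fq] v.adicCompletion (RatFunc Fq)) → (k →ₐ[RatFunc Fq] w.comp) :=
    fun s => ι.comp s
  have hcinj : Function.Injective c := by
    intro s s' h
    refine AlgHom.ext fun x => hι ?_
    exact DFunLike.congr_fun h x
  have hfin1 : Finite (k →ₐ[RatFunc Fq] w.comp) := inferInstance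
  have hle : Nat.card (k →ₐ[RatFunc Fq] w.comp) ≤ finrank (RatFunc Fq) k :=
    card_algHom_le_finrank _ _ _
  have hge : finrank (RatFunc Fq) k ≤ Nat.card (k →ₐ[RatFunc Fq] w.comp) := by
    rw [← hcard]
    exact Nat.card_le_card_of_injective c hcinj
  have heq := le_antisymm hle hge
  have hcsurj : Function.Surjective c := by
    have hb := (Nat.bijective_iff_injective_and_card c).mpr ⟨hcinj, by rw [hcard, heq]⟩
    exact hb.2
  obtain ⟨d, hd⟩ := hcsurj.hasRightInverse
  refine ⟨w, ?_, heq, ?_, fun s => ι.toRingHom.comp (σ (d s)).toRingHom,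
    fun s => (ι.toRingHom.mapMatrix).comp (f (d s)), ?_, ?_⟩
  · rw [resCard_plHos]
    by_contra hcon
    exact hv (Or.inl (not_lt.mp hcon))
  · intro s hs
    refine hv (Or.inr ⟨plExt w s, hs, fun a => ?_⟩)
    rw [plExt_abv, s.commutes, norm_algebraMap]
    exact (v.adicAbv_coe_lt_one_iff (one_lt_qv v) a).symm
  · intro s x
    have h1 := DFunLike.congr_fun (hd s) x
    change ι (σ (d s) (algebraMap k K x)) = s x
    rw [hσ]
    exact h1
  · intro s x
    change (ι.toRingHom.mapMatrix) (f (d s) (algebraMap K A x)) = _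
    rw [hf]
    refine Matrix.ext fun i j => ?_
    rw [RingHom.mapMatrix_apply, Matrix.map_apply, Matrix.algebraMap_matrix_apply,
      Matrix.algebraMap_matrix_apply]
    split_ifs
    · rfl
    · exact map_zero _

end total

/-! ### The results over global function fields -/

section main

variable {k K A : Type} [Field k] [Field K] [StarRing K] [Ring A] [StarRing A]
  [Algebra k K] [Algebra k A] [Algebra K A] [IsScalarTower k K A] [StarModule K A] {n : ℕ}

theorem exists_str (hk : IsGlobalFunctionField k) :
    ∃ (Fq : Type) (_ : Field Fq) (_ : Finite Fq) (φ : RatFunc Fq →+* k), IsStr Fq k φ := by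
  obtain ⟨Fq, _, _, _, hfd⟩ := hk
  obtain ⟨φ, h1, h2⟩ := exists_separating Fq k
  exact ⟨Fq, inferInstance, inferInstance, φ, h1, h2⟩

/-- **Totally split places.** `k` is finite separable over `K₀ = F_q(t)`, and there is a place `w`
of `K₀` such that `k` has `[k : K₀]` embeddings `s` in `K₀_w`, each with an embedding `σ s` of `K`
over `s` and a splitting `f s` of `A` over `σ s`, and the elements `(f s x, (f s x*)ᵀ)_s`, `x ∈ A`,
span `∏ s, M_n(K₀_w) × M_n(K₀_w)`: the algebra with involution `K₀_w ⊗ A` is the product of the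
algebras `M_n(K₀_w) × M_n(K₀_w)` with the involutions `(X, Y) ↦ (Yᵀ, Xᵀ)`. The residue field of `w`
has more than `N` elements, and the places of `k` given by the embeddings `s` are not in `S`. -/
theorem exists_totally_split (hk : IsGlobalFunctionField k) (hn : n ≠ 0) (hA : Anis k K A n)
    {S : Set (Place k)} (hS : S.Finite) (N : ℕ) :
    ∃ (Fq : Type) (_ : Field Fq) (_ : Finite Fq) (φ : RatFunc Fq →+* k) (_ : IsStr Fq k φ)
      (w : Place (RatFunc Fq)), N < resCard w ∧
      letI := φ.toAlgebra
      Nat.card (k →ₐ[RatFunc Fq] w.comp) = finrank (RatFunc Fq) k ∧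
      (∀ s : k →ₐ[RatFunc Fq] w.comp, plExt w s ∉ S) ∧
      ∃ (σ : (k →ₐ[RatFunc Fq] w.comp) → K →+* w.comp)
        (f : (k →ₐ[RatFunc Fq] w.comp) → A →+* Matrix (Fin n) (Fin n) w.comp),
        (∀ s (c : k), σ s (algebraMap k K c) = s c) ∧
        (∀ s (c : K), f s (algebraMap K A c) = algebraMap _ _ (σ s c)) ∧
        Submodule.span w.comp (Set.range fun (x : A) (s : k →ₐ[RatFunc Fq] w.comp) =>
          (f s x, (f s (star x)).transpose)) = ⊤ := by
  obtain ⟨Fq, _, _, φ, hφ⟩ := exists_str hk
  refine ⟨Fq, inferInstance, inferInstance, φ, hφ, ?_⟩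
  let _ := φ.toAlgebra
  have h1 : FiniteDimensional (RatFunc Fq) k := hφ.1
  have h2 : Algebra.IsSeparable (RatFunc Fq) k := hφ.2
  have hc := hA.central
  have hs := hA.simple
  obtain ⟨w, hN, hcard, hout, σ, f, hσ, hf⟩ :=
    exists_total (Fq := Fq) hA.fixed hA.star_ne hA.central hA.simple hn hA.finrank_eq hS N
  refine ⟨w, hN, hcard, hout, σ, f, hσ, hf, ?_⟩
  refine span_swap_pi hA.star_ne (fun x => (hA.fixed _).mpr ⟨x, rfl⟩) hn hA.finrank_eq
    (fun s : k →ₐ[RatFunc Fq] w.comp => (s : k →+* w.comp)) ?_ σ hσ f hf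
  intro s s' h
  exact AlgHom.ext fun x => DFunLike.congr_fun h x

/-- **Split places.** Outside every finite set of places of `k` there is a place `v` with more than
`N` elements in the residue field, such that `K` embeds in `k_v` over `k`, `A` maps to `M_n(k_v)`
over this embedding, and the elements `(f x, (f x*)ᵀ)`, `x ∈ A`, span `M_n(k_v) × M_n(k_v)`: the
algebra with involution `k_v ⊗ A` is `M_n(k_v) × M_n(k_v)` with the involution
`(X, Y) ↦ (Yᵀ, Xᵀ)`. -/
theorem exists_split_place (hk : IsGlobalFunctionField k) (hn : n ≠ 0) (hA : Anis k K A n)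
    {S : Set (Place k)} (hS : S.Finite) (N : ℕ) :
    ∃ v : Place k, v ∉ S ∧ N < resCard v ∧
      ∃ (σ : K →ₐ[k] v.comp) (f : A →+* Matrix (Fin n) (Fin n) v.comp),
        (∀ c : K, f (algebraMap K A c) = algebraMap _ _ (σ c)) ∧
        Submodule.span v.comp (Set.range fun x : A => (f x, (f (star x)).transpose)) = ⊤ := by
  obtain ⟨Fq, _, _, φ, hφ, w, hN, hw⟩ := exists_totally_split hk hn hA hS N
  let _ := φ.toAlgebra
  have h1 : FiniteDimensional (RatFunc Fq) k := hφ.1
  have hc := hA.central
  have hs := hA.simple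
  obtain ⟨hcard, hout, σ, f, hσ, hf, -⟩ := hw
  have hpos : 0 < Nat.card (k →ₐ[RatFunc Fq] w.comp) := by
    rw [hcard]
    exact finrank_pos
  obtain ⟨⟨s⟩, -⟩ := Nat.card_pos_iff.mp hpos
  let v := plExt w s
  let e : w.comp ≃+* v.comp := (extE w s).symm
  have he : ∀ x : k, e (s x) = algebraMap k v.comp x := extE_symm_apply w s
  let σ' : K →ₐ[k] v.comp := { (e.toRingHom.comp (σ s)) with
    commutes' := fun c => by
      change e (σ s (algebraMap k K c)) = _
      rw [hσ, he] }
  have hf' : ∀ c : K, (e.toRingHom.mapMatrix).comp (f s) (algebraMap K A c) =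
      algebraMap _ _ (σ' c) := by
    intro c
    change (e.toRingHom.mapMatrix) (f s (algebraMap K A c)) = _
    rw [hf]
    refine Matrix.ext fun i j => ?_
    rw [RingHom.mapMatrix_apply, Matrix.map_apply, Matrix.algebraMap_matrix_apply,
      Matrix.algebraMap_matrix_apply]
    split_ifs
    · rfl
    · exact map_zero _
  refine ⟨v, hout s, ?_, σ', (e.toRingHom.mapMatrix).comp (f s), hf', ?_⟩
  · rw [resCard_plExt]
    exact hN
  · exact span_swap hA.star_ne hn hA.finrank_eq (σ' : K →+* v.comp) _ hf'

end main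

end Vale.Agent.P011.H308
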