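import Vale.Agent.P011.H308.M8g
import Vale.Agent.P011.H948.Root
import Vale.Agent.P011.H279.M10F
import Vale.Agent.P011.H279.M8aF

/-!
# The rho-part at the ramified places of a function field
-/

set_option linter.unusedSectionVars false

open Module TensorProduct

namespace Vale.Agent.P011.H308

open Vale.Agent.P011.H775 Vale.Agent.P011.H948 Vale.Agent.P011.H305
  Vale.Agent.P011.H738 Vale.Agent.P011.H271
open Vale.Agent.P011.H182 (na)

variable {k K D : Type} [Field k] [Field K] [StarRing K]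
  [DivisionRing D] [StarRing D] [Algebra k K] [Algebra k D] [Algebra K D] [IsScalarTower k K D]
  {d : kˣ} {s : K} {N : ℕ}

theorem bs_of_setF (hS : SetF k K D d s) (h3 : (3 : k) ≠ 0) : Bs k K :=
  ⟨fun c hc => (hS.fix c).1 hc, fun c => (hS.fix _).2 ⟨c, rfl⟩, hS.rank, hS.two_ne, h3⟩

/-- **The rho-part over function fields.** -/
theorem rho_ff [GFF k] (hS : SetF k K D d s) (h3 : (3 : k) ≠ 0) (hdeg : finrank K D = 3 ^ 2)
    (C : Cub K D) (B : Basis (Fin N) k D) {gs ys rs : D} (hL : Lim C gs ys rs)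
    {Td : Set (Place k)} (hTd : Td.Finite) (hne : Td.Nonempty) :
    ∃ η : ℝ, 0 < η ∧ ∀ (l : k) (g y r : D), l ≠ 0 →
      (∀ v ∈ Td, v.abv l < η ∧ na B v.abv (l • g - gs) < η ∧ na B v.abv (l • y - ys) < η ∧
        na B v.abv (r - rs) < η) →
      ∀ (F : Type) [Field F] [Algebra k F] [FiniteDimensional k F] [Algebra.IsSeparable k F]
        (φ : F →ₐ[k] D) (σ : F) [FiniteDimensional K D] [Algebra.IsCentral K D] (M : Dat C φ),
        H279.PartI.Adm d s g y r σ M → ∃ z : F × k, H279.PartI.Rho M z ∧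
          ∀ v ∈ Td, H279.M10F.Gv F v (M.A z) (M.G z) := by
  have _ := hS.fin
  have _ := hS.cen
  have hC := sCub_of C hdeg hS.star_smul
  have H := bs_of_setF hS h3
  have hfK : Module.Finite k K := Module.finite_of_finrank_pos (by rw [H.hK]; norm_num)
  have hfD : Module.Finite k D := Module.Finite.trans K D
  have hinf : Infinite k := by
    obtain ⟨v0, -⟩ := hne
    exact WauF.infinite_of_placeW v0
  have hfin : Finite Td := hTd.to_subtype
  have hnon : Nonempty Td := hne.to_subtype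
  obtain ⟨η, hη, h⟩ := rho_end H hC B s d.ne_zero hL (fun v : Td => (v : Place k).abv) (by
    intro δ hδ
    obtain ⟨κ, h1, h2⟩ := H279.M8a.exists_lam0 hTd hδ
    exact ⟨κ, h1, fun v => h2 v v.2⟩)
  refine ⟨η, hη, ?_⟩
  intro l g y r hl hnear F _ _ _ _ φ σ _ _ M hM
  obtain ⟨z, q1, q2, q3, q4⟩ := h l g y r hl (fun v => hnear v v.2) F φ σ M
    ⟨hM.hσ, hM.a, hM.b, hM.p, hM.g, hM.y, hM.δ, hM.d⟩
  refine ⟨z, ⟨q1, q2, q3⟩, fun v hv => Or.inr (Or.inl ?_)⟩
  obtain ⟨c3, c2, c1, c0, n3, i1, i0, hL'⟩ := q4 ⟨v, hv⟩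
  obtain ⟨μ, hμ⟩ := exists_root_comp v n3 i1 i0
  exact hL' v.comp μ hμ

end Vale.Agent.P011.H308
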