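import Vale.Agent.P011.H308.M8g
import Vale.Agent.P011.H948.Root
import Vale.Agent.P011.H321.PartIof
import Vale.Agent.P011.H321.M8a
import Vale.Agent.P011.H775.Final2

/-!
# The rho-part at the ramified places of a number field
-/

set_option linter.unusedSectionVars false

open Module TensorProduct NumberField IsDedekindDomain Filter Topology

namespace Vale.Agent.P011.H308

open Vale.Agent.P011.H775 Vale.Agent.P011.H948 Vale.Agent.P011.Arith Vale.Agent.P011.Even
open Vale.Agent.P011.H182 (na)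

variable {k K D : Type} [Field k] [NumberField k] [Field K] [StarRing K]
  [DivisionRing D] [StarRing D] [Algebra k K] [Algebra k D] [Algebra K D] [IsScalarTower k K D]
  {d : kˣ} {s : K} {N : ℕ}

theorem bs_of_setting (hS : Setting k K D d s) : Bs k K :=
  ⟨fun c hc => (hS.fix c).1 hc, fun c => (hS.fix _).2 ⟨c, rfl⟩, hS.rank, two_ne_zero,
    three_ne_zero⟩

/-- **The rho-part over number fields.** -/
theorem rho_nf (hS : Setting k K D d s) (hdeg : finrank K D = 3 ^ 2)
    (C : Cub K D) (B : Basis (Fin N) k D) {gs ys rs : D} (hL : Lim C gs ys rs)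
    {Td : Set (HeightOneSpectrum (𝓞 k))} (hTd : Td.Finite) (hne : Td.Nonempty) :
    ∃ η : ℝ, 0 < η ∧ ∀ (l : k) (g y r : D), l ≠ 0 →
      (∀ v ∈ Td, plAbv (Sum.inl v) l < η ∧ nm B (Sum.inl v) (l • g - gs) < η ∧
        nm B (Sum.inl v) (l • y - ys) < η ∧ nm B (Sum.inl v) (r - rs) < η) →
      ∀ (F : Type) [Field F] [NumberField F] [Algebra k F] (φ : F →ₐ[k] D) (σ : F)
        [FiniteDimensional K D] [Algebra.IsCentral K D] (M : Dat C φ),
        H321.PartI.Adm d s g y r σ M → ∃ z : F × k, H321.PartI.Rho M z ∧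
          ∀ v ∈ Td, H775.GD F v (M.A z) (M.G z) := by
  have _ := hS.fin
  have _ := hS.cen
  have hC := sCub_of C hdeg hS.star_smul
  have H := bs_of_setting hS
  have hfK : Module.Finite k K := Module.finite_of_finrank_pos (by rw [H.hK]; norm_num)
  have hfD : Module.Finite k D := Module.Finite.trans K D
  have hfin : Finite Td := hTd.to_subtype
  have hnon : Nonempty Td := hne.to_subtype
  obtain ⟨η, hη, h⟩ := rho_end H hC B s d.ne_zero hL
    (fun v : Td => plAbv (Sum.inl (v : HeightOneSpectrum (𝓞 k)))) (by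
    intro δ hδ
    obtain ⟨lam, h1, h2⟩ := H321.M8a.exists_lam hTd
    have h3 : ∀ v : Td, ∀ᶠ j in atTop, plAbv (Sum.inl (v : HeightOneSpectrum (𝓞 k))) (lam j) <
        δ := fun v => (h2 v v.2).eventually_lt_const hδ
    obtain ⟨j, hj⟩ := (eventually_all.2 h3).exists
    exact ⟨lam j, h1 j, hj⟩)
  refine ⟨η, hη, ?_⟩
  intro l g y r hl hnear F _ _ _ φ σ _ _ M hM
  obtain ⟨z, q1, q2, q3, q4⟩ := h l g y r hl (fun v => hnear v v.2) F φ σ M
    ⟨hM.hσ, hM.a, hM.b, hM.p, hM.g, hM.y, hM.δ, hM.d⟩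
  refine ⟨z, ⟨q1, q2, q3⟩, fun v hv => Or.inl (Or.inr ?_)⟩
  obtain ⟨c3, c2, c1, c0, n3, i1, i0, hL'⟩ := q4 ⟨v, hv⟩
  obtain ⟨μ, hμ⟩ := exists_root_plAbv v n3 i1 i0
  exact hL' (v.adicCompletion k) μ hμ

end Vale.Agent.P011.H308
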